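import Crest.Agent.R98.Defs

/-! # R98 ED: discrete entropy and words (task 98-ED) -/

set_option autoImplicit false

open MeasureTheory

namespace Crest.Agent.R98

section disc
variable {G : Type}

theorem Ent_nonneg {ν : MA G} (h : IsP ν) : 0 ≤ Ent ν := by
  rw [Ent_eq_sum]
  exact Finset.sum_nonneg fun x _ => Real.negMulLog_nonneg (h.nn x) (h.le1 x)

/-- `∑ φ(qᵢ) ≤ log M` for a probability vector on a finset with at most `M` points
(`φ(q) ≤ q log M + 1/M - q`, from `log x ≤ x - 1`). -/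
theorem sum_negMulLog_le {κ : Type*} {s : Finset κ} {q : κ → ℝ} (hq : ∀ j ∈ s, 0 ≤ q j)
    (h1 : ∑ j ∈ s, q j = 1) {M : ℝ} (hM : (s.card : ℝ) ≤ M) :
    ∑ j ∈ s, Real.negMulLog (q j) ≤ Real.log M := by
  have hne : s.Nonempty := by
    rw [Finset.nonempty_iff_ne_empty]
    rintro rfl
    simp at h1
  have hc : (1 : ℝ) ≤ s.card := by exact_mod_cast hne.card_pos
  have hM0 : 0 < M := by linarith
  have key : ∀ j ∈ s, Real.negMulLog (q j) ≤ q j * Real.log M + 1 / M - q j := by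
    intro j hj
    rcases (hq j hj).eq_or_lt with h0 | h0
    · rw [← h0]; simp [hM0.le]
    · have h2 := Real.log_le_sub_one_of_pos (show 0 < (q j * M)⁻¹ by positivity)
      rw [Real.log_inv, Real.log_mul h0.ne' hM0.ne'] at h2
      have h3 := mul_le_mul_of_nonneg_left h2 h0.le
      have h4 : q j * ((q j * M)⁻¹ - 1) = 1 / M - q j := by field_simp
      rw [h4] at h3
      unfold Real.negMulLog
      linarith
  refine (Finset.sum_le_sum key).trans ?_
  rw [Finset.sum_sub_distrib, Finset.sum_add_distrib, ← Finset.sum_mul, h1, Finset.sum_const,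
    nsmul_eq_mul]
  have : (s.card : ℝ) * (1 / M) ≤ 1 := by
    rw [mul_one_div, div_le_one hM0]; exact hM
  linarith

theorem Ent_le_log {ν : MA G} (h : IsP ν) {M : ℝ} (hM : ((sp ν).card : ℝ) ≤ M) :
    Ent ν ≤ Real.log M := by
  rw [Ent_eq_sum]
  exact sum_negMulLog_le (fun x _ => h.nn x) h.sum hM

theorem ED_sub {κ : Type*} {s : Finset κ} {a : κ → ℝ} (ha : ∀ j ∈ s, 0 ≤ a j) :
    Real.negMulLog (∑ j ∈ s, a j) ≤ ∑ j ∈ s, Real.negMulLog (a j) := by
  unfold Real.negMulLog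
  rw [neg_mul, Finset.sum_mul, ← Finset.sum_neg_distrib]
  refine Finset.sum_le_sum fun j hj => ?_
  rcases (ha j hj).eq_or_lt with h0 | h0
  · rw [← h0]; simp
  · have := Real.log_le_log h0 (Finset.single_le_sum ha hj)
    nlinarith

/-- subadditivity of `φ` on nonnegatives and `φ(c a) = c φ(a) + a φ(c)` -/
theorem Ent_mix_le {κ : Type*} {s : Finset κ} {c : κ → ℝ} {ν : κ → MA G} (hc : ∀ j ∈ s, 0 ≤ c j)
    (h : ∀ j ∈ s, IsP (ν j)) :
    Ent (∑ j ∈ s, c j • ν j) ≤ ∑ j ∈ s, Real.negMulLog (c j) + ∑ j ∈ s, c j * Ent (ν j) := by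
  classical
  have hsub : sp (∑ j ∈ s, c j • ν j) ⊆ s.biUnion fun j => sp (ν j) := fun z hz => by
    obtain ⟨j, hj, -, hz'⟩ := mem_sp_mix hz
    exact Finset.mem_biUnion.2 ⟨j, hj, hz'⟩
  rw [Ent_eq_sum_of _ hsub, ← Finset.sum_add_distrib]
  have e : ∀ j ∈ s, Real.negMulLog (c j) + c j * Ent (ν j) =
      ∑ x ∈ s.biUnion fun j => sp (ν j), Real.negMulLog (c j * (ν j).coeff x) := by
    intro j hj
    have hs : sp (ν j) ⊆ s.biUnion fun j => sp (ν j) := Finset.subset_biUnion_of_mem (fun j => sp (ν j)) hj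
    have h1 := (h j hj).one
    rw [ex_eq_sum_of _ _ hs] at h1
    simp only [smul_eq_mul, mul_one] at h1
    simp only [Real.negMulLog_mul]
    rw [Finset.sum_add_distrib, ← Finset.sum_mul, ← Finset.mul_sum, h1, one_mul,
      Ent_eq_sum_of _ hs]
  rw [Finset.sum_congr rfl e, Finset.sum_comm]
  refine Finset.sum_le_sum fun x _ => ?_
  rw [AddMonoidAlgebra.coeff_sum, Finsupp.finsetSum_apply]
  simp only [AddMonoidAlgebra.coeff_smul_apply, smul_eq_mul]
  exact ED_sub fun j hj => mul_nonneg (hc j hj) ((h j hj).nn x)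

/-- `x ↦ ⟨a, x⟩` is injective (`Finsupp.sum_mapDomain_index_inj`) -/
theorem Ent_emb (a : ℝ) (τ : FM) : Ent (emb a τ) = Ent τ := by
  refine Finsupp.sum_mapDomain_index_inj fun x y h => ?_
  exact congrArg Aff.b h

/-- every point of the image is `∑ x ∈ sp ν, k x • φ x` with `k x ≤ T` -/
theorem card_image_pow_le [AddMonoid G] {G' : Type} [AddCommMonoid G'] [DecidableEq G']
    (φ : G →+ G') (ν : MA G) (T : ℕ) :
    ((sp (ν ^ T)).image φ).card ≤ (T + 1) ^ (sp ν).card := by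
  classical
  have key : ∀ T : ℕ, ∀ z ∈ sp (ν ^ T), ∃ k : G → ℕ, (∀ x, k x ≤ T) ∧
      φ z = ∑ x ∈ sp ν, k x • φ x := by
    intro T
    induction T with
    | zero =>
      intro z hz
      rw [pow_zero] at hz
      rw [mem_sp_dl (x := 0) hz]
      exact ⟨0, fun _ => le_rfl, by simp⟩
    | succ T ih =>
      intro z hz
      rw [pow_succ] at hz
      obtain ⟨a, ha, b, hb, rfl⟩ := mem_sp_mul hz
      obtain ⟨k, hk, e⟩ := ih a ha
      refine ⟨fun x => k x + if x = b then 1 else 0, fun x => ?_, ?_⟩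
      · have := hk x
        beta_reduce
        split_ifs <;> omega
      · simp only [add_smul, Finset.sum_add_distrib, ite_smul, one_smul, zero_smul,
          Finset.sum_ite_eq', if_pos hb, map_add, e]
  have hsub : (sp (ν ^ T)).image φ ⊆
      Finset.univ.image fun k : sp ν → Fin (T + 1) => ∑ x, (k x : ℕ) • φ x.1 := by
    intro y hy
    obtain ⟨z, hz, rfl⟩ := Finset.mem_image.1 hy
    obtain ⟨k, hk, e⟩ := key T z hz
    refine Finset.mem_image.2 ⟨fun x => ⟨k x.1, Nat.lt_succ_of_le (hk _)⟩, Finset.mem_univ _, ?_⟩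
    rw [e, ← Finset.sum_coe_sort (sp ν)]
  refine (Finset.card_le_card hsub).trans (Finset.card_image_le.trans ?_)
  simp

theorem card_pow_le (ν : FM) (T : ℕ) : (sp (ν ^ T)).card ≤ (T + 1) ^ (sp ν).card := by
  have := card_image_pow_le (AddMonoidHom.id ℝ) ν T
  rwa [AddMonoidHom.coe_id, Finset.image_id] at this

/-- number of ratios of a power (`φ g = Additive.ofMul g.a`) -/
theorem card_ratio_pow_le (P : MA Aff) (T : ℕ) :
    ((sp (P ^ T)).image Aff.a).card ≤ (T + 1) ^ (sp P).card := by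
  let φ : Aff →+ Additive ℝ :=
    { toFun := fun g => Additive.ofMul g.a, map_zero' := rfl, map_add' := fun _ _ => rfl }
  have := card_image_pow_le φ P T
  rwa [show (⇑φ) = Additive.ofMul ∘ Aff.a from rfl, ← Finset.image_image,
    Finset.card_image_of_injective _ Additive.ofMul.injective] at this

end disc

section words
variable {Ω : Type*} [Fintype Ω]

omit [Fintype Ω] in
theorem pW_nonneg {q : Ω → ℝ} (hq : ∀ ω, 0 ≤ q ω) {n : ℕ} (w : Fin n → Ω) : 0 ≤ pW q w := by
  exact Finset.prod_nonneg fun j _ => hq _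

/-- `Finset.prod_univ_sum` / `Fintype.sum_pow` -/
theorem pW_sum {q : Ω → ℝ} (hq : ∑ ω, q ω = 1) (n : ℕ) : ∑ w : Fin n → Ω, pW q w = 1 := by
  unfold pW
  rw [← Fintype.sum_pow, hq, one_pow]

/-- sums over words of length `n + 1` (`Fin.consEquiv`/`Fin.insertNthEquiv`) -/
theorem sum_words_succ {E : Type*} [AddCommMonoid E] (n : ℕ) (F : (Fin (n + 1) → Ω) → E) :
    ∑ w, F w = ∑ ω, ∑ w : Fin n → Ω, F (Fin.cons ω w) := by
  rw [← (Fin.consEquiv fun _ : Fin (n + 1) => Ω).sum_comp, Fintype.sum_prod_type]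
  rfl

omit [Fintype Ω] in
theorem pW_cons (q : Ω → ℝ) {n : ℕ} (ω : Ω) (w : Fin n → Ω) :
    pW q (Fin.cons ω w : Fin (n + 1) → Ω) = q ω * pW q w := by
  simp [pW, Fin.prod_univ_succ]

omit [Fintype Ω] in
theorem isP_tauW (lam : Ω → ℝ) {τ : Ω → FM} (hτ : ∀ ω, IsP (τ ω)) (n : ℕ) (w : Fin n → Ω) :
    IsP (tauW lam τ n w) := by
  induction n with
  | zero => exact isP_one
  | succ n ih => exact (hτ _).mul ((ih _).sc _)

/-- induction on `n` with `pow_succ'`, `sum_words_succ`, `emb_mul`, `emb_one` -/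
theorem pow_eq_words (q lam : Ω → ℝ) (τ : Ω → FM) (n : ℕ) :
    (∑ ω, q ω • emb (lam ω) (τ ω)) ^ n =
      ∑ w : Fin n → Ω, pW q w • emb (pW lam w) (tauW lam τ n w) := by
  induction n with
  | zero => simp [pW, tauW, emb_one]
  | succ n ih =>
    rw [pow_succ', ih, sum_words_succ, Finset.sum_mul_sum]
    refine Finset.sum_congr rfl fun ω _ => Finset.sum_congr rfl fun w _ => ?_
    rw [smul_mul_smul_comm, emb_mul, pW_cons, pW_cons]
    rfl

theorem pow_dl_words {G : Type} [AddMonoid G] (q : Ω → ℝ) (g : Ω → G) (n : ℕ) :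
    (∑ ω, q ω • dl (g ω)) ^ n =
      ∑ w : Fin n → Ω, pW q w • dl (List.ofFn fun j => g (w j)).sum := by
  induction n with
  | zero => simp [pW]; rfl
  | succ n ih =>
    rw [pow_succ', ih, sum_words_succ, Finset.sum_mul_sum]
    refine Finset.sum_congr rfl fun ω _ => Finset.sum_congr rfl fun w _ => ?_
    rw [smul_mul_smul_comm, pW_cons, List.ofFn_succ, List.sum_cons]
    simp [dl, AddMonoidAlgebra.single_mul_single]

/-- weak law of large numbers (Chebyshev): with `m = ∑ q X`, `σ² = ∑ q (X - m)²`,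
`∑_w pW q w (∑ⱼ (X (w j) - m))² = n σ²` by induction on `n` (`sum_words_succ`); `C = σ²/ε²`. -/
theorem wlln {q : Ω → ℝ} (hq : ∀ ω, 0 ≤ q ω) (h1 : ∑ ω, q ω = 1) (X : Ω → ℝ) {ε : ℝ}
    (hε : 0 < ε) :
    ∃ C : ℝ, 0 ≤ C ∧ ∀ n : ℕ, 1 ≤ n → ∀ Bad : Finset (Fin n → Ω),
      (∀ w ∈ Bad, n * (∑ ω, q ω * X ω + ε) ≤ ∑ j, X (w j)) → ∑ w ∈ Bad, pW q w ≤ C / n := by
  set m := ∑ ω, q ω * X ω with hm
  set v := ∑ ω, q ω * (X ω - m) ^ 2 with hv
  have hv0 : 0 ≤ v := Finset.sum_nonneg fun ω _ => mul_nonneg (hq ω) (sq_nonneg _)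
  have hY : ∑ ω, q ω * (X ω - m) = 0 := by
    simp only [mul_sub, Finset.sum_sub_distrib, ← Finset.sum_mul, h1]
    ring
  have key : ∀ n : ℕ, ∑ w : Fin n → Ω, pW q w * (∑ j, (X (w j) - m)) ^ 2 = n * v := by
    intro n
    induction n with
    | zero => simp
    | succ n ih =>
      rw [sum_words_succ, Finset.sum_comm]
      have e : ∀ w : Fin n → Ω, ∑ ω, pW q (Fin.cons ω w : Fin (n + 1) → Ω) *
          (∑ j, (X ((Fin.cons ω w : Fin (n + 1) → Ω) j) - m)) ^ 2 =
          pW q w * v + pW q w * (∑ j, (X (w j) - m)) ^ 2 := by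
        intro w
        simp only [pW_cons, Fin.sum_univ_succ, Fin.cons_zero, Fin.cons_succ]
        generalize (∑ j, (X (w j) - m)) = S
        have e2 : ∀ ω, q ω * pW q w * (X ω - m + S) ^ 2 = pW q w * (q ω * (X ω - m) ^ 2) +
            (2 * pW q w * S) * (q ω * (X ω - m)) + (pW q w * S ^ 2) * q ω := fun ω => by ring
        simp only [e2, Finset.sum_add_distrib, ← Finset.mul_sum, hY, h1]
        ring
      simp only [e, Finset.sum_add_distrib, ← Finset.sum_mul, pW_sum h1, ih]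
      push_cast
      ring
  refine ⟨v / ε ^ 2, by positivity, fun n hn Bad hB => ?_⟩
  have hn0 : (0 : ℝ) < n := by exact_mod_cast hn
  have h2 : ∀ w ∈ Bad, pW q w ≤ pW q w * (∑ j, (X (w j) - m)) ^ 2 / (n * ε) ^ 2 := by
    intro w hw
    have h3 : n * ε ≤ ∑ j, (X (w j) - m) := by
      have := hB w hw
      rw [Finset.sum_sub_distrib, Finset.sum_const, Finset.card_univ, Fintype.card_fin,
        nsmul_eq_mul]
      linarith
    rw [le_div_iff₀ (by positivity)]
    exact mul_le_mul_of_nonneg_left (pow_le_pow_left₀ (by positivity) h3 2) (pW_nonneg hq w)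
  refine (Finset.sum_le_sum h2).trans ?_
  refine (Finset.sum_le_sum_of_subset_of_nonneg (Finset.subset_univ _) fun w _ _ =>
    div_nonneg (mul_nonneg (pW_nonneg hq w) (sq_nonneg _)) (sq_nonneg _)).trans ?_
  rw [← Finset.sum_div, key]
  apply le_of_eq
  field_simp

end words

end Crest.Agent.R98
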