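import Crest.Agent.R98.Ent

/-! # R98 GEN: convolution with a general bounded probability measure (task 98-GEN) -/

set_option autoImplicit false

open MeasureTheory

namespace Crest.Agent.R98

/-- one may take the radius positive -/
theorem BP.radius {μ : Measure ℝ} (h : BP μ) : ∃ R : ℝ, 0 < R ∧ μ {x | R < |x|} = 0 := by
  obtain ⟨R, hR⟩ := h.bdd
  refine ⟨|R| + 1, by positivity, measure_mono_null (fun x hx => ?_) hR⟩
  have h1 : |R| + 1 < |x| := hx
  show R < |x|
  linarith [le_abs_self R]

theorem BP.map {μ : Measure ℝ} (h : BP μ) (Λ : ℝ) : BP (μ.map fun x => Λ * x) := by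
  have := h.prob
  have hm : Measurable fun x : ℝ => Λ * x := measurable_const_mul Λ
  refine ⟨Measure.isProbabilityMeasure_map hm.aemeasurable, ?_⟩
  obtain ⟨R, _, hR⟩ := h.radius
  refine ⟨|Λ| * R, ?_⟩
  rw [Measure.map_apply hm (measurableSet_lt measurable_const measurable_abs)]
  refine measure_mono_null (fun x hx => ?_) hR
  have h1 : |Λ| * R < |Λ * x| := hx
  rw [abs_mul] at h1
  exact lt_of_mul_lt_mul_left h1 (abs_nonneg Λ)

theorem sm_integrand {h : ℝ → ℝ} (hi : Integrable h) (m : Measure ℝ) [IsProbabilityMeasure m] :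
    Integrable (fun p : ℝ × ℝ => h (p.1 - p.2)) ((volume : Measure ℝ).prod m) := by
  have := (integrable_const (μ := m) (1 : ℝ)).convolution_integrand
    (ContinuousLinearMap.mul ℝ ℝ) hi
  simpa using this

theorem integrable_sm {h : ℝ → ℝ} (hi : Integrable h) (m : Measure ℝ) [IsProbabilityMeasure m] :
    Integrable (sm m h) :=
  (sm_integrand hi m).integral_prod_left

theorem integral_sm {h : ℝ → ℝ} (hi : Integrable h) (m : Measure ℝ) [IsProbabilityMeasure m] :
    ∫ y, sm m h y = ∫ y, h y := by
  refine (integral_integral_swap (f := fun y x => h (y - x)) (sm_integrand hi m)).trans ?_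
  simp_rw [integral_sub_right_eq_self]
  simp

theorem integrable_sub_of_bdd {h : ℝ → ℝ} (hm : Measurable h) {C : ℝ} (hb : ∀ y, |h y| ≤ C)
    (m : Measure ℝ) [IsProbabilityMeasure m] (y : ℝ) : Integrable (fun x => h (y - x)) m :=
  Integrable.of_bound (hm.comp (measurable_id.const_sub y)).aestronglyMeasurable C
    (Filter.Eventually.of_forall fun _ => hb _)

theorem Den.integrable_sub {f : ℝ → ℝ} (hf : Den f) (m : Measure ℝ) [IsProbabilityMeasure m]
    (y : ℝ) : Integrable (fun x => f (y - x)) m :=
  integrable_sub_of_bdd hf.meas (C := 1)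
    (fun y => by rw [abs_of_nonneg (hf.nn y)]; exact hf.le1 y) m y

theorem Den.integrable_neg_sub {f : ℝ → ℝ} (hf : Den f) (m : Measure ℝ) [IsProbabilityMeasure m]
    (y : ℝ) : Integrable (fun x => Real.negMulLog (f (y - x))) m :=
  integrable_sub_of_bdd (h := fun y => Real.negMulLog (f y))
    (Real.continuous_negMulLog.measurable.comp hf.meas) (C := 1)
    (fun y => by
      rw [abs_of_nonneg (Real.negMulLog_nonneg (hf.nn y) (hf.le1 y))]
      exact negMulLog_le_one (hf.nn y)) m y

/-- measurability by `StronglyMeasurable.integral_prod_right`, total mass by Fubini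
(`integral_integral_swap`) and shift invariance -/
theorem Den.sm {f : ℝ → ℝ} (hf : Den f) {m : Measure ℝ} (hm : BP m) : Den (sm m f) := by
  have := hm.prob
  refine ⟨?_, fun y => integral_nonneg fun x => hf.nn _, fun y => ?_, ?_, ?_⟩
  · have h1 : StronglyMeasurable (Function.uncurry fun y x : ℝ => f (y - x)) :=
      (hf.meas.comp (measurable_fst.sub measurable_snd)).stronglyMeasurable
    exact (h1.integral_prod_right (ν := m)).measurable
  · have : ∫ x, f (y - x) ∂m ≤ ∫ _, (1 : ℝ) ∂m :=
      integral_mono (hf.integrable_sub m y) (integrable_const _) fun x => hf.le1 _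
    simpa [R98.sm] using this
  · obtain ⟨R, hR⟩ := hf.bdd
    obtain ⟨R', hR'⟩ := hm.bdd
    refine ⟨R + R', fun y hy => integral_eq_zero_of_ae ?_⟩
    have h1 : ∀ᵐ x ∂m, x ∉ {x : ℝ | R' < |x|} := measure_eq_zero_iff_ae_notMem.1 hR'
    filter_upwards [h1] with x hx
    have h2 : |x| ≤ R' := le_of_not_gt hx
    have h3 := abs_sub_abs_le_abs_sub y x
    exact hR _ (by linarith)
  · rw [integral_sm hf.integrable, hf.int]

theorem st_sm {f : ℝ → ℝ} (hf : Den f) {m : Measure ℝ} (hm : BP m) (ν : FM) :
    st ν (sm m f) = sm m (st ν f) := by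
  have := hm.prob
  funext y
  simp only [st_eq_sum, sm]
  rw [integral_finsetSum _ fun x _ => by
    simpa only [sub_right_comm] using (hf.integrable_sub m (y - x)).const_mul (ν.coeff x)]
  refine Finset.sum_congr rfl fun x _ => ?_
  rw [integral_const_mul]
  simp only [sub_right_comm]

/-- Jensen (`ConcaveOn.le_map_integral` for `negMulLog` on `Ici 0`/`Icc 0 1`) pointwise, Fubini,
shift invariance -/
theorem En_sm_ge {f : ℝ → ℝ} (hf : Den f) {m : Measure ℝ} (hm : BP m) : En f ≤ En (sm m f) := by
  have := hm.prob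
  unfold En
  rw [← integral_sm hf.integrable_neg m]
  refine integral_mono (integrable_sm hf.integrable_neg m) (hf.sm hm).integrable_neg fun y => ?_
  exact Real.concaveOn_negMulLog.le_map_integral Real.continuous_negMulLog.continuousOn
    isClosed_Ici (Filter.Eventually.of_forall fun x => hf.nn _) (hf.integrable_sub m y)
    (hf.integrable_neg_sub m y)

theorem integrable_Theta {f : ℝ → ℝ} (hf : Den f) {ν : FM} (hν : IsP ν) :
    Integrable fun y => Real.negMulLog (st ν f y) - ex ν fun x => Real.negMulLog (f (y - x)) := by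
  refine (hf.st hν).integrable_neg.sub ?_
  simp only [ex_eq_sum']
  exact integrable_finsetSum _ fun x _ => (hf.shift x).integrable_neg.const_mul _

/-- `En_st_sub` on both sides, Jensen (`ConvexOn.map_integral_le`) for `convexOn_Theta` with
`ι = ↥(sp ν)` applied to the vector valued function `z ↦ (f (y - x - z))ₓ`, Fubini, shift
invariance -/
theorem J_sm {f : ℝ → ℝ} (hf : Den f) {m : Measure ℝ} (hm : BP m) {ν : FM} (hν : IsP ν) :
    En (st ν (sm m f)) - En (sm m f) ≤ En (st ν f) - En f := by
  have := hm.prob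
  rw [En_st_sub (hf.sm hm) hν, En_st_sub hf hν, ← integral_sm (integrable_Theta hf hν) m]
  refine integral_mono (integrable_Theta (hf.sm hm) hν) (integrable_sm (integrable_Theta hf hν) m)
    fun y => ?_
  have hp1 : ∑ i : sp ν, ν.coeff i = 1 := by
    rw [Finset.sum_coe_sort (sp ν) fun x => ν.coeff x, hν.sum]
  have hc := convexOn_Theta (ι := sp ν) (p := fun i => ν.coeff i) (fun i => hν.nn i) hp1
  have hcl : IsClosed {a : sp ν → ℝ | ∀ i, 0 ≤ a i} := by
    rw [Set.ofPred_forall]
    exact isClosed_iInter fun i => isClosed_le continuous_const (continuous_apply i)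
  have hi : ∀ i : sp ν, Integrable (fun z => f (y - i - z)) m := fun i => hf.integrable_sub m _
  have e1 : ∀ (g : ℝ → ℝ) (y : ℝ), (Real.negMulLog (st ν g y) -
      ex ν fun x => Real.negMulLog (g (y - x))) =
      Real.negMulLog (∑ i : sp ν, ν.coeff i * g (y - i)) -
        ∑ i : sp ν, ν.coeff i * Real.negMulLog (g (y - i)) := by
    intro g y
    rw [Finset.sum_coe_sort (sp ν) fun x => ν.coeff x * g (y - x),
      Finset.sum_coe_sort (sp ν) fun x => ν.coeff x * Real.negMulLog (g (y - x))]
    rfl
  have hI : Integrable (fun z => Real.negMulLog (st ν f (y - z)) -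
      ex ν fun x => Real.negMulLog (f (y - z - x))) m := by
    refine ((hf.st hν).integrable_neg_sub m y).sub ?_
    simp only [ex_eq_sum']
    exact integrable_finsetSum _ fun x _ => by
      simpa only [sub_right_comm] using (hf.integrable_neg_sub m (y - x)).const_mul (ν.coeff x)
  have hj := hc.map_integral_le (μ := m) (f := fun z (i : sp ν) => f (y - i - z))
    (Continuous.continuousOn (by
      have := Real.continuous_negMulLog
      fun_prop)) hcl
    (Filter.Eventually.of_forall fun z i => hf.nn _) (Integrable.of_eval hi) (by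
      refine hI.congr (Filter.Eventually.of_forall fun z => ?_)
      refine (e1 f (y - z)).trans ?_
      simp only [Function.comp, sub_right_comm y z])
  simp only [eval_integral hi] at hj
  show (Real.negMulLog (st ν (sm m f) y) - ex ν fun x => Real.negMulLog (sm m f (y - x))) ≤
    ∫ z, (Real.negMulLog (st ν f (y - z)) - ex ν fun x => Real.negMulLog (f (y - z - x))) ∂m
  simp only [e1, sub_right_comm y _ (_ : sp ν)]
  exact hj

theorem Dn_sm {N : ℕ} (hN : 1 ≤ N) {f : ℝ → ℝ} (hf : Den f) {m : Measure ℝ} (hm : BP m) :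
    Dn N f ≤ Dn N (sm m f) := by
  have := J_sm hf hm (isP_uN hN)
  unfold Dn
  linarith

theorem fm_eq (μ : Measure ℝ) (Λ : ℝ) : fm μ Λ = sm (μ.map fun x => Λ * x) bx := by
  funext y
  have h1 : (fun x => bx (y - x)) = Set.indicator (Set.Ioc (y - 1) y) 1 := by
    funext x
    rw [bx_apply, Set.indicator_apply]
    have : (0 ≤ y - x ∧ y - x < 1) ↔ x ∈ Set.Ioc (y - 1) y := by
      rw [Set.mem_Ioc]
      constructor <;> rintro ⟨a, b⟩ <;> constructor <;> linarith
    simp only [this, Pi.one_apply]
  unfold sm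
  rw [h1, integral_indicator_one measurableSet_Ioc,
    map_measureReal_apply (measurable_const_mul Λ) measurableSet_Ioc]
  rfl

theorem BP.den_fm {μ : Measure ℝ} (h : BP μ) (Λ : ℝ) : Den (fm μ Λ) := by
  rw [fm_eq]
  exact den_bx.sm (h.map Λ)

theorem BP.hm_nonneg {μ : Measure ℝ} (h : BP μ) (Λ : ℝ) : 0 ≤ hm μ Λ :=
  En_nonneg (h.den_fm Λ)

/-- `st_sm`, `En_sm_ge` -/
theorem h1_le_En_st_fm {μ : Measure ℝ} (h : BP μ) (Λ : ℝ) {ν : FM} (hν : IsP ν) :
    h1 ν ≤ En (st ν (fm μ Λ)) := by
  rw [fm_eq, st_sm den_bx (h.map Λ)]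
  exact En_sm_ge (den_bx.st hν) (h.map Λ)

end Crest.Agent.R98
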