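import Crest.Agent.R98.Var
import Crest.Agent.R98.Gen
import Crest.Agent.R98.Disc

/-! # R98 DEC: stationarity and decompositions (task 98-DEC) -/

set_option autoImplicit false

open MeasureTheory

namespace Crest.Agent.R98

theorem st_one_aff (μ : Measure ℝ) : St μ 1 := by
  intro A _
  simp

theorem St.mul {μ : Measure ℝ} {Q Q' : MA Aff} (h : St μ Q) (h' : St μ Q') : St μ (Q * Q') := by
  intro A hA
  rw [ex_mul, h A hA]
  refine ex_congr fun g _ => ?_
  have hm : MeasurableSet {x : ℝ | g.a * x + g.b ∈ A} :=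
    (measurable_const.mul measurable_id).add measurable_const hA
  rw [h' _ hm]
  refine ex_congr fun g' _ => ?_
  congr 1
  ext x
  simp only [Set.mem_ofPred_eq, Aff.add_a, Aff.add_b]
  rw [show g.a * g'.a * x + (g.a * g'.b + g.b) = g.a * (g'.a * x + g'.b) + g.b by ring]

theorem St.pow {μ : Measure ℝ} {Q : MA Aff} (h : St μ Q) (n : ℕ) : St μ (Q ^ n) := by
  induction n with
  | zero => rw [pow_zero]; exact st_one_aff μ
  | succ n ih => rw [pow_succ]; exact ih.mul h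

theorem exists_ratio_bound {Q : MA Aff} (ha : ∀ g ∈ sp Q, |g.a| < 1) :
    ∃ lam : ℝ, 0 < lam ∧ lam < 1 ∧ ∀ g ∈ sp Q, |g.a| ≤ lam := by
  generalize sp Q = s at ha
  classical
  induction s using Finset.induction_on with
  | empty => exact ⟨1 / 2, by norm_num, by norm_num, by simp⟩
  | insert a s _ ih =>
    obtain ⟨lam, h0, h1, h2⟩ := ih fun g hg => ha g (Finset.mem_insert_of_mem hg)
    refine ⟨max lam |a.a|, lt_max_of_lt_left h0, max_lt h1 (ha a (Finset.mem_insert_self _ _)),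
      fun g hg => ?_⟩
    rcases Finset.mem_insert.1 hg with rfl | hg
    · exact le_max_right _ _
    · exact (h2 g hg).trans (le_max_left _ _)

/-- With `|g.a| ≤ λ < 1`, `|g.b| ≤ B` on `sp Q` (`0 < λ`), `F s = μ.real {x | s < |x|}` satisfies
`F s ≤ F ((s - B)/λ)`; for `s > B/(1-λ)` the iterates tend to `∞` and `F → 0` at `∞`. -/
theorem St.bp {μ : Measure ℝ} [IsProbabilityMeasure μ] {Q : MA Aff} (hQ : IsP Q) (h : St μ Q)
    (ha : ∀ g ∈ sp Q, |g.a| < 1) : BP μ := by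
  obtain ⟨lam, hl0, hl1, hl⟩ := exists_ratio_bound ha
  obtain ⟨B, hB0, hB⟩ : ∃ B : ℝ, 0 ≤ B ∧ ∀ g ∈ sp Q, |g.b| ≤ B :=
    ⟨∑ g ∈ sp Q, |g.b|, Finset.sum_nonneg fun _ _ => abs_nonneg _, fun g hg =>
      Finset.single_le_sum (f := fun g : Aff => |g.b|) (fun _ _ => abs_nonneg _) hg⟩
  set S : ℕ → Set ℝ := fun k => {x | B / (1 - lam) + lam⁻¹ ^ k < |x|} with hS
  have hSm : ∀ k, MeasurableSet (S k) := fun k =>
    measurableSet_lt measurable_const (by fun_prop)
  have h1l : 0 < 1 - lam := by linarith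
  have hi : 1 < lam⁻¹ := one_lt_inv₀ hl0 |>.2 hl1
  have hstep : ∀ k, μ.real (S k) ≤ μ.real (S (k + 1)) := by
    intro k
    rw [h _ (hSm k)]
    refine hQ.ex_le fun g hg => measureReal_mono fun x hx => ?_
    simp only [hS, Set.mem_ofPred_eq] at hx ⊢
    have h1 : |g.a * x + g.b| ≤ lam * |x| + B := by
      refine (abs_add_le _ _).trans (add_le_add ?_ (hB g hg))
      rw [abs_mul]
      exact mul_le_mul_of_nonneg_right (hl g hg) (abs_nonneg _)
    have h2 : lam * (B / (1 - lam) + lam⁻¹ ^ (k + 1)) + B = B / (1 - lam) + lam⁻¹ ^ k := by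
      rw [pow_succ]
      field_simp
      ring
    have h3 : lam * (B / (1 - lam) + lam⁻¹ ^ (k + 1)) < lam * |x| := by linarith
    exact lt_of_mul_lt_mul_left h3 hl0.le
  have hle : ∀ k, μ (S 0) ≤ μ (S k) := by
    intro k
    have : μ.real (S 0) ≤ μ.real (S k) := by
      induction k with
      | zero => exact le_rfl
      | succ k ih => exact ih.trans (hstep k)
    exact (ENNReal.toReal_le_toReal (measure_ne_top _ _) (measure_ne_top _ _)).1 this
  have hanti : Antitone S := by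
    intro i j hij x hx
    simp only [hS, Set.mem_ofPred_eq] at hx ⊢
    have := pow_le_pow_right₀ hi.le hij
    linarith
  have hlim := tendsto_measure_iInter_atTop (μ := μ) (fun k => (hSm k).nullMeasurableSet) hanti
    ⟨0, measure_ne_top _ _⟩
  have hempty : ⋂ k, S k = ∅ := by
    ext x
    simp only [Set.mem_iInter, Set.mem_empty_iff_false, iff_false, not_forall]
    obtain ⟨k, hk⟩ := pow_unbounded_of_one_lt |x| hi
    refine ⟨k, ?_⟩
    simp only [hS, Set.mem_ofPred_eq, not_lt]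
    have : 0 ≤ B / (1 - lam) := by positivity
    linarith
  rw [hempty, measure_empty] at hlim
  exact ⟨inferInstance, _, le_antisymm (ge_of_tendsto' hlim hle) bot_le⟩

/-- Let `|g.a| ≤ λ < 1` on `sp Q`.  Induction on `k`: for all `ρ` with `l ρ < 1` and `λ^k ≤ ρ` there
is a decomposition.  If `1 ≤ ρ` take `1`; otherwise take `∑ g ∈ sp Q, Q g • (dl g * Q_g)` with
`Q_g` the decomposition for `ρ / |g.a|`. -/
theorem St.decH {μ : Measure ℝ} {Q : MA Aff} (hQ : IsP Q) (h : St μ Q) {l : ℝ} (hl : 0 < l)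
    (ha : ∀ g ∈ sp Q, l ≤ |g.a| ∧ |g.a| < 1) : DecH μ l := by
  obtain ⟨lam, hl0, hl1, hlam⟩ := exists_ratio_bound fun g hg => (ha g hg).2
  have key : ∀ k : ℕ, ∀ ρ : ℝ, 0 < ρ → l * ρ < 1 → lam ^ k ≤ ρ →
      ∃ Q' : MA Aff, IsP Q' ∧ St μ Q' ∧ ∀ g ∈ sp Q', l * ρ < |g.a| ∧ |g.a| ≤ ρ := by
    have base : ∀ ρ : ℝ, l * ρ < 1 → 1 ≤ ρ →
        ∃ Q' : MA Aff, IsP Q' ∧ St μ Q' ∧ ∀ g ∈ sp Q', l * ρ < |g.a| ∧ |g.a| ≤ ρ := by
      intro ρ h1 h2
      refine ⟨1, isP_one, st_one_aff μ, fun g hg => ?_⟩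
      have : g = 0 := mem_sp_dl hg
      subst this
      simpa using ⟨h1, h2⟩
    intro k
    induction k with
    | zero => intro ρ _ h1 h2; exact base ρ h1 (by simpa using h2)
    | succ k ih =>
      intro ρ h0 h1 h2
      rcases le_or_gt 1 ρ with h3 | h3
      · exact base ρ h1 h3
      have hex : ∀ g : Aff, ∃ Q' : MA Aff, g ∈ sp Q → IsP Q' ∧ St μ Q' ∧
          ∀ g' ∈ sp Q', l * (ρ / |g.a|) < |g'.a| ∧ |g'.a| ≤ ρ / |g.a| := by
        intro g
        by_cases hg : g ∈ sp Q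
        · have hga : 0 < |g.a| := hl.trans_le (ha g hg).1
          obtain ⟨Q', hQ'⟩ := ih (ρ / |g.a|) (div_pos h0 hga) (by
            rw [← mul_div_assoc, div_lt_one hga]
            have := (ha g hg).1
            nlinarith) (by
            rw [le_div_iff₀ hga]
            have := mul_le_mul_of_nonneg_left (hlam g hg) (pow_pos hl0 k).le
            rw [pow_succ] at h2
            linarith)
          exact ⟨Q', fun _ => hQ'⟩
        · exact ⟨1, fun h => absurd h hg⟩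
      choose Qg hQg using hex
      refine ⟨∑ g ∈ sp Q, Q.coeff g • (dl g * Qg g), isP_mix (fun g _ => hQ.nn g) hQ.sum
        fun g hg => (isP_dl g).mul (hQg g hg).1, fun A hA => ?_, fun z hz => ?_⟩
      · rw [ex_mix, h A hA, ex_eq_sum]
        refine Finset.sum_congr rfl fun g hg => ?_
        congr 1
        have hm : MeasurableSet {x : ℝ | g.a * x + g.b ∈ A} :=
          (measurable_const.mul measurable_id).add measurable_const hA
        rw [ex_mul, ex_dl, (hQg g hg).2.1 _ hm]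
        refine ex_congr fun g' _ => ?_
        congr 1
        ext x
        simp only [Set.mem_ofPred_eq, Aff.add_a, Aff.add_b]
        rw [show g.a * g'.a * x + (g.a * g'.b + g.b) = g.a * (g'.a * x + g'.b) + g.b by ring]
      · obtain ⟨g, hg, -, hz⟩ := mem_sp_mix hz
        obtain ⟨x, hx, g', hg', rfl⟩ := mem_sp_mul hz
        have : x = g := mem_sp_dl hx
        subst this
        have hga : 0 < |x.a| := hl.trans_le (ha x hg).1
        obtain ⟨h4, h5⟩ := (hQg x hg).2.2 g' hg'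
        rw [← mul_div_assoc, div_lt_iff₀ hga] at h4
        rw [le_div_iff₀ hga] at h5
        rw [Aff.add_a, abs_mul]
        constructor <;> linarith
  intro ρ h0 h1
  obtain ⟨k, hk⟩ := exists_pow_lt_of_lt_one h0 hl1
  exact key k ρ h0 h1 hk.le

theorem St.fm_ex {μ : Measure ℝ} {Q : MA Aff} (h : St μ Q) (Λ y : ℝ) :
    fm μ Λ y = ex Q fun g => fm μ (Λ * g.a) (y - Λ * g.b) := by
  have hm : MeasurableSet {x : ℝ | Λ * x ∈ Set.Ioc (y - 1) y} :=
    (measurable_const.mul measurable_id) measurableSet_Ioc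
  unfold fm
  rw [h _ hm]
  refine ex_congr fun g _ => ?_
  congr 1
  ext x
  simp only [Set.mem_ofPred_eq, Set.mem_Ioc]
  constructor <;> rintro ⟨h1, h2⟩ <;> constructor <;> linarith

theorem St.fm_sum {μ : Measure ℝ} {Q : MA Aff} (h : St μ Q) (Λ : ℝ) :
    fm μ Λ = fun y => ∑ g ∈ sp Q, Q.coeff g * fm μ (Λ * g.a) (y - Λ * g.b) := by
  funext y
  rw [h.fm_ex, ex_eq_sum']

theorem St.fm_emb {μ : Measure ℝ} {κ : Type*} {s : Finset κ} {c a : κ → ℝ} {τ : κ → FM}
    (h : St μ (∑ j ∈ s, c j • emb (a j) (τ j))) (Λ : ℝ) :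
    fm μ Λ = fun y => ∑ j ∈ s, c j * st (sc Λ (τ j)) (fm μ (Λ * a j)) y := by
  funext y
  rw [h.fm_ex, ex_mix]
  refine Finset.sum_congr rfl fun j _ => ?_
  rw [smul_eq_mul, ex_emb]
  simp only [st, ex_sc]

/-- block form (`St.pow`, `pow_eq_words`, `St.fm_emb`) -/
theorem RI.fm_words {μ : Measure ℝ} {Ω : Type} [Fintype Ω] {q lam : Ω → ℝ} {τ : Ω → FM} {l : ℝ}
    {m : ℕ} (h : RI μ q lam τ l m) (n : ℕ) (Λ : ℝ) :
    fm μ Λ = fun y => ∑ w : Fin n → Ω,
      pW q w * st (sc Λ (tauW lam τ n w)) (fm μ (Λ * pW lam w)) y := by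
  have h1 := h.stat.pow n
  rw [pow_eq_words] at h1
  exact h1.fm_emb Λ

/-- descent to the window `(l X, X]`: `DecH` with `ρ = X/|Λ|`, `St.fm_sum`, `Gd.shift`, `gd_mix` with
`Bad = ∅` -/
theorem gd_descend {μ : Measure ℝ} (hμ : BP μ) {l : ℝ} (hl : 0 < l) (hd : DecH μ l) {N : ℕ}
    (hN : 1 ≤ N) {v₀ A b X : ℝ} (hA : 0 ≤ A) (hb : 0 ≤ b) (hX : 0 < X)
    (h : ∀ Λ : ℝ, l * X < |Λ| → |Λ| ≤ X → Gd N v₀ A b (fm μ Λ)) (Λ : ℝ) (hΛ : l * X < |Λ|) :
    Gd N v₀ A b (fm μ Λ) := by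
  have hΛ0 : 0 < |Λ| := (mul_pos hl hX).trans hΛ
  obtain ⟨Q, hQ, hst, hsp⟩ := hd (X / |Λ|) (div_pos hX hΛ0) (by
    rw [← mul_div_assoc, div_lt_one hΛ0]
    exact hΛ)
  have h1 := gd_mix (v₀ := v₀) (κ₀ := 0) hN hA (s := sp Q) (c := fun g => Q.coeff g)
    (b := fun _ => b) (g := fun g y => fm μ (Λ * g.a) (y - Λ * g.b)) (fun g _ => hQ.nn g) hQ.sum
    (fun _ _ => hb) (fun g _ => (hμ.den_fm _).shift _) (Bad := ∅) (Finset.empty_subset _)
    (by simp) (fun g hg _ => by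
      obtain ⟨h2, h3⟩ := hsp g hg
      rw [← mul_div_assoc, div_lt_iff₀ hΛ0] at h2
      rw [le_div_iff₀ hΛ0] at h3
      refine (h _ ?_ ?_).shift _
      · rw [abs_mul]; linarith
      · rw [abs_mul]; linarith)
  rw [← Finset.sum_mul, hQ.sum, one_mul, mul_zero, sub_zero] at h1
  rw [hst.fm_sum Λ]
  exact h1

end Crest.Agent.R98
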