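import Crest.Prelude.Def_SelfSimilar
import Crest.Agent.R98.Dec

/-! # R98 BR: bridge to the statement's definitions (task 98-BR) -/

set_option autoImplicit false

open MeasureTheory

namespace Crest.Agent.R98

open Crest.AnalysisR

/-- the random map of the system -/
noncomputable def sysP {ι : Type*} [Fintype ι] (r t p : ι → ℝ) : MA Aff :=
  ∑ i, p i • dl (⟨r i, t i⟩ : Aff)

section sys
variable {ι : Type*} [Fintype ι] {r t p : ι → ℝ}

theorem isP_sysP (hp : ∀ i, 0 < p i) (hp₁ : ∑ i, p i = 1) : IsP (sysP r t p) := by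
  exact isP_mix (fun i _ => (hp i).le) hp₁ fun i _ => isP_dl _

theorem mem_sp_sysP {g : Aff} (hg : g ∈ sp (sysP r t p)) : ∃ i, g = ⟨r i, t i⟩ := by
  obtain ⟨i, -, -, h⟩ := mem_sp_mix hg
  exact ⟨i, mem_sp_dl h⟩

theorem st_sysP (hp : ∀ i, 0 < p i) {μ : Measure ℝ} (hμ : IsSelfSimilarMeasure r t p μ) :
    St μ (sysP r t p) := by
  intro A hA
  have := hμ.1
  rw [sysP, ex_mix]
  simp only [ex_dl, smul_eq_mul]
  have h1 : μ A = ∑ i, ENNReal.ofReal (p i) * μ {x | r i * x + t i ∈ A} := by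
    conv_lhs => rw [hμ.2]
    rw [Measure.finsetSum_apply]
    refine Finset.sum_congr rfl fun i _ => ?_
    rw [Measure.smul_apply, smul_eq_mul, Measure.map_apply (by fun_prop) hA]
    rfl
  rw [Measure.real, h1, ENNReal.toReal_sum fun i _ =>
    ENNReal.mul_ne_top ENNReal.ofReal_ne_top (measure_ne_top _ _)]
  refine Finset.sum_congr rfl fun i _ => ?_
  rw [ENNReal.toReal_mul, ENNReal.toReal_ofReal (hp i).le, Measure.real]

theorem lyap_sysP : lyap (sysP r t p) = lyapunovExp r p := by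
  simp only [lyap, sysP, ex_mix, ex_dl, smul_eq_mul, lyapunovExp, mul_neg,
    Finset.sum_neg_distrib]

theorem BR_ent_eq {α β : Type*} {G : Type} [Fintype α] (q : α → ℝ) (Z : α → β) (W : α → G)
    (h : ∀ a b, Z b = Z a ↔ W b = W a) :
    finiteLawEntropy q Z = Ent (∑ a, q a • dl (W a)) := by
  classical
  have hc : ∀ g, (∑ a, q a • dl (W a) : MA G).coeff g =
      ∑ a ∈ Finset.univ.filter (fun a => W a = g), q a := by
    intro g
    rw [coeff_eq_ex, ex_mix, Finset.sum_filter]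
    simp only [ex_dl, smul_eq_mul, mul_ite, mul_one, mul_zero]
  have hs : sp (∑ a, q a • dl (W a) : MA G) ⊆ Finset.univ.image W := by
    intro g hg
    obtain ⟨a, -, -, h⟩ := mem_sp_mix hg
    exact Finset.mem_image.2 ⟨a, Finset.mem_univ _, (mem_sp_dl h).symm⟩
  rw [Ent_eq_sum_of _ hs, finiteLawEntropy, ← Finset.sum_neg_distrib,
    ← Finset.sum_fiberwise_of_maps_to (s := Finset.univ) (t := Finset.univ.image W) (g := W)
      fun a ha => Finset.mem_image_of_mem _ ha]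
  refine Finset.sum_congr rfl fun g _ => ?_
  rw [hc, Real.negMulLog, neg_mul, Finset.sum_mul, ← Finset.sum_neg_distrib]
  refine Finset.sum_congr rfl fun a ha => ?_
  rw [← (Finset.mem_filter.1 ha).2, Finset.sum_filter]
  congr 3
  refine Finset.sum_congr rfl fun b _ => ?_
  by_cases hb : W b = W a
  · rw [if_pos hb, Set.indicator_of_mem (show b ∈ {b | Z b = Z a} from (h a b).2 hb)]
  · rw [if_neg hb, Set.indicator_of_notMem (show b ∉ {b | Z b = Z a} from
      fun h' => hb ((h a b).1 h'))]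

omit [Fintype ι] in
theorem BR_word (r t : ι → ℝ) (l : List ι) : affineWordMap r t l = fun x =>
    (l.map fun i => (⟨r i, t i⟩ : Aff)).sum.a * x + (l.map fun i => (⟨r i, t i⟩ : Aff)).sum.b := by
  induction l with
  | nil => funext x; simp [affineWordMap]
  | cons i l ih =>
    funext x
    have h1 : affineWordMap r t (i :: l) x = r i * affineWordMap r t l x + t i := rfl
    rw [h1, ih]
    simp only [List.map_cons, List.sum_cons, Aff.add_a, Aff.add_b]
    ring

theorem BR_aff_inj {g h : Aff} :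
    ((fun x : ℝ => g.a * x + g.b) = fun x => h.a * x + h.b) ↔ g = h := by
  refine ⟨fun H => ?_, fun H => by rw [H]⟩
  have h0 := congrFun H 0
  have h1 := congrFun H 1
  simp only [mul_zero, zero_add, mul_one] at h0 h1
  exact Aff.ext (by linarith) h0

set_option linter.unusedVariables false in

/-- `pow_dl_words`; `affineWordMap r t l = fun x => g.a * x + g.b` for `g = (l.map ⟨r, t⟩).sum`, and
two affine maps are equal as functions iff they are equal in `Aff`; the coefficient of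
`sysP^n` at `g` is the total weight of the words with map `g`; group `∑_w` by fibres
(`Finset.sum_fiberwise_of_maps_to`). -/
theorem composedMapEntropy_eq (hp : ∀ i, 0 < p i) (n : ℕ) :
    composedMapEntropy r t p n = Ent (sysP r t p ^ n) := by
  rw [sysP, pow_dl_words, composedMapEntropy]
  refine BR_ent_eq _ _ _ fun a b => ?_
  rw [BR_word, BR_word, BR_aff_inj, List.map_ofFn, List.map_ofFn]
  rfl

end sys

theorem mem_sp_pow_bounds {Q : MA Aff} {l : ℝ} (hl : 0 < l)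
    (ha : ∀ g ∈ sp Q, l ≤ |g.a| ∧ |g.a| < 1) {n : ℕ} (hn : 1 ≤ n) :
    ∀ g ∈ sp (Q ^ n), l ^ n ≤ |g.a| ∧ |g.a| < 1 := by
  induction n, hn using Nat.le_induction with
  | base => simpa using ha
  | succ n _ ih =>
    intro g hg
    rw [pow_succ] at hg
    obtain ⟨x, hx, y, hy, rfl⟩ := mem_sp_mul hg
    rw [Aff.add_a, abs_mul, pow_succ]
    exact ⟨mul_le_mul (ih x hx).1 (ha y hy).1 hl.le (abs_nonneg _),
      mul_lt_one_of_nonneg_of_lt_one_left (abs_nonneg _) (ih x hx).2 (ha y hy).2.le⟩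

theorem BR_pow_ne {Q : MA Aff} (ha : ∀ g ∈ sp Q, g.a ≠ 0) (n : ℕ) :
    ∀ g ∈ sp (Q ^ n), g.a ≠ 0 := by
  induction n with
  | zero =>
    intro g hg
    rw [pow_zero] at hg
    rw [mem_sp_dl (x := (0 : Aff)) hg]
    exact one_ne_zero
  | succ n ih =>
    intro g hg
    rw [pow_succ] at hg
    obtain ⟨x, hx, y, hy, rfl⟩ := mem_sp_mul hg
    exact mul_ne_zero (ih x hx) (ha y hy)

theorem lyap_pow {Q : MA Aff} (hQ : IsP Q) (ha : ∀ g ∈ sp Q, g.a ≠ 0) (n : ℕ) :
    lyap (Q ^ n) = n * lyap Q := by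
  induction n with
  | zero => simp [lyap]
  | succ n ih =>
    have h1 : lyap (Q ^ n * Q) = ex (Q ^ n) fun x => -Real.log |x.a| + lyap Q := by
      rw [lyap, ex_mul]
      refine ex_congr fun x hx => ?_
      rw [lyap, ← hQ.ex_const (-Real.log |x.a|), ← ex_fadd]
      refine ex_congr fun y hy => ?_
      rw [Aff.add_a, abs_mul, Real.log_mul (abs_ne_zero.2 (BR_pow_ne ha n x hx))
        (abs_ne_zero.2 (ha y hy)), neg_add]
    rw [pow_succ, h1, ex_fadd, (hQ.pow n).ex_const]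
    change lyap (Q ^ n) + _ = _
    rw [ih]
    push_cast
    ring

/-- Grouping by ratio: `Ω = ↥((sp Q).image Aff.a)`, `q ω = ∑ g ∈ sp Q with g.a = ω, Q g > 0`,
`τ ω = ∑ g ∈ sp Q with g.a = ω, (Q g / q ω) • dl g.b`. -/
theorem exists_types {Q : MA Aff} (hQ : IsP Q) :
    ∃ (q : ↥((sp Q).image Aff.a) → ℝ) (τ : ↥((sp Q).image Aff.a) → FM), (∀ ω, 0 ≤ q ω) ∧
      ∑ ω, q ω = 1 ∧ (∀ ω, IsP (τ ω)) ∧ (∀ ω, (sp (τ ω)).card ≤ (sp Q).card) ∧
      Q = ∑ ω, q ω • emb (ω : ℝ) (τ ω) := by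
  classical
  set q : ℝ → ℝ := fun a => ∑ g ∈ (sp Q).filter (fun g => g.a = a), Q.coeff g with hq
  have hpos : ∀ a ∈ (sp Q).image Aff.a, 0 < q a := by
    intro a ha
    obtain ⟨g, hg, rfl⟩ := Finset.mem_image.1 ha
    exact Finset.sum_pos (fun g hg => hQ.pos (Finset.mem_filter.1 hg).1)
      ⟨g, Finset.mem_filter.2 ⟨hg, rfl⟩⟩
  have hfib : ∀ F : Aff → ℝ, ∑ a ∈ (sp Q).image Aff.a,
      ∑ g ∈ (sp Q).filter (fun g => g.a = a), F g = ∑ g ∈ sp Q, F g := fun F =>
    Finset.sum_fiberwise_of_maps_to (fun g hg => Finset.mem_image_of_mem _ hg) F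
  refine ⟨fun ω => q ω, fun ω => ∑ g ∈ (sp Q).filter (fun g => g.a = (ω : ℝ)),
    (Q.coeff g / q ω) • dl g.b, fun ω => (hpos ω ω.2).le, ?_, fun ω => ?_, fun ω => ?_, ?_⟩
  · rw [Finset.sum_coe_sort _ q, hfib, hQ.sum]
  · refine isP_mix (fun g _ => div_nonneg (hQ.nn g) (hpos ω ω.2).le) ?_ fun g _ => isP_dl _
    rw [← Finset.sum_div, div_self (hpos ω ω.2).ne']
  · refine le_trans (Finset.card_le_card (t := (sp Q).image Aff.b) fun x hx => ?_)
      Finset.card_image_le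
    obtain ⟨g, hg, -, h⟩ := mem_sp_mix hx
    exact Finset.mem_image.2 ⟨g, (Finset.mem_filter.1 hg).1, (mem_sp_dl h).symm⟩
  · refine ext_ex fun F => ?_
    rw [ex_mix, ex_eq_sum', ← hfib, ← Finset.sum_coe_sort]
    refine Finset.sum_congr rfl fun ω _ => ?_
    rw [ex_emb, ex_mix, smul_eq_mul, Finset.mul_sum]
    refine Finset.sum_congr rfl fun g hg => ?_
    rw [ex_dl, smul_eq_mul, ← mul_assoc, mul_div_cancel₀ _ (hpos ω ω.2).ne',
      ← (Finset.mem_filter.1 hg).2]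

/-- `pow_eq_words`, `Ent_mix_le`, `Ent_emb`, `sum_negMulLog_le` -/
theorem Ent_pow_le {Ω : Type} [Fintype Ω] {q : Ω → ℝ} (hq : ∀ ω, 0 ≤ q ω) (h1 : ∑ ω, q ω = 1)
    (lam : Ω → ℝ) {τ : Ω → FM} (hτ : ∀ ω, IsP (τ ω)) (n : ℕ) :
    Ent ((∑ ω, q ω • emb (lam ω) (τ ω)) ^ n) ≤
      n * Real.log (Fintype.card Ω) + ∑ w : Fin n → Ω, pW q w * Ent (tauW lam τ n w) := by
  classical
  rw [pow_eq_words]
  refine (Ent_mix_le (fun w _ => pW_nonneg hq w) fun w _ => (isP_tauW lam hτ n w).emb _).trans ?_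
  simp only [Ent_emb]
  gcongr
  rw [← Real.log_pow]
  refine sum_negMulLog_le (fun w _ => pW_nonneg hq w) (pW_sum h1 n) ?_
  simp

end Crest.Agent.R98
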