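import Crest.Agent.R98.Conc

/-! # R98 CELL: entropy between consecutive scales is controlled by variance (task 98-CELL) -/

set_option autoImplicit false

open MeasureTheory

namespace Crest.Agent.R98

namespace CellA

/-- atoms seen from `y` -/
noncomputable def at' (S : Finset ℝ) (y : ℝ) : Finset ℝ := S.filter fun x => 0 ≤ y - x ∧ y - x < 1

/-- indicator of a cell -/
noncomputable def ind (S A : Finset ℝ) (y : ℝ) : ℝ := if at' S y = A then 1 else 0

open Classical in
/-- the cells -/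
noncomputable def cells (S : Finset ℝ) : Finset (Finset ℝ) :=
  S.powerset.filter fun A => A.Nonempty ∧ ∃ y, at' S y = A

theorem mem_cells {S A : Finset ℝ} : A ∈ cells S ↔ A ⊆ S ∧ A.Nonempty ∧ ∃ y, at' S y = A := by
  simp [cells]

theorem ind_nonneg (S A : Finset ℝ) (y : ℝ) : 0 ≤ ind S A y := by
  unfold ind; split_ifs <;> norm_num

theorem meas_ind (S A : Finset ℝ) (hA : A ⊆ S) : Measurable (ind S A) := by
  refine Measurable.ite ?_ measurable_const measurable_const
  have : {y | at' S y = A} = ⋂ x ∈ S, {y | (0 ≤ y - x ∧ y - x < 1) ↔ x ∈ A} := by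
    ext y
    simp only [Set.mem_setOf_eq, Set.mem_iInter, at']
    constructor
    · rintro rfl x hx
      simp only [Finset.mem_filter, hx, true_and]
    · intro h
      ext x
      rw [Finset.mem_filter]
      exact ⟨fun h' => (h x h'.1).1 h'.2, fun h' => ⟨hA h', (h x (hA h')).2 h'⟩⟩
  rw [this]
  refine Finset.measurableSet_biInter S fun x _ => ?_
  have h1 : MeasurableSet {y : ℝ | 0 ≤ y - x ∧ y - x < 1} :=
    (measurable_id.sub_const x) measurableSet_Ico
  by_cases hx : x ∈ A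
  · simpa only [hx, iff_true] using h1
  · simp only [hx, iff_false]
    exact h1.compl

theorem int_ind {S A : Finset ℝ} (hA : A ∈ cells S) : Integrable (ind S A) := by
  obtain ⟨h1, ⟨x, hx⟩, -⟩ := mem_cells.1 hA
  refine (den_bx.shift x).integrable.mono' (meas_ind S A h1).aestronglyMeasurable
    (Filter.Eventually.of_forall fun y => ?_)
  rw [Real.norm_of_nonneg (ind_nonneg S A y), ind]
  split_ifs with h
  · rw [← h, at', Finset.mem_filter] at hx
    rw [bx_apply, if_pos hx.2]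
  · exact den_bx.nn _

theorem part (S : Finset ℝ) {G : Finset ℝ → ℝ} (h0 : G ∅ = 0) (y : ℝ) :
    G (at' S y) = ∑ A ∈ cells S, ind S A y * G A := by
  simp only [ind, ite_mul, one_mul, zero_mul, Finset.sum_ite_eq]
  split_ifs with h
  · rfl
  · rcases (at' S y).eq_empty_or_nonempty with h1 | h1
    · rw [h1, h0]
    · exact absurd (mem_cells.2 ⟨Finset.filter_subset _ _, h1, y, rfl⟩) h

theorem int_part (S : Finset ℝ) {G : Finset ℝ → ℝ} (h0 : G ∅ = 0) :
    ∫ y, G (at' S y) = ∑ A ∈ cells S, (∫ y, ind S A y) * G A := by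
  simp only [part S h0]
  rw [integral_finsetSum _ fun A hA => (int_ind hA).mul_const _]
  simp only [integral_mul_const]

theorem sum_len {S : Finset ℝ} {x : ℝ} (hx : x ∈ S) :
    ∑ A ∈ cells S, (∫ y, ind S A y) * (if x ∈ A then 1 else 0) = 1 := by
  rw [← int_part S (G := fun A => if x ∈ A then 1 else 0) (by simp)]
  refine Eq.trans (integral_congr_ae (Filter.Eventually.of_forall fun y => ?_)) (den_bx.shift x).int
  simp only [bx_apply, at', Finset.mem_filter, hx, true_and]

theorem neg_le {u F : ℝ} (hu : 0 ≤ u) (h : u ≤ F) : u * -Real.log F ≤ Real.negMulLog u := by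
  rcases hu.eq_or_lt with rfl | hu
  · simp
  · have := Real.log_le_log hu h
    rw [Real.negMulLog]
    nlinarith

end CellA

open CellA

/-- Cells: `A y = (sp ν).filter (· ∈ Ioc (y-1) y)`, `ℓ A = vol {y | A y = A}` for nonempty
`A ⊆ sp ν` (finite), `ν A = ∑ x ∈ A, ν x > 0`, pieces `ζ A = (ν A)⁻¹ • ν|_A`, weights
`c A = ℓ A * ν A` (index set: nonempty `A` in `(sp ν).powerset` with `ℓ A ≠ 0`, so that the piece has
diameter `≤ 1`).  For `x ∈ sp ν`, `∑_{A ∋ x} ℓ A = vol {y | x ∈ Ioc (y-1) y} = 1`, so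
`ν = ∑ c A • ζ A`, and `h1 ν = ∑ ℓ A * φ(ν A)`.  Put `W = ∑ c A * Var (ζ A)`.  With
`F = st (sc 2 ν) bx`, `F_A = ν A * st (sc 2 (ζ A)) bx ≤ F`, `F = ∑ ℓ A * F_A`, hence pointwise
`φ(F) = ∑ ℓ A * F_A * (-log F) ≤ ∑ ℓ A * φ(F_A)` and `∫ φ(F_A) = φ(ν A) + ν A * h1 (sc 2 (ζ A))`.
So `h1 (sc 2 ν) ≤ h1 ν + ∑ c A * (2τ + 4 Var (ζ A) / (2τ)) = h1 ν + 2τ + 2W/τ` for all `τ > 0`
(`h1_le_var`, `Var_sc`); take `τ = √W` (or `τ → 0` if `W = 0`). -/
theorem cell {ν : FM} (hν : IsP ν) :
    ∃ W : ℝ, 0 ≤ W ∧ Cov ν W ∧ h1 (sc 2 ν) ≤ h1 ν + 4 * √W := by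
  classical
  set S := sp ν with hS
  set l : Finset ℝ → ℝ := fun A => ∫ y, ind S A y with hl
  set m : Finset ℝ → ℝ := fun A => ∑ x ∈ A, ν.coeff x with hm
  set ζ : Finset ℝ → FM := fun A => ∑ x ∈ A, (ν.coeff x / m A) • dl x with hζ
  have hl0 : ∀ A, 0 ≤ l A := fun A => integral_nonneg (ind_nonneg S A)
  have hm0 : ∀ A ∈ cells S, 0 < m A := fun A hA =>
    Finset.sum_pos (fun x hx => hν.pos ((mem_cells.1 hA).1 hx)) (mem_cells.1 hA).2.1
  have hc0 : ∀ A ∈ cells S, 0 ≤ l A * m A := fun A hA => mul_nonneg (hl0 A) (hm0 A hA).le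
  have hζP : ∀ A ∈ cells S, IsP (ζ A) := fun A hA =>
    isP_mix (fun x _ => div_nonneg (hν.nn x) (hm0 A hA).le)
      (by rw [← Finset.sum_div]; exact div_self (hm0 A hA).ne') fun x _ => isP_dl x
  have hex : ∀ A ∈ cells S, ∀ F : ℝ → ℝ, m A * ex (ζ A) F = ∑ x ∈ A, ν.coeff x * F x := by
    intro A hA F
    have := (hm0 A hA).ne'
    rw [hζ, ex_mix, Finset.mul_sum]
    refine Finset.sum_congr rfl fun x _ => ?_
    rw [ex_dl, smul_eq_mul]
    field_simp
  have hdec : ∀ F : ℝ → ℝ, ex ν F = ∑ A ∈ cells S, l A * (m A * ex (ζ A) F) := by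
    intro F
    rw [ex_eq_sum']
    calc ∑ x ∈ S, ν.coeff x * F x
        = ∑ x ∈ S, ∑ A ∈ cells S, l A * (if x ∈ A then ν.coeff x * F x else 0) := by
          refine Finset.sum_congr rfl fun x hx => ?_
          conv_lhs => rw [← one_mul (ν.coeff x * F x), ← sum_len hx, Finset.sum_mul]
          refine Finset.sum_congr rfl fun A _ => ?_
          split_ifs <;> simp [hl]
      _ = _ := by
          rw [Finset.sum_comm]
          refine Finset.sum_congr rfl fun A hA => ?_
          rw [← Finset.mul_sum, Finset.sum_ite_mem, Finset.inter_eq_right.2 (mem_cells.1 hA).1,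
            hex A hA F]
  have hc1 : ∑ A ∈ cells S, l A * m A = 1 := by
    rw [← hν.one, hdec]
    exact Finset.sum_congr rfl fun A hA => by rw [(hζP A hA).one, mul_one]
  have hνeq : ν = ∑ A ∈ cells S, (l A * m A) • ζ A :=
    ext_ex fun F => by rw [hdec, ex_mix]; simp only [smul_eq_mul, mul_assoc]
  have hpc : ∀ A ∈ cells S, Piece (ζ A) := fun A hA => ⟨hζP A hA, fun x hx x' hx' => by
    obtain ⟨-, -, y, hy⟩ := mem_cells.1 hA
    obtain ⟨z, hz, -, h1⟩ := mem_sp_mix hx
    obtain ⟨z', hz', -, h2⟩ := mem_sp_mix hx'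
    rw [mem_sp_dl h1, mem_sp_dl h2]
    rw [← hy, at', Finset.mem_filter] at hz hz'
    rw [abs_le]
    constructor <;> linarith [hz.2.1, hz.2.2, hz'.2.1, hz'.2.2]⟩
  set W := ∑ A ∈ cells S, l A * m A * Var (ζ A) with hW
  have hW0 : 0 ≤ W := Finset.sum_nonneg fun A hA => mul_nonneg (hc0 A hA) (Var_nonneg (hζP A hA))
  refine ⟨W, hW0, ⟨Finset ℝ, cells S, fun A => l A * m A, ζ, hc0, hc1, hpc, hνeq, le_rfl⟩, ?_⟩
  have h1ν : h1 ν = ∑ A ∈ cells S, l A * Real.negMulLog (m A) := by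
    rw [← int_part S (G := fun A => Real.negMulLog (m A)) (by simp [hm]), h1, En]
    refine integral_congr_ae (Filter.Eventually.of_forall fun y => ?_)
    simp only [st_eq_sum, hm, at', Finset.sum_filter, bx_apply, mul_ite, mul_one, mul_zero, hS]
  set g : Finset ℝ → ℝ → ℝ := fun A => st (sc 2 (ζ A)) bx with hg
  have hgD : ∀ A ∈ cells S, Den (g A) := fun A hA => den_bx.st ((hζP A hA).sc 2)
  have hpt : ∀ y, Real.negMulLog (st (sc 2 ν) bx y) ≤ ∑ A ∈ cells S,
      l A * (g A y * Real.negMulLog (m A) + m A * Real.negMulLog (g A y)) := by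
    intro y
    have e1 : st (sc 2 ν) bx y = ∑ A ∈ cells S, l A * (m A * g A y) := by
      simp only [hg, st, ex_sc]
      exact hdec _
    have e2 : ∀ A ∈ cells S, m A * g A y ≤ st (sc 2 ν) bx y := fun A hA => by
      simp only [hg, st, ex_sc]
      rw [hex A hA, ex_eq_sum']
      exact Finset.sum_le_sum_of_subset_of_nonneg (mem_cells.1 hA).1 fun x _ _ =>
        mul_nonneg (hν.nn x) (den_bx.nn _)
    generalize st (sc 2 ν) bx y = F at e1 e2
    have e3 : Real.negMulLog F = ∑ A ∈ cells S, l A * (m A * g A y * -Real.log F) := by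
      simp only [← mul_assoc]
      rw [← Finset.sum_mul]
      simp only [mul_assoc]
      rw [← e1, Real.negMulLog]
      ring
    rw [e3]
    refine Finset.sum_le_sum fun A hA => mul_le_mul_of_nonneg_left ?_ (hl0 A)
    rw [← Real.negMulLog_mul]
    exact neg_le (mul_nonneg (hm0 A hA).le ((hgD A hA).nn y)) (e2 A hA)
  have hi : ∀ A ∈ cells S, Integrable fun y =>
      l A * (g A y * Real.negMulLog (m A) + m A * Real.negMulLog (g A y)) := fun A hA =>
    (((hgD A hA).integrable.mul_const _).add ((hgD A hA).integrable_neg.const_mul _)).const_mul _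
  have hmain : h1 (sc 2 ν) ≤ h1 ν + ∑ A ∈ cells S, l A * m A * h1 (sc 2 (ζ A)) := by
    refine (integral_mono (den_bx.st (hν.sc 2)).integrable_neg (integrable_finsetSum _ hi) hpt).trans_eq ?_
    rw [integral_finsetSum _ hi, h1ν, ← Finset.sum_add_distrib]
    refine Finset.sum_congr rfl fun A hA => ?_
    rw [integral_const_mul, integral_add ((hgD A hA).integrable.mul_const _)
      ((hgD A hA).integrable_neg.const_mul _), integral_mul_const, integral_const_mul, (hgD A hA).int]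
    simp only [h1, En, hg]
    ring
  have hτ : ∀ τ : ℝ, 0 < τ → h1 (sc 2 ν) ≤ h1 ν + (2 * τ + 2 * W / τ) := fun τ hτ => by
    refine hmain.trans (add_le_add_right ?_ _)
    calc _ ≤ ∑ A ∈ cells S, l A * m A * (2 * τ + 2 ^ 2 * Var (ζ A) / (2 * τ)) :=
          Finset.sum_le_sum fun A hA => mul_le_mul_of_nonneg_left
            (by rw [← Var_sc]; exact h1_le_var ((hζP A hA).sc 2) hτ) (hc0 A hA)
      _ = (∑ A ∈ cells S, l A * m A) * (2 * τ) + 2 * W / τ := by
          rw [hW, Finset.sum_mul, Finset.mul_sum, Finset.sum_div, ← Finset.sum_add_distrib]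
          refine Finset.sum_congr rfl fun A _ => ?_
          field_simp
      _ = _ := by rw [hc1, one_mul]
  rcases hW0.eq_or_lt with h0 | h0
  · rw [← h0, Real.sqrt_zero, mul_zero, add_zero]
    refine le_of_forall_pos_le_add fun ε hε => ?_
    have := hτ (ε / 2) (half_pos hε)
    rw [← h0, mul_zero, zero_div] at this
    linarith
  · have hs := Real.sqrt_pos.2 h0
    have := hτ _ hs
    rw [mul_div_assoc, Real.div_sqrt] at this
    linarith

/-- if `c |x - x'| ≥ 1` for distinct atoms then pointwise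
`φ(st (sc c ν) bx y) = ∑ₓ φ(ν x) * bx (y - c x)` -/
theorem ent_le_h1 {ν : FM} (hν : IsP ν) : ∃ c₀ : ℝ, ∀ c, c₀ ≤ c → Ent ν ≤ h1 (sc c ν) := by
  classical
  refine ⟨∑ x ∈ sp ν, ∑ x' ∈ sp ν, |x - x'|⁻¹, fun c hc => ?_⟩
  have hsep : ∀ x ∈ sp ν, ∀ x' ∈ sp ν, x' ≠ x → 1 ≤ |c * x - c * x'| := by
    intro x hx x' hx' hne
    have h0 : 0 < |x - x'| := abs_pos.2 (sub_ne_zero.2 hne.symm)
    have h1 : |x - x'|⁻¹ ≤ c :=
      ((Finset.single_le_sum (f := fun x' => |x - x'|⁻¹) (fun _ _ => by positivity) hx').trans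
        (Finset.single_le_sum (f := fun x => ∑ x' ∈ sp ν, |x - x'|⁻¹)
          (fun _ _ => by positivity) hx)).trans hc
    rw [← mul_sub, abs_mul, abs_of_pos ((inv_pos.2 h0).trans_le h1)]
    rwa [inv_le_iff_one_le_mul₀ h0] at h1
  have hpt : ∀ y, Real.negMulLog (st (sc c ν) bx y) =
      ∑ x ∈ sp ν, Real.negMulLog (ν.coeff x) * bx (y - c * x) := by
    intro y
    simp only [st, ex_sc]
    rw [ex_eq_sum']
    by_cases h : ∃ x ∈ sp ν, 0 ≤ y - c * x ∧ y - c * x < 1
    · obtain ⟨x, hx, h⟩ := h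
      have hz : ∀ x' ∈ sp ν, x' ≠ x → bx (y - c * x') = 0 := fun x' hx' hne => by
        rw [bx_apply, if_neg]
        intro h'
        have := hsep x hx x' hx' hne
        rw [le_abs] at this
        rcases this with h2 | h2 <;> linarith [h.1, h.2, h'.1, h'.2]
      rw [Finset.sum_eq_single_of_mem x hx fun x' hx' hne => by rw [hz x' hx' hne, mul_zero],
        Finset.sum_eq_single_of_mem x hx fun x' hx' hne => by rw [hz x' hx' hne, mul_zero],
        bx_apply, if_pos h, mul_one, mul_one]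
    · have hz : ∀ x ∈ sp ν, bx (y - c * x) = 0 := fun x hx => by
        rw [bx_apply, if_neg fun h' => h ⟨x, hx, h'⟩]
      rw [Finset.sum_eq_zero fun x hx => by rw [hz x hx, mul_zero],
        Finset.sum_eq_zero fun x hx => by rw [hz x hx, mul_zero], Real.negMulLog_zero]
  simp only [h1, En, hpt]
  rw [integral_finsetSum _ fun x _ => (den_bx.shift (c * x)).integrable.const_mul _, Ent_eq_sum]
  refine (Finset.sum_congr rfl fun x _ => ?_).le
  rw [integral_const_mul, (den_bx.shift (c * x)).int, mul_one]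

end Crest.Agent.R98
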