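import Crest.Agent.R98.Gen

/-! # R98 SCAL: change of scale (task 98-SCAL) -/

set_option autoImplicit false

open MeasureTheory

namespace Crest.Agent.R98

theorem SCAL_sum (N : ℕ) (y : ℝ) :
    ∑ i ∈ Finset.range N, bx (y - i) = if 0 ≤ y ∧ y < N then 1 else 0 := by
  induction N with
  | zero => simp
  | succ N ih =>
    rw [Finset.sum_range_succ, ih, bx_apply]
    have : (0 : ℝ) ≤ N := Nat.cast_nonneg N
    push_cast
    by_cases h1 : y < N
    · rw [if_neg (show ¬(0 ≤ y - N ∧ y - N < 1) from fun h => by linarith [h.1]), add_zero]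
      exact if_congr (and_congr_right fun _ => ⟨fun _ => by linarith, fun _ => h1⟩) rfl rfl
    · rw [if_neg (show ¬(0 ≤ y ∧ y < N) from fun h => h1 h.2), zero_add]
      push Not at h1
      exact if_congr ⟨fun h => ⟨by linarith, by linarith [h.2]⟩,
        fun h => ⟨by linarith, by linarith [h.2]⟩⟩ rfl rfl

theorem SCAL_fm (μ : Measure ℝ) (Λ y : ℝ) : fm μ Λ y = ∫ x, bx (y - Λ * x) ∂μ := by
  rw [fm_eq]
  exact integral_map (measurable_const_mul Λ).aemeasurable
    (den_bx.meas.comp (measurable_id.const_sub y)).aestronglyMeasurable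

/-- joint mass of two cells -/
noncomputable def SCAL_k (μ : Measure ℝ) (Λ Λ' y z : ℝ) : ℝ :=
  ∫ x, bx (y - Λ * x) * bx (z - Λ' * x) ∂μ

theorem SCAL_k_swap (μ : Measure ℝ) (Λ Λ' y z : ℝ) : SCAL_k μ Λ Λ' y z = SCAL_k μ Λ' Λ z y := by
  unfold SCAL_k
  exact integral_congr_ae (Filter.Eventually.of_forall fun _ => mul_comm _ _)

theorem SCAL_k_meas (μ : Measure ℝ) [SFinite μ] (Λ Λ' : ℝ) :
    Measurable (Function.uncurry (SCAL_k μ Λ Λ')) := by
  have hb := den_bx.meas
  have : Measurable fun p : (ℝ × ℝ) × ℝ => bx (p.1.1 - Λ * p.2) * bx (p.1.2 - Λ' * p.2) := by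
    fun_prop
  exact (this.stronglyMeasurable.integral_prod_right' (ν := μ)).measurable

theorem SCAL_k_nn (μ : Measure ℝ) (Λ Λ' y z : ℝ) : 0 ≤ SCAL_k μ Λ Λ' y z :=
  integral_nonneg fun _ => mul_nonneg (den_bx.nn _) (den_bx.nn _)

theorem SCAL_bxI (μ : Measure ℝ) [IsFiniteMeasure μ] (Λ y : ℝ) :
    Integrable (fun x => bx (y - Λ * x)) μ := by
  have hb := den_bx.meas
  refine Integrable.of_bound (Measurable.aestronglyMeasurable (by fun_prop)) 1
    (Filter.Eventually.of_forall fun x => ?_)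
  rw [Real.norm_of_nonneg (den_bx.nn _)]
  exact den_bx.le1 _

theorem SCAL_k_le (μ : Measure ℝ) [IsFiniteMeasure μ] (Λ Λ' y z : ℝ) :
    SCAL_k μ Λ Λ' y z ≤ fm μ Λ y := by
  rw [SCAL_fm]
  exact integral_mono_of_nonneg
    (Filter.Eventually.of_forall fun _ => mul_nonneg (den_bx.nn _) (den_bx.nn _))
    (SCAL_bxI μ Λ y)
    (Filter.Eventually.of_forall fun _ => mul_le_of_le_one_right (den_bx.nn _) (den_bx.le1 _))

theorem SCAL_k_int (μ : Measure ℝ) [IsFiniteMeasure μ] (Λ Λ' y : ℝ) :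
    ∫ z, SCAL_k μ Λ Λ' y z = fm μ Λ y := by
  have hb := den_bx.meas
  have e : ∀ x, ∫ z, bx (y - Λ * x) * bx (z - Λ' * x) = bx (y - Λ * x) := fun x => by
    rw [integral_const_mul, (den_bx.shift _).int, mul_one]
  unfold SCAL_k
  rw [integral_integral_swap, SCAL_fm]
  · simp only [e]
  · have hm : Measurable (Function.uncurry fun z x => bx (y - Λ * x) * bx (z - Λ' * x)) := by
      unfold Function.uncurry
      fun_prop
    rw [integrable_prod_iff' hm.aestronglyMeasurable]
    refine ⟨Filter.Eventually.of_forall fun x =>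
      (den_bx.shift (Λ' * x)).integrable.const_mul (bx (y - Λ * x)), ?_⟩
    refine (SCAL_bxI μ Λ y).congr (Filter.Eventually.of_forall fun x => ?_)
    simp only [Function.uncurry_apply_pair]
    refine (e x).symm.trans ?_
    congr 1
    funext z
    rw [Real.norm_of_nonneg (mul_nonneg (den_bx.nn _) (den_bx.nn _))]

theorem SCAL_k_supp {μ : Measure ℝ} {Λ Λ' y z : ℝ} (h : SCAL_k μ Λ Λ' y z ≠ 0) :
    ∃ x, (0 ≤ y - Λ * x ∧ y - Λ * x < 1) ∧ (0 ≤ z - Λ' * x ∧ z - Λ' * x < 1) := by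
  by_contra hn
  apply h
  have : (fun x => bx (y - Λ * x) * bx (z - Λ' * x)) = fun _ => 0 := by
    funext x
    rw [bx_apply, bx_apply]
    split_ifs with h1 h2
    · exact absurd ⟨x, h1, h2⟩ hn
    all_goals simp
  rw [SCAL_k, this, integral_zero]

theorem SCAL_int2 {F : ℝ × ℝ → ℝ} (hm : Measurable F) {C R R' : ℝ} (hb : ∀ p, |F p| ≤ C)
    (hR : ∀ p : ℝ × ℝ, R < |p.1| ∨ R' < |p.2| → F p = 0) :
    Integrable F ((volume : Measure ℝ).prod (volume : Measure ℝ)) := by
  have h1 : IntegrableOn F (Set.Icc (-R) R ×ˢ Set.Icc (-R') R')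
      ((volume : Measure ℝ).prod (volume : Measure ℝ)) :=
    Measure.integrableOn_of_bounded (M := C) (by
      rw [Measure.prod_prod]
      exact ENNReal.mul_ne_top measure_Icc_lt_top.ne measure_Icc_lt_top.ne)
      hm.aestronglyMeasurable (Filter.Eventually.of_forall hb)
  refine (integrableOn_iff_integrable_of_support_subset fun p hp => ?_).1 h1
  by_contra h
  refine hp (hR p ?_)
  by_contra h'
  push Not at h'
  exact h ⟨abs_le.1 h'.1, abs_le.1 h'.2⟩

/-- `st (uN N) bx = N⁻¹ • 1_{[0,N)}`, i.e. `st (uN N) bx y = N⁻¹ * bx (y / N)` -/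
theorem st_uN_bx {N : ℕ} (hN : 1 ≤ N) (y : ℝ) : st (uN N) bx y = (N : ℝ)⁻¹ * bx (y / N) := by
  have hN0 : (0 : ℝ) < N := by exact_mod_cast hN
  have e : st (uN N) bx y = (N : ℝ)⁻¹ * ∑ i ∈ Finset.range N, bx (y - i) := by
    unfold uN
    rw [st_mix, Finset.mul_sum]
    simp only [st_dl]
  rw [e, SCAL_sum, bx_apply]
  simp only [div_lt_one hN0, le_div_iff₀ hN0, zero_mul]

/-- `En (y ↦ N⁻¹ f (y / N)) = log N + En f` (`negMulLog_mul`, `integral_comp_div`) -/
theorem En_scale {f : ℝ → ℝ} (hf : Den f) {c : ℝ} (hc : 0 < c) :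
    En (fun y => c⁻¹ * f (y / c)) = Real.log c + En f := by
  unfold En
  simp only [Real.negMulLog_mul]
  rw [integral_add ((hf.integrable.comp_div hc.ne').mul_const _)
    ((hf.integrable_neg.comp_div hc.ne').const_mul _), integral_mul_const, integral_const_mul,
    Measure.integral_comp_div f, Measure.integral_comp_div fun y => Real.negMulLog (f y), hf.int,
    abs_of_pos hc, Real.negMulLog, Real.log_inv, smul_eq_mul, smul_eq_mul]
  field_simp

theorem En_st_uN {N : ℕ} (hN : 1 ≤ N) {ν : FM} (hν : IsP ν) :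
    En (st (uN N) (st ν bx)) = Real.log N + h1 (sc (N : ℝ)⁻¹ ν) := by
  have hN0 : (0 : ℝ) < N := by exact_mod_cast hN
  rw [h1, ← En_scale (den_bx.st (hν.sc _)) hN0, st_comm]
  congr 1
  funext y
  rw [st, st, ex_sc, ← ex_fmul]
  refine ex_congr fun x _ => ?_
  rw [st_uN_bx hN, sub_div, div_eq_inv_mul x]

theorem En_uN {N : ℕ} (hN : 1 ≤ N) : En (st (uN N) bx) = Real.log N := by
  have hN0 : (0 : ℝ) < N := by exact_mod_cast hN
  rw [funext (st_uN_bx hN), En_scale den_bx hN0, En_bx, add_zero]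

theorem Dn_h1 {N : ℕ} (hN : 1 ≤ N) {ν : FM} (hν : IsP ν) :
    Dn N (st ν bx) = h1 ν - h1 (sc (N : ℝ)⁻¹ ν) := by
  rw [Dn, En_st_uN hN hν]
  unfold h1
  ring

/-- `st (uN N) (fm μ Λ) y = N⁻¹ * fm μ (Λ / N) (y / N)` by `fm_eq`, `st_sm`, `st_uN_bx` -/
theorem Dn_fm {N : ℕ} (hN : 1 ≤ N) {μ : Measure ℝ} (hμ : BP μ) (Λ : ℝ) :
    Dn N (fm μ Λ) = hm μ Λ - hm μ (Λ / N) := by
  have hN0 : (0 : ℝ) < N := by exact_mod_cast hN
  have e : st (uN N) (fm μ Λ) = fun y => (N : ℝ)⁻¹ * fm μ (Λ / N) (y / N) := by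
    rw [fm_eq, st_sm den_bx (hμ.map Λ)]
    funext y
    rw [SCAL_fm, sm, integral_map (f := fun x => st (uN N) bx (y - x))
      (measurable_const_mul Λ).aemeasurable
      ((den_bx.st (isP_uN hN)).meas.comp (measurable_id.const_sub y)).aestronglyMeasurable,
      ← integral_const_mul]
    congr 1
    funext x
    rw [st_uN_bx hN]
    congr 2
    ring
  rw [Dn, e, En_scale (hμ.den_fm _) hN0, hm, hm]
  ring

/-- Comparison of scales.  Let `k y z = μ.real {x | Λ x ∈ (y-1,y], Λ' x ∈ (z-1,z]}` (jointly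
measurable, `0 ≤ k ≤ 1`, bounded support), `f = fm μ Λ`, `f' = fm μ Λ'`, `c = 1 + |Λ|/|Λ'|`.
Then `∫ k dz = f y`, `∫ k dy = f' z` (Fubini), `k ≤ f y`, `k ≤ f' z`, and for fixed `z` the set
`{y | k y z ≠ 0}` lies in an interval of length `c`.  Pointwise, where `k > 0`:
`-k log (f y) ≤ -k log k = -k log (f' z) + k log (f' z / k)` and
`k log (f' z / k) ≤ k log c + f' z / c - k`.  Integrate over `(y,z)`. -/
theorem hm_cmp {μ : Measure ℝ} (hμ : BP μ) (Λ : ℝ) {Λ' : ℝ} (hΛ' : Λ' ≠ 0) :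
    hm μ Λ ≤ hm μ Λ' + Real.log (1 + |Λ| / |Λ'|) := by
  have := hμ.prob
  set c : ℝ := 1 + |Λ| / |Λ'| with hc
  set r : ℝ := Λ / Λ' with hr
  have hcr : c = 1 + |r| := by rw [hc, hr, abs_div]
  have hc0 : 0 < c := by rw [hcr]; positivity
  have df := hμ.den_fm Λ
  have df' := hμ.den_fm Λ'
  obtain ⟨R, hR⟩ := df.bdd
  obtain ⟨R', hR'⟩ := df'.bdd
  set k := SCAL_k μ Λ Λ' with hk
  have km : Measurable (Function.uncurry k) := SCAL_k_meas μ Λ Λ'
  have k0 : ∀ y z, 0 ≤ k y z := SCAL_k_nn μ Λ Λ'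
  have k1 : ∀ y z, k y z ≤ fm μ Λ y := SCAL_k_le μ Λ Λ'
  have k2 : ∀ y z, k y z ≤ fm μ Λ' z := fun y z => by
    rw [hk, SCAL_k_swap]; exact SCAL_k_le μ Λ' Λ z y
  have i1 : ∀ y, ∫ z, k y z = fm μ Λ y := SCAL_k_int μ Λ Λ'
  have i2 : ∀ z, ∫ y, k y z = fm μ Λ' z := fun z => by
    rw [← SCAL_k_int μ Λ' Λ z]
    simp only [hk, SCAL_k_swap μ Λ Λ']
  have Fb : ∀ y z, |-(k y z * Real.log (fm μ Λ y))| ≤ 1 := fun y z => by
    have h1 : 0 ≤ -Real.log (fm μ Λ y) := neg_nonneg.2 (Real.log_nonpos (df.nn y) (df.le1 y))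
    have h2 := negMulLog_le_one (df.nn y)
    have h3 := mul_le_mul_of_nonneg_right (k1 y z) h1
    have h4 := mul_nonneg (k0 y z) h1
    unfold Real.negMulLog at h2
    rw [abs_le]
    constructor <;> linarith
  have kz1 : ∀ y z, R < |y| → k y z = 0 := fun y z hy =>
    le_antisymm ((k1 y z).trans (hR y hy).le) (k0 y z)
  have kz2 : ∀ y z, R' < |z| → k y z = 0 := fun y z hz =>
    le_antisymm ((k2 y z).trans (hR' z hz).le) (k0 y z)
  have Fm : Measurable (Function.uncurry fun y z => -(k y z * Real.log (fm μ Λ y))) :=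
    (km.mul (Real.measurable_log.comp (df.meas.comp measurable_fst))).neg
  have FI : Integrable (Function.uncurry fun y z => -(k y z * Real.log (fm μ Λ y)))
      ((volume : Measure ℝ).prod (volume : Measure ℝ)) :=
    SCAL_int2 Fm (C := 1) (R := R) (R' := R') (fun p => Fb p.1 p.2) fun p hp => by
      show -(k p.1 p.2 * _) = 0
      rcases hp with hp | hp
      · rw [kz1 _ _ hp]; simp
      · rw [kz2 _ _ hp]; simp
  have e1 : hm μ Λ = ∫ y, ∫ z, -(k y z * Real.log (fm μ Λ y)) := by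
    unfold hm En
    congr 1
    funext y
    rw [integral_neg, integral_mul_const, i1, Real.negMulLog, neg_mul]
  let g : ℝ → ℝ := Set.indicator (Set.Icc (-max r 0) (-max r 0 + c)) 1
  have gI : Integrable g := (integrable_indicator_iff measurableSet_Icc).2
    (integrableOn_const measure_Icc_lt_top.ne)
  have gi : ∫ y, g y = c := by
    rw [integral_indicator_one measurableSet_Icc]
    simp [hc0.le]
  have g0 : ∀ y, 0 ≤ g y := fun y => Set.indicator_nonneg (fun _ _ => zero_le_one) y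
  have pt : ∀ y z, -(k y z * Real.log (fm μ Λ y)) ≤
      k y z * (-Real.log (fm μ Λ' z) + Real.log c - 1) + g (y - r * z) * (fm μ Λ' z / c) := by
    intro y z
    rcases (k0 y z).eq_or_lt with h0 | h0
    · rw [← h0]
      have := mul_nonneg (g0 (y - r * z)) (div_nonneg (df'.nn z) hc0.le)
      linarith
    · obtain ⟨x, hx1, hx2⟩ := SCAL_k_supp h0.ne'
      have hg : g (y - r * z) = 1 := by
        refine Set.indicator_of_mem (s := Set.Icc (-max r 0) (-max r 0 + c)) ?_ _
        have e : y - r * z = (y - Λ * x) - r * (z - Λ' * x) := by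
          rw [hr]; field_simp; ring
        rw [e, hcr]
        generalize y - Λ * x = u at hx1
        generalize z - Λ' * x = s at hx2
        rcases le_total 0 r with h | h
        · rw [max_eq_left h, abs_of_nonneg h]
          constructor <;> nlinarith [hx1.1, hx1.2, hx2.1, hx2.2]
        · rw [max_eq_right h, abs_of_nonpos h]
          constructor <;> nlinarith [hx1.1, hx1.2, hx2.1, hx2.2]
      have p1 : 0 < fm μ Λ y := h0.trans_le (k1 y z)
      have p2 : 0 < fm μ Λ' z := h0.trans_le (k2 y z)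
      have h3 := Real.log_le_sub_one_of_pos (show 0 < fm μ Λ' z / c / fm μ Λ y by positivity)
      rw [Real.log_div (by positivity) p1.ne', Real.log_div p2.ne' hc0.ne'] at h3
      have h4 := mul_le_mul_of_nonneg_left h3 h0.le
      have h5 : k y z * (fm μ Λ' z / c / fm μ Λ y) ≤ fm μ Λ' z / c := by
        rw [← mul_div_assoc, div_le_iff₀ p1, mul_comm]
        exact mul_le_mul_of_nonneg_left (k1 y z) (by positivity)
      rw [hg]
      linarith
  have step : ∀ z, ∫ y, -(k y z * Real.log (fm μ Λ y)) ≤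
      Real.negMulLog (fm μ Λ' z) + Real.log c * fm μ Λ' z := by
    intro z
    have kI : Integrable fun y => k y z :=
      integrable_of_bdd (km.comp (measurable_id.prodMk measurable_const)) (C := 1) (R := R)
        (fun y => by rw [abs_of_nonneg (k0 y z)]; exact (k1 y z).trans (df.le1 y))
        fun y hy => kz1 y z hy
    have FI' : Integrable fun y => -(k y z * Real.log (fm μ Λ y)) :=
      integrable_of_bdd (Fm.comp (measurable_id.prodMk measurable_const)) (C := 1) (R := R)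
        (fun y => Fb y z) fun y hy => by rw [kz1 y z hy]; simp
    refine (integral_mono FI' ((kI.mul_const _).add ((gI.comp_sub_right _).mul_const _))
      fun y => pt y z).trans (le_of_eq ?_)
    simp only [Pi.add_apply]
    rw [integral_add (kI.mul_const _) ((gI.comp_sub_right _).mul_const _), integral_mul_const,
      integral_mul_const, i2, integral_sub_right_eq_self g, gi, Real.negMulLog]
    field_simp
    ring
  rw [e1, integral_integral_swap FI]
  refine (integral_mono FI.integral_prod_right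
    (df'.integrable_neg.add (df'.integrable.const_mul _)) step).trans (le_of_eq ?_)
  simp only [Pi.add_apply]
  rw [integral_add df'.integrable_neg (df'.integrable.const_mul _), integral_const_mul, df'.int,
    mul_one]
  rfl

end Crest.Agent.R98
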