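import Crest.Agent.R98.Var
import Crest.Agent.R98.Scal

/-! # R98 CONC: anticoncentration and the Gibbs bound (task 98-CONC) -/

set_option autoImplicit false

open MeasureTheory

namespace Crest.Agent.R98

/-- Fejér-type kernel -/
noncomputable def concK (u : ℝ) : ℝ := ∫ t in (0 : ℝ)..1, (1 - t) * Real.cos (t * u)

theorem concK_ge {u : ℝ} (hu : |u| ≤ 1) : 1 / 4 ≤ concK u := by
  have h0 : ∫ t in (0 : ℝ)..1, (1 - t) * (1 / 2 : ℝ) = 1 / 4 := by
    rw [intervalIntegral.integral_mul_const, intervalIntegral.integral_sub (by simp) (by simp)]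
    simp only [integral_id, intervalIntegral.integral_const]
    norm_num
  rw [← h0]
  refine intervalIntegral.integral_mono_on zero_le_one (Continuous.intervalIntegrable (by fun_prop) _ _)
    (Continuous.intervalIntegrable (by fun_prop) _ _) fun t ht => ?_
  refine mul_le_mul_of_nonneg_left ?_ (by linarith [ht.2])
  have h1 := Real.one_sub_sq_div_two_le_cos (x := t * u)
  have h2 : (t * u) ^ 2 ≤ 1 := by
    rw [mul_pow]
    have a1 : t ^ 2 ≤ 1 := by nlinarith [ht.1, ht.2]
    have a2 : u ^ 2 ≤ 1 := by rw [← sq_abs]; nlinarith [abs_nonneg u]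
    nlinarith [sq_nonneg t, sq_nonneg u]
  linarith

theorem concK_nonneg (u : ℝ) : 0 ≤ concK u := by
  by_cases hu : u = 0
  · have := concK_ge (u := u) (by simp [hu])
    linarith
  have hd : ∀ t ∈ Set.uIcc (0 : ℝ) 1,
      HasDerivAt (fun t : ℝ => (1 - t) * Real.sin (t * u) / u - Real.cos (t * u) / u ^ 2)
        ((1 - t) * Real.cos (t * u)) t := by
    intro t _
    have a1 : HasDerivAt (fun t : ℝ => t * u) u t := by simpa using (hasDerivAt_id t).mul_const u
    have a2 : HasDerivAt (fun t : ℝ => 1 - t) (-1) t := by simpa using (hasDerivAt_id t).const_sub 1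
    have := ((a2.mul a1.sin).div_const u).sub (a1.cos.div_const (u ^ 2))
    refine this.congr_deriv ?_
    field_simp
    ring
  unfold concK
  rw [intervalIntegral.integral_eq_sub_of_hasDerivAt hd (Continuous.intervalIntegrable (by fun_prop) _ _)]
  have h1 := Real.cos_le_one u
  have h2 : 0 < u ^ 2 := by positivity
  simp only [sub_self, zero_mul, zero_div, one_mul, Real.sin_zero, mul_zero, Real.cos_zero]
  have : Real.cos u / u ^ 2 ≤ 1 / u ^ 2 := div_le_div_of_nonneg_right h1 h2.le
  linarith

theorem ex_cos_le (η : FM) (t y : ℝ) : ex η (fun x => Real.cos (t * (x - y))) ≤ ‖cf η t‖ := by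
  have h : ex η (fun x => Real.cos (t * (x - y))) =
      (Complex.exp (((-(t * y) : ℝ) : ℂ) * Complex.I) * cf η t).re := by
    rw [cf, ex_eq_sum, ex_eq_sum, Finset.mul_sum, Complex.re_sum]
    refine Finset.sum_congr rfl fun x _ => ?_
    rw [mul_smul_comm, ← Complex.exp_add, Complex.smul_re, ← add_mul, ← Complex.ofReal_add,
      Complex.exp_ofReal_mul_I_re]
    congr 2
    ring
  rw [h]
  refine (Complex.re_le_norm _).trans ?_
  rw [norm_mul, Complex.norm_exp_ofReal_mul_I, one_mul]

/-- `K u = ∫₀¹ (1 - t) cos (t u) dt` is `≥ 0` (`= (1 - cos u)/u²` for `u ≠ 0`) and `≥ 1/4` for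
`|u| ≤ 1` (`cos ≥ 1/2` there).  So
`st η bx y ≤ 4 E K (x - y) = 4 ∫₀¹ (1-t) Re (e^{-ity} cf η t) dt ≤ 4 ∫₀^∞ e^{-t² v/5} dt
= 2 √(5π/v) ≤ 8/√v` (`integral_gaussian_Ioi`, `5π ≤ 16`). -/
theorem Pv.conc {v : ℝ} {η : FM} (h : Pv v η) (hv : 0 < v) (y : ℝ) : st η bx y ≤ 8 / √v := by
  have h1 : st η bx y ≤ ex η fun x => 4 * concK (x - y) := by
    refine h.isP.ex_mono fun x _ => ?_
    rw [bx_apply]
    split_ifs with hx
    · have := concK_ge (u := x - y) (abs_le.2 ⟨by linarith [hx.2], by linarith [hx.1]⟩)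
      linarith
    · linarith [concK_nonneg (x - y)]
  have h2 : ex η (fun x => concK (x - y)) =
      ∫ t in (0 : ℝ)..1, (1 - t) * ex η fun x => Real.cos (t * (x - y)) := by
    simp only [ex_eq_sum', concK, Finset.mul_sum]
    rw [intervalIntegral.integral_finsetSum fun x _ => Continuous.intervalIntegrable (by fun_prop) _ _]
    refine Finset.sum_congr rfl fun x _ => ?_
    rw [← intervalIntegral.integral_const_mul]
    congr 1
    funext t
    ring
  have hb : 0 < v / 5 := by positivity
  have h3 : (∫ t in (0 : ℝ)..1, (1 - t) * ex η fun x => Real.cos (t * (x - y))) ≤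
      ∫ t in (0 : ℝ)..1, Real.exp (-(v / 5) * t ^ 2) := by
    refine intervalIntegral.integral_mono_on zero_le_one
      (Continuous.intervalIntegrable (by simp only [ex_eq_sum']; fun_prop) _ _)
      (Continuous.intervalIntegrable (by fun_prop) _ _) fun t ht => ?_
    have a1 := (ex_cos_le η t y).trans (h.cf_le t (abs_le.2 ⟨by linarith [ht.1], ht.2⟩))
    have a2 : -(t ^ 2 * v / 5) = -(v / 5) * t ^ 2 := by ring
    rw [a2] at a1
    have a3 := Real.exp_pos (-(v / 5) * t ^ 2)
    nlinarith [ht.1, ht.2, mul_le_mul_of_nonneg_left a1 (sub_nonneg.2 ht.2)]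
  have h4 : (∫ t in (0 : ℝ)..1, Real.exp (-(v / 5) * t ^ 2)) ≤
      ∫ t in Set.Ioi (0 : ℝ), Real.exp (-(v / 5) * t ^ 2) := by
    rw [intervalIntegral.integral_of_le zero_le_one]
    exact setIntegral_mono_set (integrable_exp_neg_mul_sq hb).integrableOn
      (Filter.Eventually.of_forall fun t => (Real.exp_pos _).le)
      (Filter.Eventually.of_forall Set.Ioc_subset_Ioi_self)
  rw [integral_gaussian_Ioi] at h4
  have h5 : √(Real.pi / (v / 5)) ≤ 4 / √v := by
    have : (4 : ℝ) / √v = √(16 / v) := by
      rw [Real.sqrt_div (by norm_num), show (16 : ℝ) = 4 ^ 2 by norm_num,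
        Real.sqrt_sq (by norm_num)]
    rw [this]
    refine Real.sqrt_le_sqrt ?_
    rw [div_le_div_iff₀ hb hv]
    nlinarith [Real.pi_lt_d2]
  rw [ex_fmul] at h1
  have : (8 : ℝ) / √v = 2 * (4 / √v) := by ring
  linarith

/-- `φ(f) ≥ -f log M` when `0 ≤ f ≤ M` -/
theorem Pv.h1_ge {v : ℝ} {η : FM} (h : Pv v η) (hv : 0 < v) : Real.log (√v / 8) ≤ h1 η := by
  have hd := den_bx.st h.isP
  have hs : 0 < √v := Real.sqrt_pos.2 hv
  have h0 : ∫ y, Real.log (√v / 8) * st η bx y = Real.log (√v / 8) := by
    rw [integral_const_mul, hd.int, mul_one]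
  rw [← h0]
  refine integral_mono (hd.integrable.const_mul _) hd.integrable_neg fun y => ?_
  show Real.log (√v / 8) * st η bx y ≤ Real.negMulLog (st η bx y)
  rcases (hd.nn y).eq_or_lt with h1 | h1
  · rw [← h1]; simp
  · have a1 : Real.log (st η bx y) ≤ Real.log (8 / √v) := Real.log_le_log h1 (h.conc hv y)
    have a2 : Real.log (√v / 8) = -Real.log (8 / √v) := by rw [← Real.log_inv, inv_div]
    rw [a2, Real.negMulLog]
    nlinarith

/-- distance to `[c, c+1]` -/
noncomputable def concD (c y : ℝ) : ℝ := max 0 (max (c - y) (y - c - 1))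

theorem concD_cont (c : ℝ) : Continuous (concD c) := by
  unfold concD
  fun_prop

theorem integrable_bx_mul (x : ℝ) {g : ℝ → ℝ} (hg : Continuous g) :
    Integrable fun y => bx (y - x) * g y := by
  have : (fun y => bx (y - x) * g y) = Set.indicator (Set.Ico x (x + 1)) g := by
    funext y
    rw [bx_apply, Set.indicator_apply]
    have : (0 ≤ y - x ∧ y - x < 1) ↔ y ∈ Set.Ico x (x + 1) := by
      rw [Set.mem_Ico]
      constructor <;> rintro ⟨a, b⟩ <;> constructor <;> linarith
    simp only [this]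
    split_ifs <;> simp
  rw [this, integrable_indicator_iff measurableSet_Ico]
  exact (hg.integrableOn_Icc (a := x) (b := x + 1)).mono_set Set.Ico_subset_Icc_self

theorem integral_bx_concD (c x : ℝ) : ∫ y, bx (y - x) * concD c y ≤ (x - c) ^ 2 / 2 := by
  rcases le_total c x with hcx | hcx
  · have hi : IntegrableOn (fun y : ℝ => y - c - 1) (Set.Ioc (c + 1) (x + 1)) :=
      ((by fun_prop : Continuous fun y : ℝ => y - c - 1).integrableOn_Icc).mono_set
        Set.Ioc_subset_Icc_self
    have h1 : ∫ y, Set.indicator (Set.Ioc (c + 1) (x + 1)) (fun y : ℝ => y - c - 1) y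
        = (x - c) ^ 2 / 2 := by
      rw [integral_indicator measurableSet_Ioc, ← intervalIntegral.integral_of_le (by linarith),
        intervalIntegral.integral_sub (by simp) (by simp),
        intervalIntegral.integral_sub (by simp) (by simp)]
      simp only [integral_id, intervalIntegral.integral_const, smul_eq_mul]
      ring
    rw [← h1]
    refine integral_mono (integrable_bx_mul x (concD_cont c))
      ((integrable_indicator_iff measurableSet_Ioc).2 hi) fun y => ?_
    simp only [bx_apply, Set.indicator_apply, Set.mem_Ioc, concD]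
    split_ifs with a b b
    · rw [one_mul]
      exact max_le (by linarith [b.1]) (max_le (by linarith [a.1, b.1]) le_rfl)
    · rw [one_mul]
      have : y ≤ c + 1 := by
        by_contra hh
        exact b ⟨lt_of_not_ge hh, by linarith [a.2]⟩
      exact max_le le_rfl (max_le (by linarith [a.1]) (by linarith))
    · linarith [b.1]
    · simp
  · have hi : IntegrableOn (fun y : ℝ => c - y) (Set.Ico x c) :=
      ((by fun_prop : Continuous fun y : ℝ => c - y).integrableOn_Icc).mono_set
        Set.Ico_subset_Icc_self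
    have h1 : ∫ y, Set.indicator (Set.Ico x c) (fun y : ℝ => c - y) y = (x - c) ^ 2 / 2 := by
      rw [integral_indicator measurableSet_Ico, integral_Ico_eq_integral_Ioc,
        ← intervalIntegral.integral_of_le hcx, intervalIntegral.integral_sub (by simp) (by simp)]
      simp only [integral_id, intervalIntegral.integral_const, smul_eq_mul]
      ring
    rw [← h1]
    refine integral_mono (integrable_bx_mul x (concD_cont c))
      ((integrable_indicator_iff measurableSet_Ico).2 hi) fun y => ?_
    simp only [bx_apply, Set.indicator_apply, Set.mem_Ico, concD]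
    split_ifs with a b b
    · rw [one_mul]
      exact max_le (by linarith [b.2]) (max_le le_rfl (by linarith [a.2, b.2]))
    · rw [one_mul]
      have : c ≤ y := by
        by_contra hh
        exact b ⟨by linarith [a.1], lt_of_not_ge hh⟩
      exact max_le le_rfl (max_le (by linarith) (by linarith [a.2]))
    · linarith [b.2]
    · simp

/-- majorant of `exp (-d/τ)` -/
noncomputable def concG (c τ y : ℝ) : ℝ :=
  Set.indicator (Set.Iic c) (fun y => Real.exp (-(τ⁻¹ * c)) * Real.exp (τ⁻¹ * y)) y +
    Set.indicator (Set.Ioc c (c + 1)) 1 y +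
    Set.indicator (Set.Ioi (c + 1)) (fun y => Real.exp (τ⁻¹ * (c + 1)) * Real.exp (-τ⁻¹ * y)) y

theorem concG_int (c : ℝ) {τ : ℝ} (hτ : 0 < τ) :
    Integrable (concG c τ) ∧ ∫ y, concG c τ y = 1 + 2 * τ := by
  have ht : 0 < τ⁻¹ := inv_pos.2 hτ
  have i1 : Integrable (Set.indicator (Set.Iic c)
      fun y => Real.exp (-(τ⁻¹ * c)) * Real.exp (τ⁻¹ * y)) :=
    (integrable_indicator_iff measurableSet_Iic).2 ((integrableOn_exp_mul_Iic ht c).const_mul _)
  have i2 : Integrable (Set.indicator (Set.Ioc c (c + 1)) (1 : ℝ → ℝ)) :=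
    (integrable_indicator_iff measurableSet_Ioc).2 (integrableOn_const (by simp))
  have i3 : Integrable (Set.indicator (Set.Ioi (c + 1))
      fun y => Real.exp (τ⁻¹ * (c + 1)) * Real.exp (-τ⁻¹ * y)) :=
    (integrable_indicator_iff measurableSet_Ioi).2
      ((integrableOn_exp_mul_Ioi (neg_lt_zero.2 ht) (c + 1)).const_mul _)
  refine ⟨(i1.add i2).add i3, ?_⟩
  unfold concG
  rw [integral_add (i1.fun_add i2) i3, integral_add i1 i2, integral_indicator measurableSet_Iic,
    integral_indicator measurableSet_Ioi, integral_indicator_one measurableSet_Ioc,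
    integral_const_mul, integral_const_mul, integral_exp_mul_Iic ht,
    integral_exp_mul_Ioi (neg_lt_zero.2 ht)]
  have e1 : Real.exp (-(τ⁻¹ * c)) * (Real.exp (τ⁻¹ * c) / τ⁻¹) = τ := by
    rw [← mul_div_assoc, ← Real.exp_add]
    simp
  have e2 : Real.exp (τ⁻¹ * (c + 1)) * (-Real.exp (-τ⁻¹ * (c + 1)) / -τ⁻¹) = τ := by
    rw [neg_div_neg_eq, ← mul_div_assoc, ← Real.exp_add]
    simp
  rw [e1, e2]
  simp
  ring

theorem exp_le_concG (c : ℝ) {τ : ℝ} (y : ℝ) :
    Real.exp (-(concD c y / τ)) ≤ concG c τ y := by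
  simp only [concG, Set.indicator_apply, Set.mem_Iic, Set.mem_Ioc, Set.mem_Ioi, Pi.one_apply,
    ← Real.exp_add]
  rcases le_or_gt y c with a | a
  · have hd : concD c y = c - y := by
      unfold concD
      rw [max_eq_left (a := c - y) (by linarith), max_eq_right (by linarith)]
    rw [if_pos a, if_neg (fun h => by linarith [h.1]), if_neg (by linarith), hd, add_zero, add_zero]
    apply le_of_eq
    congr 1
    ring
  rcases le_or_gt y (c + 1) with b | b
  · have hd : concD c y = 0 := by
      unfold concD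
      exact max_eq_left (max_le (by linarith) (by linarith))
    rw [if_neg (by linarith), if_pos ⟨a, b⟩, if_neg (by linarith), hd]
    simp
  · have hd : concD c y = y - c - 1 := by
      unfold concD
      rw [max_eq_right (a := c - y) (by linarith), max_eq_right (by linarith)]
    rw [if_neg (by linarith), if_neg (fun h => by linarith [h.2]), if_pos b, hd, zero_add, zero_add]
    apply le_of_eq
    congr 1
    ring

/-- Gibbs inequality `φ(f) ≤ -f log g + g - f` with `g y = exp (-d y / τ) / (1 + 2τ)`,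
`d y = max 0 (max (c - y) (y - c - 1))` the distance to `[c, c+1]`, `c = mean ν`; `∫ g = 1`
(`≤ 1` suffices), `log (1 + 2τ) ≤ 2τ`, and `∫ bx (y - x) d y dy ≤ (x - c)²/2`. -/
theorem h1_le_var {ν : FM} (hν : IsP ν) {τ : ℝ} (hτ : 0 < τ) :
    h1 ν ≤ 2 * τ + Var ν / (2 * τ) := by
  set c := mean ν with hc
  have hd := den_bx.st hν
  have hM : 0 < 1 + 2 * τ := by positivity
  obtain ⟨iG, hG⟩ := concG_int c hτ
  have e1 : (fun y => st ν bx y * concD c y) =
      fun y => ∑ x ∈ sp ν, ν.coeff x * (bx (y - x) * concD c y) := by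
    funext y
    rw [st_eq_sum]
    simp only [Finset.sum_mul, mul_assoc]
  have iD : Integrable fun y => st ν bx y * concD c y := by
    rw [e1]
    exact integrable_finsetSum _ fun x _ => (integrable_bx_mul x (concD_cont c)).const_mul _
  have hD : ∫ y, st ν bx y * concD c y ≤ Var ν / 2 := by
    rw [e1, integral_finsetSum _ fun x _ => (integrable_bx_mul x (concD_cont c)).const_mul _,
      Var, ex_eq_sum', Finset.sum_div]
    refine Finset.sum_le_sum fun x _ => ?_
    rw [integral_const_mul, mul_div_assoc]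
    exact mul_le_mul_of_nonneg_left (integral_bx_concD c x) (hν.nn x)
  have key : h1 ν ≤ ∫ y, (τ⁻¹ * (st ν bx y * concD c y) + Real.log (1 + 2 * τ) * st ν bx y +
      (1 + 2 * τ)⁻¹ * concG c τ y - st ν bx y) := by
    refine integral_mono hd.integrable_neg
      ((((iD.const_mul _).add (hd.integrable.const_mul _)).add (iG.const_mul _)).sub
        hd.integrable) fun y => ?_
    show Real.negMulLog (st ν bx y) ≤ τ⁻¹ * (st ν bx y * concD c y) +
      Real.log (1 + 2 * τ) * st ν bx y + (1 + 2 * τ)⁻¹ * concG c τ y - st ν bx y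
    have hg := mul_le_mul_of_nonneg_left (exp_le_concG c (τ := τ) y) (inv_pos.2 hM).le
    set g := (1 + 2 * τ)⁻¹ * Real.exp (-(concD c y / τ)) with hgdef
    have hg0 : 0 < g := mul_pos (inv_pos.2 hM) (Real.exp_pos _)
    have hlog : Real.log g = -Real.log (1 + 2 * τ) - concD c y / τ := by
      rw [hgdef, Real.log_mul (inv_pos.2 hM).ne' (Real.exp_pos _).ne', Real.log_inv, Real.log_exp]
      ring
    rcases (hd.nn y).eq_or_lt with h1 | h1
    · rw [← h1]
      simp only [Real.negMulLog_zero, zero_mul, mul_zero, add_zero, zero_add, sub_zero]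
      linarith
    · set f := st ν bx y
      have a1 := Real.log_le_sub_one_of_pos (div_pos hg0 h1)
      rw [Real.log_div hg0.ne' h1.ne'] at a1
      have a2 := mul_le_mul_of_nonneg_left a1 h1.le
      have a3 : f * (g / f - 1) = g - f := by field_simp
      rw [a3, hlog] at a2
      have a4 : τ⁻¹ * (f * concD c y) = f * (concD c y / τ) := by ring
      rw [Real.negMulLog, a4]
      nlinarith
  rw [integral_sub (((iD.const_mul _).fun_add (hd.integrable.const_mul _)).fun_add (iG.const_mul _))
      hd.integrable,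
    integral_add ((iD.const_mul _).fun_add (hd.integrable.const_mul _)) (iG.const_mul _),
    integral_add (iD.const_mul _) (hd.integrable.const_mul _), integral_const_mul,
    integral_const_mul, integral_const_mul, hG, hd.int, inv_mul_cancel₀ hM.ne'] at key
  have b1 := Real.log_le_sub_one_of_pos hM
  have b2 := mul_le_mul_of_nonneg_left hD (inv_pos.2 hτ).le
  have b3 : τ⁻¹ * (Var ν / 2) = Var ν / (2 * τ) := by field_simp
  linarith

/-- `Dn_h1`, `Pv.h1_ge`, `h1_le_var` with `τ = 1`, `Var_sc`, `log 8 ≤ 3` -/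
theorem Pv.big {v : ℝ} {η : FM} (h : Pv v η) {N : ℕ} (hN : 1 ≤ N) (h1 : (N : ℝ) ^ 2 ≤ v)
    (h2 : v ≤ 2 * (N : ℝ) ^ 2) : Real.log N - 6 ≤ Dn N (st η bx) := by
  have hN0 : (0 : ℝ) < N := by exact_mod_cast hN
  have hv : 0 < v := lt_of_lt_of_le (by positivity) h1
  rw [Dn_h1 hN h.isP]
  have a1 := h.h1_ge hv
  have a2 := h1_le_var (h.isP.sc (N : ℝ)⁻¹) one_pos
  rw [Var_sc, h.var] at a2
  have a3 : (N : ℝ)⁻¹ ^ 2 * v ≤ 2 := by
    rw [inv_pow, inv_mul_le_iff₀ (by positivity)]
    linarith
  have a4 : (N : ℝ) ≤ √v := Real.le_sqrt_of_sq_le h1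
  have a5 : Real.log (N / 8) ≤ Real.log (√v / 8) :=
    Real.log_le_log (by positivity) (by linarith)
  rw [Real.log_div hN0.ne' (by norm_num)] at a5
  have a6 : Real.log 8 ≤ 3 := by
    rw [show (8 : ℝ) = 2 ^ 3 by norm_num, Real.log_pow]
    have := Real.log_two_lt_d9
    push_cast
    linarith
  linarith

end Crest.Agent.R98
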