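import Mathlib

/-!
# Row 98 (dimension of self-similar measures): definitions and basic algebra

Finitely supported (probability) measures on an additive monoid `G` are elements of
`MA G = AddMonoidAlgebra ℝ G` (product = convolution).  `FM = MA ℝ`.  `Aff` is the monoid of affine
maps of the line, written additively.  All scale-entropies are taken at scale `1`:
`h1 ν = ∫ φ(ν (y-1,y]) dy`, `φ = negMulLog`.
-/

set_option autoImplicit false

open MeasureTheory

namespace Crest.Agent.R98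

abbrev MA (G : Type) := AddMonoidAlgebra ℝ G
abbrev FM := MA ℝ

section defs
variable {G E : Type} [AddCommMonoid E] [Module ℝ E]

/-- expectation -/
noncomputable def ex (ν : MA G) (F : G → E) : E := ν.coeff.sum fun x c => c • F x

/-- support -/
abbrev sp (ν : MA G) : Finset G := ν.coeff.support

/-- probability vector -/
structure IsP (ν : MA G) : Prop where
  nn : ∀ x, 0 ≤ ν.coeff x
  one : ex ν (fun _ => (1 : ℝ)) = 1

/-- Shannon entropy -/
noncomputable def Ent (ν : MA G) : ℝ := ν.coeff.sum fun _ c => Real.negMulLog c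

/-- Dirac mass -/
noncomputable def dl (x : G) : MA G := AddMonoidAlgebra.single x 1

end defs

/-- push-forward under `x ↦ a x` -/
noncomputable def sc (a : ℝ) : FM →+* FM :=
  AddMonoidAlgebra.mapDomainRingHom ℝ (AddMonoidHom.mulLeft a)

/-- convolution of a function with a finite measure -/
noncomputable def st (ν : FM) (f : ℝ → ℝ) : ℝ → ℝ := fun y => ex ν fun x => f (y - x)

/-- indicator of `[0,1)` -/
noncomputable def bx : ℝ → ℝ := Set.indicator (Set.Ico 0 1) 1

/-- probability density bounded by `1` with bounded support -/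
structure Den (f : ℝ → ℝ) : Prop where
  meas : Measurable f
  nn : ∀ y, 0 ≤ f y
  le1 : ∀ y, f y ≤ 1
  bdd : ∃ R : ℝ, ∀ y, R < |y| → f y = 0
  int : ∫ y, f y = 1

/-- differential entropy -/
noncomputable def En (f : ℝ → ℝ) : ℝ := ∫ y, Real.negMulLog (f y)

/-- entropy of `ν` at scale `1` -/
noncomputable def h1 (ν : FM) : ℝ := En (st ν bx)

/-- uniform law on `{0, …, N-1}` -/
noncomputable def uN (N : ℕ) : FM := ∑ i ∈ Finset.range N, (N : ℝ)⁻¹ • dl (i : ℝ)

/-- entropy at scale `1` conditioned on scale `N` -/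
noncomputable def Dn (N : ℕ) (f : ℝ → ℝ) : ℝ := Real.log N + En f - En (st (uN N) f)

/-- probability measure with bounded support -/
structure BP (m : Measure ℝ) : Prop where
  prob : IsProbabilityMeasure m
  bdd : ∃ R : ℝ, m {x | R < |x|} = 0

/-- convolution of a function with a general measure -/
noncomputable def sm (m : Measure ℝ) (f : ℝ → ℝ) : ℝ → ℝ := fun y => ∫ x, f (y - x) ∂m

/-- mass of unit intervals for the law of `Λ X`, `X ∼ μ` -/
noncomputable def fm (μ : Measure ℝ) (Λ : ℝ) : ℝ → ℝ :=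
  fun y => μ.real {x | Λ * x ∈ Set.Ioc (y - 1) y}

/-- entropy of `μ` at scale `1 / |Λ|` -/
noncomputable def hm (μ : Measure ℝ) (Λ : ℝ) : ℝ := En (fm μ Λ)

noncomputable def mean (ν : FM) : ℝ := ex ν fun x => x

noncomputable def Var (ν : FM) : ℝ := ex ν fun x => (x - mean ν) ^ 2

/-- characteristic function -/
noncomputable def cf (ν : FM) (t : ℝ) : ℂ := ex ν fun x => Complex.exp (((t * x : ℝ) : ℂ) * Complex.I)

/-- what we remember of a convolution of pieces of diameter `≤ 1` with total variance `v` -/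
structure Pv (v : ℝ) (η : FM) : Prop where
  isP : IsP η
  var : Var η = v
  cf_le : ∀ t : ℝ, |t| ≤ 1 → ‖cf η t‖ ≤ Real.exp (-(t ^ 2 * v / 5))

/-- probability vector whose support has diameter `≤ 1` -/
structure Piece (ζ : FM) : Prop where
  isP : IsP ζ
  diam : ∀ x ∈ sp ζ, ∀ y ∈ sp ζ, |x - y| ≤ 1

/-- `ν` is a mixture of pieces with mean variance `≥ W` -/
def Cov (ν : FM) (W : ℝ) : Prop :=
  ∃ (κ : Type) (s : Finset κ) (c : κ → ℝ) (ζ : κ → FM), (∀ j ∈ s, 0 ≤ c j) ∧ ∑ j ∈ s, c j = 1 ∧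
    (∀ j ∈ s, Piece (ζ j)) ∧ ν = ∑ j ∈ s, c j • ζ j ∧ W ≤ ∑ j ∈ s, c j * Var (ζ j)

/-- affine maps `x ↦ a x + b`; `+` is composition -/
@[ext] structure Aff where
  a : ℝ
  b : ℝ

instance : Add Aff := ⟨fun g h => ⟨g.a * h.a, g.a * h.b + g.b⟩⟩
instance : Zero Aff := ⟨⟨1, 0⟩⟩

instance : AddMonoid Aff where
  add_assoc g h k := Aff.ext (mul_assoc _ _ _) (by
    show g.a * h.a * k.b + (g.a * h.b + g.b) = g.a * (h.a * k.b + h.b) + g.b
    ring)
  zero_add g := Aff.ext (one_mul _) (by show 1 * g.b + 0 = g.b; ring)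
  add_zero g := Aff.ext (mul_one _) (by show g.a * 0 + g.b = g.b; ring)
  nsmul := nsmulRec

@[simp] theorem Aff.add_a (g h : Aff) : (g + h).a = g.a * h.a := rfl
@[simp] theorem Aff.add_b (g h : Aff) : (g + h).b = g.a * h.b + g.b := rfl
@[simp] theorem Aff.zero_a : (0 : Aff).a = 1 := rfl
@[simp] theorem Aff.zero_b : (0 : Aff).b = 0 := rfl

/-- `μ` is stationary for the random map `Q` -/
def St (μ : Measure ℝ) (Q : MA Aff) : Prop :=
  ∀ A : Set ℝ, MeasurableSet A → μ.real A = ex Q fun g => μ.real {x | g.a * x + g.b ∈ A}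

/-- Lyapunov exponent -/
noncomputable def lyap (Q : MA Aff) : ℝ := ex Q fun g => -Real.log |g.a|

/-- decompositions of `μ` into copies of any prescribed size -/
def DecH (μ : Measure ℝ) (l : ℝ) : Prop :=
  ∀ ρ : ℝ, 0 < ρ → l * ρ < 1 →
    ∃ Q : MA Aff, IsP Q ∧ St μ Q ∧ ∀ g ∈ sp Q, l * ρ < |g.a| ∧ |g.a| ≤ ρ

/-- random map with ratio `a` and translation law `τ` -/
noncomputable def emb (a : ℝ) (τ : FM) : MA Aff :=
  AddMonoidAlgebra.mapDomain (fun x => (⟨a, x⟩ : Aff)) τ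

section words
variable {Ω : Type*}

/-- product of `q` along a word (used for weights and for ratios) -/
noncomputable def pW (q : Ω → ℝ) {n : ℕ} (w : Fin n → Ω) : ℝ := ∏ j, q (w j)

/-- law of the translation part given the word of types -/
noncomputable def tauW (lam : Ω → ℝ) (τ : Ω → FM) : (n : ℕ) → (Fin n → Ω) → FM
  | 0, _ => 1
  | n + 1, w => τ (w 0) * sc (lam (w 0)) (tauW lam τ n (Fin.tail w))

end words

/-- `μ` is stationary for the system with types `Ω`, weights `q`, ratios `lam` and translation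
laws `τ` (at most `m` atoms each); `l` bounds the ratios from below. -/
structure RI (μ : Measure ℝ) {Ω : Type} [Fintype Ω] (q lam : Ω → ℝ) (τ : Ω → FM) (l : ℝ)
    (m : ℕ) : Prop where
  bp : BP μ
  q_nn : ∀ ω, 0 ≤ q ω
  q_sum : ∑ ω, q ω = 1
  l_pos : 0 < l
  l_le : ∀ ω, l ≤ |lam ω|
  lt_one : ∀ ω, |lam ω| < 1
  isP : ∀ ω, IsP (τ ω)
  card : ∀ ω, (sp (τ ω)).card ≤ m
  stat : St μ (∑ ω, q ω • emb (lam ω) (τ ω))
  dec : DecH μ l

/-- potential bound used when collecting variance: after convolving `f` with any `η` of collected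
variance `v ≤ v₀ + 1` the conditional entropy is `≥ A - b e^{-v}`, and `≥ A` once `v ≥ v₀`. -/
def Gd (N : ℕ) (v₀ A b : ℝ) (f : ℝ → ℝ) : Prop :=
  ∀ (v : ℝ) (η : FM), Pv v η → v ≤ v₀ + 1 →
    A - b * Real.exp (-v) ≤ Dn N (st η f) ∧ (v₀ ≤ v → A ≤ Dn N (st η f))

/-- a supply of total variance `≥ U` from blocks of `n` digits read at the scales `X 0 < X 1 < …`;
the lowest block ends above scale `S` except with probability `≤ κ`. -/
def Supply {Ω : Type} [Fintype Ω] (q lam : Ω → ℝ) (τ : Ω → FM) (S U κ : ℝ) : Prop :=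
  ∃ (n J : ℕ) (X : ℕ → ℝ) (W : ℕ → (Fin n → Ω) → ℝ) (Bad : Finset (Fin n → Ω)),
    (∀ j, 0 < X j) ∧ (∀ j (w : Fin n → Ω), X j ≤ X (j + 1) * |pW lam w|) ∧
    (∀ j w, 0 ≤ W j w) ∧ (∀ j w, Cov (sc (X j) (tauW lam τ n w)) (W j w)) ∧
    (U ≤ ∑ j ∈ Finset.range J, ∑ w, pW q w * W j w) ∧
    (∀ w, w ∉ Bad → S ≤ X 0 * |pW lam w|) ∧ ∑ w ∈ Bad, pW q w ≤ κ

/-- `L^{1+θ}` sum at scale `1 / |Λ|` -/
noncomputable def Mq (μ : Measure ℝ) (θ Λ : ℝ) : ℝ := ∫ y, fm μ Λ y ^ (1 + θ)

/-! ### expectation -/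

section ex
variable {G G' E : Type} [AddCommMonoid E] [Module ℝ E]

theorem ex_eq_sum (ν : MA G) (F : G → E) : ex ν F = ∑ x ∈ sp ν, ν.coeff x • F x := rfl

theorem ex_eq_sum' (ν : MA G) (F : G → ℝ) : ex ν F = ∑ x ∈ sp ν, ν.coeff x * F x := rfl

theorem ex_eq_sum_of (ν : MA G) (F : G → E) {s : Finset G} (h : sp ν ⊆ s) :
    ex ν F = ∑ x ∈ s, ν.coeff x • F x :=
  Finsupp.sum_of_support_subset _ h _ fun _ _ => zero_smul _ _

theorem Ent_eq_sum (ν : MA G) : Ent ν = ∑ x ∈ sp ν, Real.negMulLog (ν.coeff x) := rfl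

theorem Ent_eq_sum_of (ν : MA G) {s : Finset G} (h : sp ν ⊆ s) :
    Ent ν = ∑ x ∈ s, Real.negMulLog (ν.coeff x) :=
  Finsupp.sum_of_support_subset _ h _ fun _ _ => Real.negMulLog_zero

@[simp] theorem ex_single (x : G) (c : ℝ) (F : G → E) :
    ex (AddMonoidAlgebra.single x c) F = c • F x :=
  Finsupp.sum_single_index (zero_smul _ _)

@[simp] theorem ex_dl (x : G) (F : G → E) : ex (dl x) F = F x := by simp [dl]

@[simp] theorem ex_zero (F : G → E) : ex (0 : MA G) F = 0 := Finsupp.sum_zero_index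

theorem ex_add (ν ζ : MA G) (F : G → E) : ex (ν + ζ) F = ex ν F + ex ζ F :=
  Finsupp.sum_add_index' (fun _ => zero_smul _ _) fun _ _ _ => add_smul _ _ _

theorem ex_smul (c : ℝ) (ν : MA G) (F : G → E) : ex (c • ν) F = c • ex ν F := by
  have h : sp (c • ν) ⊆ sp ν := Finsupp.support_smul
  rw [ex_eq_sum_of _ _ h, ex_eq_sum, Finset.smul_sum]
  refine Finset.sum_congr rfl fun x _ => ?_
  rw [AddMonoidAlgebra.coeff_smul_apply, smul_eq_mul, mul_smul]

theorem ex_sum {κ : Type*} (s : Finset κ) (ν : κ → MA G) (F : G → E) :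
    ex (∑ j ∈ s, ν j) F = ∑ j ∈ s, ex (ν j) F := by
  classical
  induction s using Finset.induction_on with
  | empty => simp
  | insert a s ha ih => rw [Finset.sum_insert ha, Finset.sum_insert ha, ex_add, ih]

theorem ex_mix {κ : Type*} (s : Finset κ) (c : κ → ℝ) (ν : κ → MA G) (F : G → E) :
    ex (∑ j ∈ s, c j • ν j) F = ∑ j ∈ s, c j • ex (ν j) F := by
  simp only [ex_sum, ex_smul]

theorem ex_congr {ν : MA G} {F F' : G → E} (h : ∀ x ∈ sp ν, F x = F' x) : ex ν F = ex ν F' :=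
  Finset.sum_congr rfl fun x hx => congrArg (fun z => ν.coeff x • z) (h x hx)

theorem ex_fzero (ν : MA G) : ex ν (fun _ => (0 : E)) = 0 := by simp [ex_eq_sum]

theorem ex_fadd (ν : MA G) (F F' : G → E) :
    ex ν (fun x => F x + F' x) = ex ν F + ex ν F' := by
  simp only [ex_eq_sum, smul_add, Finset.sum_add_distrib]

theorem ex_fsmul (ν : MA G) (c : ℝ) (F : G → E) : ex ν (fun x => c • F x) = c • ex ν F := by
  simp only [ex_eq_sum, Finset.smul_sum]
  exact Finset.sum_congr rfl fun x _ => smul_comm _ _ _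

theorem ex_fmul (ν : MA G) (c : ℝ) (F : G → ℝ) : ex ν (fun x => c * F x) = c * ex ν F :=
  ex_fsmul ν c F

theorem ex_fmul' (ν : MA G) (c : ℝ) (F : G → ℝ) : ex ν (fun x => F x * c) = ex ν F * c := by
  simp only [mul_comm _ c, ex_fmul]

theorem ex_fsub (ν : MA G) (F F' : G → ℝ) :
    ex ν (fun x => F x - F' x) = ex ν F - ex ν F' := by
  simp only [ex_eq_sum', mul_sub, Finset.sum_sub_distrib]

theorem ex_fneg (ν : MA G) (F : G → ℝ) : ex ν (fun x => -F x) = -ex ν F := by
  simp only [ex_eq_sum', mul_neg, Finset.sum_neg_distrib]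

theorem ex_fsum {κ : Type*} (ν : MA G) (s : Finset κ) (F : κ → G → E) :
    ex ν (fun x => ∑ j ∈ s, F j x) = ∑ j ∈ s, ex ν (F j) := by
  simp only [ex_eq_sum, Finset.smul_sum]
  exact Finset.sum_comm

theorem ex_comm (ν : MA G) (ζ : MA G') (F : G → G' → E) :
    (ex ν fun x => ex ζ fun y => F x y) = ex ζ fun y => ex ν fun x => F x y := by
  simp only [ex_eq_sum, Finset.smul_sum]
  rw [Finset.sum_comm]
  exact Finset.sum_congr rfl fun _ _ => Finset.sum_congr rfl fun _ _ => smul_comm _ _ _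

theorem ex_mapDomain (φ : G → G') (ν : MA G) (F : G' → E) :
    ex (AddMonoidAlgebra.mapDomain φ ν) F = ex ν fun x => F (φ x) :=
  Finsupp.sum_mapDomain_index (fun _ => zero_smul _ _) fun _ _ _ => add_smul _ _ _

theorem ex_sc (a : ℝ) (ν : FM) (F : ℝ → E) : ex (sc a ν) F = ex ν fun x => F (a * x) :=
  ex_mapDomain _ ν F

theorem ex_emb (a : ℝ) (ν : FM) (F : Aff → E) : ex (emb a ν) F = ex ν fun x => F ⟨a, x⟩ :=
  ex_mapDomain _ ν F

@[simp] theorem ex_one [AddMonoid G] (F : G → E) : ex (1 : MA G) F = F 0 := ex_dl 0 F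

theorem ex_mul [AddMonoid G] (ν ζ : MA G) (F : G → E) :
    ex (ν * ζ) F = ex ν fun x => ex ζ fun y => F (x + y) := by
  induction ν using AddMonoidAlgebra.induction_linear with
  | zero => simp
  | add a b ha hb => rw [add_mul, ex_add, ex_add, ha, hb]
  | single x c =>
    induction ζ using AddMonoidAlgebra.induction_linear with
    | zero => simp
    | add a b ha hb =>
      rw [mul_add, ex_add, ha, hb]
      simp only [ex_single, ex_add, smul_add]
    | single y d => simp [AddMonoidAlgebra.single_mul_single, mul_smul]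

/-- two finite measures with the same expectations are equal -/
theorem ext_ex {ν ζ : MA G} (h : ∀ F : G → ℝ, ex ν F = ex ζ F) : ν = ζ := by
  classical
  have key : ∀ (ν : MA G) (x : G), ex ν (fun y => if y = x then (1 : ℝ) else 0) = ν.coeff x := by
    intro ν x
    rw [ex_eq_sum']
    simp only [mul_ite, mul_one, mul_zero, Finset.sum_ite_eq']
    split_ifs with hx
    · rfl
    · exact (Finsupp.notMem_support_iff.1 hx).symm
  ext x
  rw [← key, ← key, h]

theorem coeff_eq_ex [DecidableEq G] (ν : MA G) (x : G) :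
    ν.coeff x = ex ν fun y => if y = x then (1 : ℝ) else 0 := by
  rw [ex_eq_sum']
  simp only [mul_ite, mul_one, mul_zero, Finset.sum_ite_eq']
  split_ifs with hx
  · rfl
  · exact Finsupp.notMem_support_iff.1 hx

theorem eq_mix (ν : MA G) : ν = ∑ x ∈ sp ν, ν.coeff x • dl x :=
  ext_ex fun F => by simp only [ex_mix, ex_dl]; rfl

theorem IsP.sum {ν : MA G} (h : IsP ν) : ∑ x ∈ sp ν, ν.coeff x = 1 := by
  have := h.one
  simpa [ex_eq_sum'] using this

theorem IsP.pos {ν : MA G} (h : IsP ν) {x : G} (hx : x ∈ sp ν) : 0 < ν.coeff x :=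
  (h.nn x).lt_of_ne (Finsupp.mem_support_iff.1 hx).symm

theorem IsP.le1 {ν : MA G} (h : IsP ν) (x : G) : ν.coeff x ≤ 1 := by
  by_cases hx : x ∈ sp ν
  · rw [← h.sum]
    exact Finset.single_le_sum (fun y _ => h.nn y) hx
  · rw [Finsupp.notMem_support_iff.1 hx]; exact zero_le_one

theorem IsP.ex_mono {ν : MA G} (h : IsP ν) {F F' : G → ℝ} (hF : ∀ x ∈ sp ν, F x ≤ F' x) :
    ex ν F ≤ ex ν F' :=
  Finset.sum_le_sum fun x hx => mul_le_mul_of_nonneg_left (hF x hx) (h.nn x)

theorem IsP.ex_const {ν : MA G} (h : IsP ν) (c : E) : ex ν (fun _ => c) = c := by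
  rw [ex_eq_sum, ← Finset.sum_smul, h.sum, one_smul]

theorem IsP.ex_nonneg {ν : MA G} (h : IsP ν) {F : G → ℝ} (hF : ∀ x ∈ sp ν, 0 ≤ F x) :
    0 ≤ ex ν F := by
  have := h.ex_mono (F := fun _ => 0) hF
  rwa [h.ex_const] at this

theorem IsP.le_ex {ν : MA G} (h : IsP ν) {F : G → ℝ} {c : ℝ} (hF : ∀ x ∈ sp ν, c ≤ F x) :
    c ≤ ex ν F := by
  have := h.ex_mono (F := fun _ => c) hF
  rwa [h.ex_const] at this

theorem IsP.ex_le {ν : MA G} (h : IsP ν) {F : G → ℝ} {c : ℝ} (hF : ∀ x ∈ sp ν, F x ≤ c) :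
    ex ν F ≤ c := by
  have := h.ex_mono (F' := fun _ => c) hF
  rwa [h.ex_const] at this

theorem isP_of_ex {ν : MA G} (h0 : ∀ F : G → ℝ, (∀ x, 0 ≤ F x) → 0 ≤ ex ν F)
    (h1 : ex ν (fun _ => (1 : ℝ)) = 1) : IsP ν := by
  classical
  refine ⟨fun x => ?_, h1⟩
  rw [coeff_eq_ex]
  exact h0 _ fun y => by split_ifs <;> norm_num

theorem isP_dl (x : G) : IsP (dl x) :=
  isP_of_ex (fun F h => by simpa using h x) (by simp)

theorem isP_one [AddMonoid G] : IsP (1 : MA G) := isP_dl 0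

theorem IsP.mul [AddMonoid G] {ν ζ : MA G} (h : IsP ν) (h' : IsP ζ) : IsP (ν * ζ) :=
  isP_of_ex (fun F hF => by
      rw [ex_mul]
      exact h.ex_nonneg fun x _ => h'.ex_nonneg fun y _ => hF _)
    (by rw [ex_mul]; simp only [h'.one, h.one])

theorem IsP.pow [AddMonoid G] {ν : MA G} (h : IsP ν) (n : ℕ) : IsP (ν ^ n) := by
  induction n with
  | zero => rw [pow_zero]; exact isP_one
  | succ n ih => rw [pow_succ]; exact ih.mul h

theorem isP_mix {κ : Type*} {s : Finset κ} {c : κ → ℝ} {ν : κ → MA G} (hc : ∀ j ∈ s, 0 ≤ c j)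
    (h1 : ∑ j ∈ s, c j = 1) (h : ∀ j ∈ s, IsP (ν j)) : IsP (∑ j ∈ s, c j • ν j) :=
  isP_of_ex (fun F hF => by
      rw [ex_mix]
      exact Finset.sum_nonneg fun j hj =>
        smul_nonneg (hc j hj) ((h j hj).ex_nonneg fun x _ => hF x))
    (by
      rw [ex_mix]
      exact (Finset.sum_congr rfl fun j hj => by rw [(h j hj).one, smul_eq_mul, mul_one]).trans h1)

theorem IsP.mapDomain {ν : MA G} (h : IsP ν) (φ : G → G') :
    IsP (AddMonoidAlgebra.mapDomain φ ν) :=
  isP_of_ex (fun F hF => by rw [ex_mapDomain]; exact h.ex_nonneg fun x _ => hF _)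
    (by rw [ex_mapDomain, h.one])

theorem IsP.sc {ν : FM} (h : IsP ν) (a : ℝ) : IsP (sc a ν) := h.mapDomain _

theorem IsP.emb {ν : FM} (h : IsP ν) (a : ℝ) : IsP (emb a ν) := h.mapDomain _

theorem isP_uN {N : ℕ} (hN : 1 ≤ N) : IsP (uN N) := by
  have : (N : ℝ) ≠ 0 := by positivity
  exact isP_mix (fun _ _ => by positivity) (by simp [this]) fun _ _ => isP_dl _

theorem mem_sp_mul [AddMonoid G] {ν ζ : MA G} {z : G} (h : z ∈ sp (ν * ζ)) :
    ∃ x ∈ sp ν, ∃ y ∈ sp ζ, x + y = z := by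
  classical
  exact Finset.mem_add.1 (AddMonoidAlgebra.support_coeff_mul_subset ν ζ h)

theorem mem_sp_mix {κ : Type*} {s : Finset κ} {c : κ → ℝ} {ν : κ → MA G} {z : G}
    (h : z ∈ sp (∑ j ∈ s, c j • ν j)) : ∃ j ∈ s, c j ≠ 0 ∧ z ∈ sp (ν j) := by
  by_contra hn
  push Not at hn
  apply Finsupp.mem_support_iff.1 h
  rw [AddMonoidAlgebra.coeff_sum, Finsupp.finsetSum_apply]
  refine Finset.sum_eq_zero fun j hj => ?_
  rw [AddMonoidAlgebra.coeff_smul_apply, smul_eq_mul]
  by_cases hc : c j = 0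
  · rw [hc, zero_mul]
  · rw [Finsupp.notMem_support_iff.1 (hn j hj hc), mul_zero]

theorem mem_sp_mapDomain {φ : G → G'} {ν : MA G} {z : G'}
    (h : z ∈ sp (AddMonoidAlgebra.mapDomain φ ν)) : ∃ x ∈ sp ν, φ x = z := by
  classical
  exact Finset.mem_image.1 (Finsupp.mapDomain_support h)

theorem mem_sp_sc {a : ℝ} {ν : FM} {z : ℝ} (h : z ∈ sp (sc a ν)) : ∃ x ∈ sp ν, a * x = z :=
  mem_sp_mapDomain h

theorem mem_sp_dl {x z : G} (h : z ∈ sp (dl x)) : z = x :=
  Finset.mem_singleton.1 (Finsupp.support_single_subset h)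

end ex

theorem sc_sc (a b : ℝ) (ν : FM) : sc a (sc b ν) = sc (a * b) ν :=
  ext_ex fun F => by simp only [ex_sc, mul_assoc]

theorem sc_one' (ν : FM) : sc 1 ν = ν := ext_ex fun F => by simp only [ex_sc, one_mul]

theorem sc_smul (a c : ℝ) (ν : FM) : sc a (c • ν) = c • sc a ν :=
  ext_ex fun F => by simp only [ex_sc, ex_smul]

theorem sc_mix {κ : Type*} (a : ℝ) (s : Finset κ) (c : κ → ℝ) (ν : κ → FM) :
    sc a (∑ j ∈ s, c j • ν j) = ∑ j ∈ s, c j • sc a (ν j) := by
  simp only [map_sum, sc_smul]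

theorem emb_mul (a a' : ℝ) (τ τ' : FM) : emb a τ * emb a' τ' = emb (a * a') (τ * sc a τ') :=
  ext_ex fun F => by
    simp only [ex_mul, ex_emb, ex_sc]
    refine ex_congr fun x _ => ex_congr fun y _ => ?_
    congr 1
    exact Aff.ext rfl (add_comm _ _)

theorem emb_one : emb 1 1 = 1 := ext_ex fun F => by simp only [ex_emb, ex_one]; rfl

/-! ### convolution of functions -/

theorem st_mul (ν ζ : FM) (f : ℝ → ℝ) : st (ν * ζ) f = st ν (st ζ f) := by
  funext y
  simp only [st, ex_mul, sub_sub]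

theorem st_comm (ν ζ : FM) (f : ℝ → ℝ) : st ν (st ζ f) = st ζ (st ν f) := by
  rw [← st_mul, mul_comm, st_mul]

@[simp] theorem st_one (f : ℝ → ℝ) : st 1 f = f := by
  funext y
  simp [st]

theorem st_dl (a : ℝ) (f : ℝ → ℝ) : st (dl a) f = fun y => f (y - a) := by
  funext y
  simp [st]

theorem st_mix {κ : Type*} (s : Finset κ) (c : κ → ℝ) (ν : κ → FM) (f : ℝ → ℝ) :
    st (∑ j ∈ s, c j • ν j) f = fun y => ∑ j ∈ s, c j * st (ν j) f y := by
  funext y
  simp only [st, ex_mix, smul_eq_mul]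

theorem st_fmix {κ : Type*} (ν : FM) (s : Finset κ) (c : κ → ℝ) (g : κ → ℝ → ℝ) :
    st ν (fun y => ∑ j ∈ s, c j * g j y) = fun y => ∑ j ∈ s, c j * st ν (g j) y := by
  funext y
  simp only [st, ex_fsum, ex_fmul]

theorem st_eq_sum (ν : FM) (f : ℝ → ℝ) :
    st ν f = fun y => ∑ x ∈ sp ν, ν.coeff x * f (y - x) := rfl

theorem st_shift (ν : FM) (f : ℝ → ℝ) (a : ℝ) :
    st ν (fun y => f (y - a)) = fun y => st ν f (y - a) := by
  funext y
  simp only [st, sub_right_comm]

theorem bx_apply (y : ℝ) : bx y = if 0 ≤ y ∧ y < 1 then 1 else 0 := by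
  simp [bx, Set.indicator_apply]

/-- a bounded measurable function with bounded support is integrable -/
theorem integrable_of_bdd {f : ℝ → ℝ} (hm : Measurable f) {C R : ℝ} (hb : ∀ y, |f y| ≤ C)
    (hR : ∀ y, R < |y| → f y = 0) : Integrable f := by
  have h1 : IntegrableOn f (Set.Icc (-R) R) :=
    Measure.integrableOn_of_bounded (M := C) measure_Icc_lt_top.ne hm.aestronglyMeasurable
      (Filter.Eventually.of_forall hb)
  refine (integrableOn_iff_integrable_of_support_subset fun y hy => ?_).1 h1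
  by_contra h
  exact hy (hR y (lt_of_not_ge fun h' => h (abs_le.1 h')))

theorem Den.integrable {f : ℝ → ℝ} (h : Den f) : Integrable f := by
  obtain ⟨R, hR⟩ := h.bdd
  exact integrable_of_bdd h.meas (C := 1) (fun y => by rw [abs_of_nonneg (h.nn y)]; exact h.le1 y) hR

theorem negMulLog_le_one {x : ℝ} (h0 : 0 ≤ x) : Real.negMulLog x ≤ 1 := by
  have := Real.negMulLog_le_one_sub_self h0
  linarith

theorem Den.integrable_neg {f : ℝ → ℝ} (h : Den f) :
    Integrable fun y => Real.negMulLog (f y) := by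
  obtain ⟨R, hR⟩ := h.bdd
  refine integrable_of_bdd (Real.continuous_negMulLog.measurable.comp h.meas) (C := 1) (R := R)
    (fun y => ?_) fun y hy => by simp [hR y hy]
  rw [abs_of_nonneg (Real.negMulLog_nonneg (h.nn y) (h.le1 y))]
  exact negMulLog_le_one (h.nn y)

theorem den_bx : Den bx where
  meas := measurable_one.indicator measurableSet_Ico
  nn y := by rw [bx_apply]; split_ifs <;> norm_num
  le1 y := by rw [bx_apply]; split_ifs <;> norm_num
  bdd := ⟨1, fun y hy => by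
    rw [bx_apply, if_neg]
    rintro ⟨h1, h2⟩
    rw [abs_of_nonneg h1] at hy
    linarith⟩
  int := by
    unfold bx
    rw [integral_indicator_one measurableSet_Ico]
    simp

theorem Den.shift {f : ℝ → ℝ} (h : Den f) (a : ℝ) : Den fun y => f (y - a) where
  meas := h.meas.comp (measurable_id.sub_const a)
  nn _ := h.nn _
  le1 _ := h.le1 _
  bdd := by
    obtain ⟨R, hR⟩ := h.bdd
    refine ⟨R + |a|, fun y hy => hR _ ?_⟩
    have := abs_sub_abs_le_abs_sub y a
    linarith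
  int := by rw [integral_sub_right_eq_self f a, h.int]

theorem den_mix {κ : Type*} {s : Finset κ} {c : κ → ℝ} {g : κ → ℝ → ℝ} (hc : ∀ j ∈ s, 0 ≤ c j)
    (h1 : ∑ j ∈ s, c j = 1) (h : ∀ j ∈ s, Den (g j)) : Den fun y => ∑ j ∈ s, c j * g j y where
  meas := Finset.measurable_fun_sum s fun j hj => (h j hj).meas.const_mul _
  nn y := Finset.sum_nonneg fun j hj => mul_nonneg (hc j hj) ((h j hj).nn y)
  le1 y := by
    rw [← h1]
    exact Finset.sum_le_sum fun j hj => mul_le_of_le_one_right (hc j hj) ((h j hj).le1 y)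
  bdd := by
    have : ∀ j, ∃ R : ℝ, j ∈ s → ∀ y, R < |y| → g j y = 0 := fun j => by
      by_cases hj : j ∈ s
      · obtain ⟨R, hR⟩ := (h j hj).bdd
        exact ⟨R, fun _ => hR⟩
      · exact ⟨0, fun h => absurd h hj⟩
    choose R hR using this
    refine ⟨∑ j ∈ s, |R j|, fun y hy => Finset.sum_eq_zero fun j hj => ?_⟩
    have := Finset.single_le_sum (f := fun j => |R j|) (fun j _ => abs_nonneg _) hj
    rw [hR j hj y (by linarith [le_abs_self (R j)]), mul_zero]
  int := by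
    rw [integral_finsetSum s fun j hj => (h j hj).integrable.const_mul _, ← h1]
    exact Finset.sum_congr rfl fun j hj => by rw [integral_const_mul, (h j hj).int, mul_one]

theorem Den.st {f : ℝ → ℝ} (h : Den f) {ν : FM} (hν : IsP ν) : Den (st ν f) :=
  den_mix (s := sp ν) (c := fun x => ν.coeff x) (g := fun x y => f (y - x)) (fun x _ => hν.nn x)
    hν.sum fun x _ => h.shift x

end Crest.Agent.R98
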