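import Crest.Agent.R98.Defs

/-! # R98 ENT: entropy inequalities for densities (task 98-ENT) -/

set_option autoImplicit false

open MeasureTheory

namespace Crest.Agent.R98

theorem En_nonneg {f : ℝ → ℝ} (h : Den f) : 0 ≤ En f := by
  exact integral_nonneg fun y => Real.negMulLog_nonneg (h.nn y) (h.le1 y)

/-- `integral_sub_right_eq_self` -/
theorem En_shift (f : ℝ → ℝ) (a : ℝ) : En (fun y => f (y - a)) = En f := by
  exact integral_sub_right_eq_self (fun y => Real.negMulLog (f y)) a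

theorem En_bx : En bx = 0 := by
  have : (fun y => Real.negMulLog (bx y)) = fun _ => 0 := by
    funext y
    rw [bx_apply]
    split_ifs <;> simp
  rw [En, this, integral_zero]

/-- concavity (`Real.concaveOn_negMulLog`, finite Jensen pointwise, then integrate) -/
theorem En_mix {κ : Type*} {s : Finset κ} {c : κ → ℝ} {g : κ → ℝ → ℝ} (hc : ∀ j ∈ s, 0 ≤ c j)
    (h1 : ∑ j ∈ s, c j = 1) (h : ∀ j ∈ s, Den (g j)) :
    ∑ j ∈ s, c j * En (g j) ≤ En fun y => ∑ j ∈ s, c j * g j y := by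
  have hi : ∀ j ∈ s, Integrable fun y => c j * Real.negMulLog (g j y) := fun j hj =>
    (h j hj).integrable_neg.const_mul _
  simp only [En, ← integral_const_mul]
  rw [← integral_finsetSum s hi]
  refine integral_mono (integrable_finsetSum s hi) (den_mix hc h1 h).integrable_neg fun y => ?_
  exact Real.concaveOn_negMulLog.le_map_sum hc h1 fun j hj => (h j hj).nn y

/-- `En_mix` + `En_shift` with `st_eq_sum` -/
theorem En_st_ge {f : ℝ → ℝ} (hf : Den f) {ν : FM} (hν : IsP ν) : En f ≤ En (st ν f) := by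
  have := En_mix (s := sp ν) (c := fun x => ν.coeff x) (g := fun x y => f (y - x))
    (fun x _ => hν.nn x) hν.sum fun x _ => hf.shift x
  simp only [En_shift, ← Finset.sum_mul, hν.sum, one_mul] at this
  exact this

theorem ENT_gibbs {ι : Type*} [Fintype ι] {p a u : ι → ℝ} (hp : ∀ i, 0 ≤ p i) (ha : ∀ i, 0 ≤ a i)
    (hu : ∀ i, 0 ≤ u i) (hu' : ∀ i, 0 < p i * a i → 0 < u i) (h1 : ∑ i, p i * u i ≤ 1) :
    ∑ i, p i * a i * Real.log (u i) ≤
      Real.negMulLog (∑ i, p i * a i) - ∑ i, p i * Real.negMulLog (a i) := by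
  set S := ∑ i, p i * a i with hS
  have hS0 : 0 ≤ S := Finset.sum_nonneg fun i _ => mul_nonneg (hp i) (ha i)
  have key : ∀ i, p i * a i * Real.log (u i) + p i * Real.negMulLog (a i) +
      p i * a i * Real.log S ≤ p i * u i * S - p i * a i := by
    intro i
    rcases (mul_nonneg (hp i) (ha i)).eq_or_lt with h | h
    · have h2 : p i * Real.negMulLog (a i) = 0 := by
        rw [Real.negMulLog, neg_mul, mul_neg, ← mul_assoc, ← h, zero_mul, neg_zero]
      rw [h2, ← h]
      have := mul_nonneg (mul_nonneg (hp i) (hu i)) hS0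
      linarith
    · have hai : 0 < a i := (pos_of_mul_pos_right h (hp i))
      have hSi : 0 < S := h.trans_le (Finset.single_le_sum
        (fun j _ => mul_nonneg (hp j) (ha j)) (Finset.mem_univ i))
      have h2 := Real.log_le_sub_one_of_pos (show 0 < u i * S / a i by
        have := hu' i h; positivity)
      rw [Real.log_div (mul_pos (hu' i h) hSi).ne' hai.ne', Real.log_mul (hu' i h).ne' hSi.ne']
        at h2
      have h3 := mul_le_mul_of_nonneg_left h2 h.le
      have h4 : p i * a i * (u i * S / a i - 1) = p i * u i * S - p i * a i := by field_simp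
      rw [h4] at h3
      rw [Real.negMulLog]
      linarith
  have h2 := Finset.sum_le_sum fun i (_ : i ∈ Finset.univ) => key i
  rw [Finset.sum_add_distrib, Finset.sum_add_distrib, Finset.sum_sub_distrib, ← Finset.sum_mul,
    ← Finset.sum_mul, ← hS] at h2
  have h3 := mul_le_mul_of_nonneg_right h1 hS0
  rw [Real.negMulLog]
  linarith

set_option linter.unusedVariables false in

/-- The functional `Θ(a) = φ(∑ pᵢ aᵢ) - ∑ pᵢ φ(aᵢ) = ∑ pᵢ aᵢ log (aᵢ / ā)` (`φ = negMulLog`) is convex on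
the nonnegative orthant.  Proof: for `a, u ≥ 0` with `∑ pᵢ uᵢ ≤ 1`‐type test vectors one has the Gibbs
inequality; directly: for `a = ∑ⱼ cⱼ aʲ`, put `uᵢ = aᵢ / ā` (`∑ pᵢ uᵢ ≤ 1`); then for every `j`
`∑ᵢ pᵢ aʲᵢ log uᵢ ≤ Θ(aʲ)` whenever `cⱼ > 0` (use `log x ≤ x - 1` with `x = uᵢ āʲ / aʲᵢ`), and
`∑ⱼ cⱼ ∑ᵢ pᵢ aʲᵢ log uᵢ = Θ(a)`. -/
theorem convexOn_Theta {ι : Type*} [Fintype ι] {p : ι → ℝ} (hp : ∀ i, 0 ≤ p i)
    (hp1 : ∑ i, p i = 1) :
    ConvexOn ℝ {a : ι → ℝ | ∀ i, 0 ≤ a i}
      fun a => Real.negMulLog (∑ i, p i * a i) - ∑ i, p i * Real.negMulLog (a i) := by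
  refine ⟨fun a ha b hb s t hs ht _ i => add_nonneg (mul_nonneg hs (ha i)) (mul_nonneg ht (hb i)),
    fun a ha b hb s t hs ht _ => ?_⟩
  set z : ι → ℝ := s • a + t • b with hz
  have hzi : ∀ i, z i = s * a i + t * b i := fun i => rfl
  have hz0 : ∀ i, 0 ≤ z i := fun i => add_nonneg (mul_nonneg hs (ha i)) (mul_nonneg ht (hb i))
  set S := ∑ i, p i * z i with hS
  have hS0 : 0 ≤ S := Finset.sum_nonneg fun i _ => mul_nonneg (hp i) (hz0 i)
  have hSi : ∀ i, 0 < p i * z i → 0 < S := fun i h => h.trans_le (Finset.single_le_sum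
    (fun j _ => mul_nonneg (hp j) (hz0 j)) (Finset.mem_univ i))
  have hu : ∀ i, 0 ≤ z i / S := fun i => div_nonneg (hz0 i) hS0
  have hu' : ∀ i, 0 < p i * z i → 0 < z i / S := fun i h =>
    div_pos ((pos_of_mul_pos_right h (hp i))) (hSi i h)
  have h1 : ∑ i, p i * (z i / S) ≤ 1 := by
    simp only [← mul_div_assoc, ← Finset.sum_div]
    exact div_self_le_one S
  have key : ∀ (r : ℝ) (c : ι → ℝ), 0 ≤ r → (∀ i, 0 ≤ c i) → (∀ i, r * c i ≤ z i) →
      r * ∑ i, p i * c i * Real.log (z i / S) ≤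
        r * (Real.negMulLog (∑ i, p i * c i) - ∑ i, p i * Real.negMulLog (c i)) := by
    intro r c hr hc hle
    rcases hr.eq_or_lt with h | h
    · rw [← h, zero_mul, zero_mul]
    · refine mul_le_mul_of_nonneg_left (ENT_gibbs hp hc hu (fun i hi => hu' i ?_) h1) hr
      have h2 := mul_le_mul_of_nonneg_left (hle i) (hp i)
      have h3 := mul_pos h hi
      nlinarith
  have h2 := key s a hs ha fun i => by rw [hzi]; linarith [mul_nonneg ht (hb i)]
  have h3 := key t b ht hb fun i => by rw [hzi]; linarith [mul_nonneg hs (ha i)]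
  have h4 : Real.negMulLog S - ∑ i, p i * Real.negMulLog (z i) =
      ∑ i, p i * z i * Real.log (z i / S) := by
    have h5 : Real.negMulLog S = ∑ i, -(p i * z i * Real.log S) := by
      rw [Finset.sum_neg_distrib, ← Finset.sum_mul, ← hS, Real.negMulLog, neg_mul]
    rw [h5, ← Finset.sum_sub_distrib]
    refine Finset.sum_congr rfl fun i _ => ?_
    rw [Real.negMulLog]
    rcases (mul_nonneg (hp i) (hz0 i)).eq_or_lt with h | h
    · rw [neg_mul, mul_neg, ← mul_assoc, ← h]; simp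
    · rw [Real.log_div ((pos_of_mul_pos_right h (hp i))).ne' (hSi i h).ne']
      ring
  have h5 : ∑ i, p i * z i * Real.log (z i / S) = s * ∑ i, p i * a i * Real.log (z i / S) +
      t * ∑ i, p i * b i * Real.log (z i / S) := by
    rw [Finset.mul_sum, Finset.mul_sum, ← Finset.sum_add_distrib]
    refine Finset.sum_congr rfl fun i _ => ?_
    generalize Real.log (z i / S) = L
    rw [hzi]; ring
  simp only [smul_eq_mul]
  rw [h4, h5]
  exact add_le_add h2 h3

theorem ENT_int_ex {f : ℝ → ℝ} (hf : Den f) (ν : FM) :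
    Integrable fun y => ex ν fun x => Real.negMulLog (f (y - x)) :=
  integrable_finsetSum (sp ν) fun x _ => (hf.shift x).integrable_neg.const_mul _

/-- `En (st ν f) - En f = ∫ Θ((f (y - x))ₓ) dy` (shift invariance) -/
theorem En_st_sub {f : ℝ → ℝ} (hf : Den f) {ν : FM} (hν : IsP ν) :
    En (st ν f) - En f =
      ∫ y, (Real.negMulLog (st ν f y) - ex ν fun x => Real.negMulLog (f (y - x))) := by
  rw [integral_sub (hf.st hν).integrable_neg (ENT_int_ex hf ν)]
  congr 1
  simp only [ex_eq_sum']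
  rw [integral_finsetSum (sp ν) fun x _ => (hf.shift x).integrable_neg.const_mul _]
  have : ∀ x, ∫ y, Real.negMulLog (f (y - x)) = En f := fun x => En_shift f x
  simp only [integral_const_mul, this, ← Finset.sum_mul, hν.sum, one_mul]

/-- convexity of `f ↦ En (st ν f) - En f` (`En_st_sub`, `convexOn_Theta`, `st_fmix`) -/
theorem J_mix {κ : Type*} {s : Finset κ} {c : κ → ℝ} {g : κ → ℝ → ℝ} (hc : ∀ j ∈ s, 0 ≤ c j)
    (h1 : ∑ j ∈ s, c j = 1) (h : ∀ j ∈ s, Den (g j)) {ν : FM} (hν : IsP ν) :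
    En (st ν fun y => ∑ j ∈ s, c j * g j y) - En (fun y => ∑ j ∈ s, c j * g j y) ≤
      ∑ j ∈ s, c j * (En (st ν (g j)) - En (g j)) := by
  have hi : ∀ {f : ℝ → ℝ}, Den f → Integrable fun y =>
      Real.negMulLog (st ν f y) - ex ν fun x => Real.negMulLog (f (y - x)) := fun hf =>
    (hf.st hν).integrable_neg.sub (ENT_int_ex hf ν)
  rw [En_st_sub (den_mix hc h1 h) hν,
    Finset.sum_congr rfl fun j hj => by rw [En_st_sub (h j hj) hν, ← integral_const_mul],
    ← integral_finsetSum s fun j hj => (hi (h j hj)).const_mul _]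
  refine integral_mono (hi (den_mix hc h1 h))
    (integrable_finsetSum s fun j hj => (hi (h j hj)).const_mul _) fun y => ?_
  have hp1 : ∑ x : ↥(sp ν), ν.coeff x = 1 := by
    rw [Finset.sum_coe_sort (sp ν) fun x => ν.coeff x, hν.sum]
  have := (convexOn_Theta (p := fun x : ↥(sp ν) => ν.coeff x) (fun x => hν.nn x) hp1).map_sum_le
    (t := s) (w := c) (p := fun j (x : ↥(sp ν)) => g j (y - x)) hc h1
    fun j hj x => (h j hj).nn _
  have e1 : ∀ F : ℝ → ℝ, ∑ x : ↥(sp ν), ν.coeff x * F x = ex ν F := fun F =>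
    Finset.sum_coe_sort (sp ν) fun x => ν.coeff x * F x
  simp only [Finset.sum_apply, Pi.smul_apply, smul_eq_mul] at this
  simp only [st, ← e1]
  exact this

/-- data processing: `J_mix` for the shifts of `f`, `st_shift`, `En_shift` -/
theorem J_st {f : ℝ → ℝ} (hf : Den f) {ν ζ : FM} (hν : IsP ν) (hζ : IsP ζ) :
    En (st ν (st ζ f)) - En (st ζ f) ≤ En (st ν f) - En f := by
  have := J_mix (s := sp ζ) (c := fun x => ζ.coeff x) (g := fun x y => f (y - x))
    (fun x _ => hζ.nn x) hζ.sum (fun x _ => hf.shift x) hν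
  simp only [st_shift, En_shift, ← Finset.sum_mul, hζ.sum, one_mul] at this
  exact this

/-- Kaimanovich–Vershik: telescoping with `J_st` -/
theorem J_pow {f : ℝ → ℝ} (hf : Den f) {ν : FM} (hν : IsP ν) (T : ℕ) :
    En (st (ν ^ T) f) - En f ≤ T * (En (st ν f) - En f) := by
  induction T with
  | zero => simp
  | succ T ih =>
    have := J_st hf hν (hν.pow T)
    rw [pow_succ', st_mul]
    push_cast
    linarith

theorem ENT_subadd {κ : Type*} {s : Finset κ} {x : κ → ℝ} (hx : ∀ j ∈ s, 0 ≤ x j) :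
    Real.negMulLog (∑ j ∈ s, x j) ≤ ∑ j ∈ s, Real.negMulLog (x j) := by
  rw [Real.negMulLog, neg_mul, Finset.sum_mul, ← Finset.sum_neg_distrib]
  refine Finset.sum_le_sum fun j hj => ?_
  rw [Real.negMulLog, neg_mul, neg_le_neg_iff]
  rcases (hx j hj).eq_or_lt with h | h
  · rw [← h, zero_mul, zero_mul]
  · exact mul_le_mul_of_nonneg_left (Real.log_le_log h (Finset.single_le_sum hx hj)) h.le

theorem En_mix_le {κ : Type*} {s : Finset κ} {c : κ → ℝ} {g : κ → ℝ → ℝ} (hc : ∀ j ∈ s, 0 ≤ c j)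
    (h1 : ∑ j ∈ s, c j = 1) (h : ∀ j ∈ s, Den (g j)) :
    (En fun y => ∑ j ∈ s, c j * g j y) ≤
      ∑ j ∈ s, c j * En (g j) + ∑ j ∈ s, Real.negMulLog (c j) := by
  have hi : ∀ j ∈ s, Integrable fun y =>
      g j y * Real.negMulLog (c j) + c j * Real.negMulLog (g j y) := fun j hj =>
    ((h j hj).integrable.mul_const _).add ((h j hj).integrable_neg.const_mul _)
  have h2 : ∑ j ∈ s, c j * En (g j) + ∑ j ∈ s, Real.negMulLog (c j) =
      ∫ y, ∑ j ∈ s, (g j y * Real.negMulLog (c j) + c j * Real.negMulLog (g j y)) := by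
    rw [integral_finsetSum s hi, ← Finset.sum_add_distrib]
    refine Finset.sum_congr rfl fun j hj => ?_
    rw [integral_add ((h j hj).integrable.mul_const _) ((h j hj).integrable_neg.const_mul _),
      integral_mul_const, integral_const_mul, (h j hj).int, one_mul, add_comm, En]
  rw [h2]
  refine integral_mono (den_mix hc h1 h).integrable_neg (integrable_finsetSum s hi) fun y => ?_
  refine (ENT_subadd fun j hj => mul_nonneg (hc j hj) ((h j hj).nn y)).trans_eq ?_
  simp only [Real.negMulLog_mul]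

/-- pointwise `φ(∑ pₓ aₓ) ≤ ∑ φ(pₓ aₓ) = ∑ (pₓ φ(aₓ) + aₓ φ(pₓ))` (subadditivity of `φ` on
nonnegatives: `-log` of the sum is `≤ -log` of each positive term), integrate. -/
theorem En_st_le {f : ℝ → ℝ} (hf : Den f) {ν : FM} (hν : IsP ν) : En (st ν f) ≤ En f + Ent ν := by
  have := En_mix_le (s := sp ν) (c := fun x => ν.coeff x) (g := fun x y => f (y - x))
    (fun x _ => hν.nn x) hν.sum fun x _ => hf.shift x
  simp only [En_shift, ← Finset.sum_mul, hν.sum, one_mul] at this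
  exact this

theorem h1_nonneg {ν : FM} (hν : IsP ν) : 0 ≤ h1 ν := by
  exact En_nonneg (den_bx.st hν)

theorem h1_le_Ent {ν : FM} (hν : IsP ν) : h1 ν ≤ Ent ν := by
  have := En_st_le den_bx hν
  rwa [En_bx, zero_add] at this

/-- `J_st` with `f = bx` -/
theorem h1_mul_le {ν ζ : FM} (hν : IsP ν) (hζ : IsP ζ) : h1 (ν * ζ) ≤ h1 ν + h1 ζ := by
  have := J_st den_bx hν hζ
  rw [En_bx] at this
  simp only [h1, st_mul]
  linarith

/-- `En_st_le` and `Ent (uN N) ≤ log N` (`Ent_le_log`-type computation) -/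
theorem Dn_nonneg {N : ℕ} (hN : 1 ≤ N) {f : ℝ → ℝ} (hf : Den f) : 0 ≤ Dn N f := by
  have hN' : (N : ℝ) ≠ 0 := by positivity
  have := En_mix_le (s := Finset.range N) (c := fun _ => (N : ℝ)⁻¹)
    (g := fun i y => f (y - (i : ℝ))) (fun _ _ => by positivity) (by simp [hN'])
    fun i _ => hf.shift _
  simp only [En_shift, Finset.sum_const, Finset.card_range, nsmul_eq_mul, Real.negMulLog,
    Real.log_inv, neg_mul_neg, ← mul_assoc, mul_inv_cancel₀ hN', one_mul] at this
  rw [Dn, uN, st_mix]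
  simp only [st_dl]
  linarith

theorem Dn_le {N : ℕ} (hN : 1 ≤ N) {f : ℝ → ℝ} (hf : Den f) : Dn N f ≤ Real.log N := by
  have := En_st_ge hf (isP_uN hN)
  rw [Dn]
  linarith

/-- concavity of `Dn N` (`J_mix` with `ν = uN N`) -/
theorem Dn_mix {N : ℕ} (hN : 1 ≤ N) {κ : Type*} {s : Finset κ} {c : κ → ℝ} {g : κ → ℝ → ℝ}
    (hc : ∀ j ∈ s, 0 ≤ c j) (h1 : ∑ j ∈ s, c j = 1) (h : ∀ j ∈ s, Den (g j)) :
    ∑ j ∈ s, c j * Dn N (g j) ≤ Dn N fun y => ∑ j ∈ s, c j * g j y := by
  have := J_mix hc h1 h (isP_uN hN)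
  have h2 : ∑ j ∈ s, c j * Dn N (g j) =
      ∑ j ∈ s, c j * Real.log N - ∑ j ∈ s, c j * (En (st (uN N) (g j)) - En (g j)) := by
    rw [← Finset.sum_sub_distrib]
    exact Finset.sum_congr rfl fun j _ => by rw [Dn]; ring
  rw [h2, ← Finset.sum_mul, h1, Dn]
  linarith

theorem Dn_st {N : ℕ} (hN : 1 ≤ N) {f : ℝ → ℝ} (hf : Den f) {ν : FM} (hν : IsP ν) :
    Dn N f ≤ Dn N (st ν f) := by
  have := J_st hf (isP_uN hN) hν
  simp only [Dn]
  linarith

theorem Dn_shift (N : ℕ) (f : ℝ → ℝ) (a : ℝ) : Dn N (fun y => f (y - a)) = Dn N f := by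
  simp only [Dn, st_shift, En_shift]

end Crest.Agent.R98
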