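import Crest.Agent.R98.LQ0

/-! # R98 FR: Frostman lower bound (task 98-FR) -/

set_option autoImplicit false

open MeasureTheory

namespace Crest.Agent.R98

theorem FR_fubini (μ : Measure ℝ) [SFinite μ] (Λ : ℝ) {B : Set ℝ} (hB : MeasurableSet B) :
    μ B = ∫⁻ y, μ (B ∩ {x | Λ * x ∈ Set.Ioc (y - 1) y}) := by
  let S : Set (ℝ × ℝ) := {p | p.1 ∈ B ∧ p.2 - 1 < Λ * p.1 ∧ Λ * p.1 ≤ p.2}
  have hS1 : MeasurableSet {p : ℝ × ℝ | p.2 - 1 < Λ * p.1} :=
    measurableSet_lt (by fun_prop) (by fun_prop)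
  have hS2 : MeasurableSet {p : ℝ × ℝ | Λ * p.1 ≤ p.2} :=
    measurableSet_le (by fun_prop) (by fun_prop)
  have hS : MeasurableSet S := (measurable_fst hB).inter (hS1.inter hS2)
  have h1 := Measure.prod_apply (μ := μ) (ν := (volume : Measure ℝ)) hS
  have h2 := Measure.prod_apply_symm (μ := μ) (ν := (volume : Measure ℝ)) hS
  have h3 : ∀ x, (volume : Measure ℝ) (Prod.mk x ⁻¹' S) = B.indicator 1 x := by
    intro x
    by_cases hx : x ∈ B
    · have : Prod.mk x ⁻¹' S = Set.Ico (Λ * x) (Λ * x + 1) := by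
        ext y
        simp only [S, Set.mem_preimage, Set.mem_ofPred_eq, hx, true_and, Set.mem_Ico]
        constructor <;> rintro ⟨a, b⟩ <;> constructor <;> linarith
      rw [this, Set.indicator_of_mem hx]
      simp
    · have : Prod.mk x ⁻¹' S = ∅ := by
        ext y
        simp [S, hx]
      rw [this, Set.indicator_of_notMem hx, measure_empty]
  rw [h2] at h1
  simp only [h3] at h1
  rw [lintegral_indicator_one hB] at h1
  rw [← h1]
  rfl

theorem FR_meas (μ : Measure ℝ) [SFinite μ] (r : ℝ) :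
    Measurable fun x => μ.real (Metric.closedBall x r) := by
  have hS : MeasurableSet {p : ℝ × ℝ | dist p.2 p.1 ≤ r} :=
    measurableSet_le (by fun_prop) (by fun_prop)
  exact (measurable_measure_prodMk_left (ν := μ) hS).ennreal_toReal

theorem FR_bad {μ : Measure ℝ} (hμ : BP μ) {θ : ℝ} (hθ : 0 < θ) (hθ1 : θ ≤ 1) {Λ c : ℝ}
    (hΛ : 0 < Λ) (hc : 0 < c) :
    μ {x | c < μ.real (Metric.closedBall x Λ⁻¹)} ≤
      ENNReal.ofReal (c ^ (-θ) * (28 * Mq μ θ Λ)) := by
  have := hμ.prob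
  have hB : MeasurableSet {x | c < μ.real (Metric.closedBall x Λ⁻¹)} :=
    measurableSet_lt measurable_const (FR_meas μ _)
  have hf := hμ.den_fm Λ
  set f := fm μ Λ with hfd
  have hb0 : ∀ y, 0 ≤ f (y - 1) + f y + f (y + 1) := fun y =>
    add_nonneg (add_nonneg (hf.nn _) (hf.nn _)) (hf.nn _)
  have hint : Integrable fun y => f y * (f (y - 1) + f y + f (y + 1)) ^ θ := by
    obtain ⟨R, hR⟩ := hf.bdd
    have hm := hf.meas
    refine integrable_of_bdd (C := 3 ^ θ) (R := R) (by fun_prop) (fun y => ?_)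
      fun y hy => by rw [hR y hy, zero_mul]
    rw [abs_of_nonneg (mul_nonneg (hf.nn _) (Real.rpow_nonneg (hb0 y) _))]
    have h1 : (f (y - 1) + f y + f (y + 1)) ^ θ ≤ 3 ^ θ :=
      Real.rpow_le_rpow (hb0 y) (by linarith [hf.le1 (y - 1), hf.le1 y, hf.le1 (y + 1)]) hθ.le
    have h2 := Real.rpow_nonneg (hb0 y) θ
    nlinarith [hf.le1 y, hf.nn y]
  rw [FR_fubini μ Λ hB]
  calc _ ≤ ∫⁻ y, ENNReal.ofReal (c ^ (-θ) * (f y * (f (y - 1) + f y + f (y + 1)) ^ θ)) := by
        refine lintegral_mono fun y => ?_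
        rcases Set.eq_empty_or_nonempty ({x | c < μ.real (Metric.closedBall x Λ⁻¹)} ∩
          {x | Λ * x ∈ Set.Ioc (y - 1) y}) with h | ⟨x, hx1, hx2⟩
        · rw [h, measure_empty]; exact bot_le
        · have hsub : Metric.closedBall x Λ⁻¹ ⊆ ({z | Λ * z ∈ Set.Ioc (y - 1 - 1) (y - 1)} ∪
              {z | Λ * z ∈ Set.Ioc (y - 1) y}) ∪ {z | Λ * z ∈ Set.Ioc (y + 1 - 1) (y + 1)} := by
            intro z hz
            rw [Metric.mem_closedBall, Real.dist_eq] at hz
            have h1 : |Λ * z - Λ * x| ≤ 1 := by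
              rw [← mul_sub, abs_mul, abs_of_pos hΛ]
              calc Λ * |z - x| ≤ Λ * Λ⁻¹ := mul_le_mul_of_nonneg_left hz hΛ.le
                _ = 1 := mul_inv_cancel₀ hΛ.ne'
            obtain ⟨h2, h3⟩ := abs_le.1 h1
            obtain ⟨h4, h5⟩ := hx2
            simp only [Set.mem_union, Set.mem_ofPred_eq, Set.mem_Ioc]
            rcases le_or_gt (Λ * z) (y - 1) with h | h
            · exact Or.inl (Or.inl ⟨by linarith, h⟩)
            · rcases le_or_gt (Λ * z) y with h' | h'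
              · exact Or.inl (Or.inr ⟨h, h'⟩)
              · exact Or.inr ⟨by linarith, by linarith⟩
          have hcb : c ≤ f (y - 1) + f y + f (y + 1) := by
            refine le_trans (le_of_lt hx1) ((measureReal_mono hsub).trans ?_)
            exact (measureReal_union_le _ _).trans (add_le_add (measureReal_union_le _ _) le_rfl)
          refine (measure_mono Set.inter_subset_right).trans ?_
          rw [← ofReal_measureReal (μ := μ)]
          refine ENNReal.ofReal_le_ofReal ?_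
          change f y ≤ _
          have h1 : c ^ θ ≤ (f (y - 1) + f y + f (y + 1)) ^ θ := Real.rpow_le_rpow hc.le hcb hθ.le
          have h2 : c ^ (-θ) * c ^ θ = 1 := by rw [← Real.rpow_add hc]; simp
          have h3 := Real.rpow_pos_of_pos hc (-θ)
          calc f y = c ^ (-θ) * (f y * c ^ θ) := by rw [mul_left_comm, h2, mul_one]
            _ ≤ _ := mul_le_mul_of_nonneg_left (mul_le_mul_of_nonneg_left h1 (hf.nn y)) h3.le
    _ = ENNReal.ofReal (∫ y, c ^ (-θ) * (f y * (f (y - 1) + f y + f (y + 1)) ^ θ)) := by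
        rw [ofReal_integral_eq_lintegral_ofReal (hint.const_mul _)]
        exact Filter.Eventually.of_forall fun y => mul_nonneg (Real.rpow_nonneg hc.le _)
          (mul_nonneg (hf.nn _) (Real.rpow_nonneg (hb0 y) _))
    _ ≤ _ := by
        refine ENNReal.ofReal_le_ofReal ?_
        rw [integral_const_mul]
        refine mul_le_mul_of_nonneg_left ?_ (Real.rpow_nonneg hc.le _)
        refine (integral_three_le hμ hθ hθ1 Λ).trans ?_
        exact mul_le_mul_of_nonneg_right (by linarith) (Mq_nonneg _ _)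

/-- mass distribution principle -/
theorem FR_mdp (μ : Measure ℝ) {F : Set ℝ} (hF : MeasurableSet F) (hpos : 0 < μ F) {s' r₀ : ℝ}
    (hs' : 0 < s') (hr₀ : 0 < r₀)
    (h : ∀ x ∈ F, ∀ ρ : ℝ, 0 < ρ → ρ ≤ r₀ →
      μ (Metric.closedBall x ρ) ≤ ENNReal.ofReal ((2 * ρ) ^ s')) :
    ENNReal.ofReal s' ≤ dimH F := by
  have h2 : (0 : ℝ) < 2 ^ s' := by positivity
  have hle := Measure.le_hausdorffMeasure s' ((ENNReal.ofReal (2 ^ s'))⁻¹ • μ.restrict F)
    (ENNReal.ofReal (r₀ / 2)) (by simpa using hr₀) fun t ht => by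
      rw [Measure.smul_apply, smul_eq_mul, Measure.restrict_apply' hF]
      rcases Set.eq_empty_or_nonempty (t ∩ F) with he | ⟨x, hxt, hxF⟩
      · rw [he]; simp
      have hne : Metric.ediam t ≠ ⊤ := ne_top_of_le_ne_top ENNReal.ofReal_ne_top ht
      set δ := (Metric.ediam t).toReal with hδ
      have hδ0 : 0 ≤ δ := ENNReal.toReal_nonneg
      have hδ1 : δ ≤ r₀ / 2 := ENNReal.toReal_le_of_le_ofReal (by positivity) ht
      have hsub : t ⊆ Metric.closedBall x δ := fun z hz => by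
        rw [Metric.mem_closedBall, dist_edist]
        exact ENNReal.toReal_mono hne (Metric.edist_le_ediam_of_mem hz hxt)
      have hlim : μ (t ∩ F) ≤ ENNReal.ofReal ((2 * δ) ^ s') := by
        have hc : Continuous fun ρ : ℝ => ENNReal.ofReal ((2 * ρ) ^ s') :=
          ENNReal.continuous_ofReal.comp
            ((Real.continuous_rpow_const hs'.le).comp (continuous_const.mul continuous_id))
        refine ge_of_tendsto ((hc.tendsto δ).mono_left
          (nhdsWithin_le_nhds (s := Set.Ioi δ))) ?_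
        have e1 : ∀ᶠ ρ in nhdsWithin δ (Set.Ioi δ), ρ < r₀ :=
          nhdsWithin_le_nhds (gt_mem_nhds (by linarith))
        filter_upwards [e1, self_mem_nhdsWithin] with ρ h1 h2
        have h2' : δ < ρ := h2
        refine le_trans (measure_mono ?_) (h x hxF ρ (by linarith) h1.le)
        exact Set.inter_subset_left.trans (hsub.trans (Metric.closedBall_subset_closedBall h2'.le))
      rw [← ENNReal.ofReal_toReal hne, ← hδ, ENNReal.ofReal_rpow_of_nonneg hδ0 hs'.le]
      rw [Real.mul_rpow (by norm_num) hδ0, ENNReal.ofReal_mul h2.le] at hlim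
      refine (mul_le_mul_right hlim _).trans ?_
      rw [← mul_assoc, ENNReal.inv_mul_cancel (by simpa using h2) ENNReal.ofReal_ne_top, one_mul]
  have := le_dimH_of_hausdorffMeasure_ne_zero (s := F) (d := NNReal.mk s' hs'.le) (by
    refine (lt_of_lt_of_le ?_ (hle F)).ne'
    rw [Measure.smul_apply, smul_eq_mul, Measure.restrict_apply_self]
    exact ENNReal.mul_pos (by simp) hpos.ne')
  rwa [← ENNReal.ofReal_coe_nnreal] at this

/-- For `r = 2^{-k}`, `Λ = 2^k`, `c = r^{s'}` let `B k = {x | c < μ.real (closedBall x r)}`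
(measurable, or use its measurable hull).  For `Λ x ∈ (y-1,y]` the ball lies in
`{z | Λ z ∈ (y-2,y+1]}`, so `c < b y := f (y-1) + f y + f (y+1)` with `f = fm μ Λ`, whence
`μ.real (B k) = ∫ μ.real (B k ∩ {x | Λ x ∈ (y-1,y]}) dy ≤ ∫ f y * (b y / c)^θ ≤ 28 c^{-θ} Mq`
(`integral_three_le`), which is summable in `k`.  Borel–Cantelli (`ae_eventually_notMem`) gives `K`
with `0 < μ (E_K)`, `E_K = E ∩ ⋂_{k ≥ K} (B k)ᶜ`; `ν = μ.restrict E_K` has
`ν t ≤ 2^{s'} diam(t)^{s'}` for small diameters, so `Measure.le_hausdorffMeasure` (applied to a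
multiple of `ν`) gives `μH[s'] E_K ≠ 0`, and `le_dimH_of_hausdorffMeasure_ne_zero`, `dimH_mono`. -/
theorem frostman {μ : Measure ℝ} (hμ : BP μ) {θ C s s' : ℝ} (hθ : 0 < θ) (hθ1 : θ ≤ 1)
    (hs' : 0 < s') (hs : s' < s) (h : ∀ Λ : ℝ, 1 ≤ Λ → Mq μ θ Λ ≤ C * Λ ^ (-(θ * s)))
    {E : Set ℝ} (hE : MeasurableSet E) (hpos : 0 < μ E) : ENNReal.ofReal s' ≤ dimH E := by
  have := hμ.prob
  let B : ℕ → Set ℝ := fun k =>
    {x | ((2 : ℝ) ^ k) ^ (-s') < μ.real (Metric.closedBall x ((2 : ℝ) ^ k)⁻¹)}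
  have hBm : ∀ k, MeasurableSet (B k) := fun k => measurableSet_lt measurable_const (FR_meas μ _)
  set q : ℝ := (2 : ℝ) ^ (-(θ * (s - s'))) with hq
  have hq0 : 0 ≤ q := by positivity
  have hq1 : q < 1 := Real.rpow_lt_one_of_one_lt_of_neg (by norm_num) (by nlinarith)
  have hB : ∀ k, μ (B k) ≤ ENNReal.ofReal (28 * |C| * q ^ k) := by
    intro k
    have hΛ : (0 : ℝ) < 2 ^ k := by positivity
    refine (FR_bad hμ hθ hθ1 hΛ (by positivity)).trans (ENNReal.ofReal_le_ofReal ?_)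
    have h1 := (h (2 ^ k) (one_le_pow₀ (by norm_num))).trans
      (mul_le_mul_of_nonneg_right (le_abs_self C) (by positivity))
    refine (mul_le_mul_of_nonneg_left (mul_le_mul_of_nonneg_left h1 (by norm_num))
      (by positivity)).trans (le_of_eq ?_)
    have e : q ^ k = (((2 : ℝ) ^ k) ^ (-s')) ^ (-θ) * ((2 : ℝ) ^ k) ^ (-(θ * s)) := by
      rw [← Real.rpow_mul hΛ.le, ← Real.rpow_add hΛ, hq, ← Real.rpow_natCast,
        ← Real.rpow_natCast, ← Real.rpow_mul (by norm_num), ← Real.rpow_mul (by norm_num)]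
      congr 1
      ring
    rw [e]
    ring
  have hsum : ∑' k, μ (B k) ≠ ⊤ := by
    refine ne_top_of_le_ne_top ?_ (ENNReal.tsum_le_tsum hB)
    rw [← ENNReal.ofReal_tsum_of_nonneg (fun k => by positivity)
      ((summable_geometric_of_lt_one hq0 hq1).mul_left _)]
    exact ENNReal.ofReal_ne_top
  have hae := ae_eventually_notMem hsum
  let F : ℕ → Set ℝ := fun K => E ∩ ⋂ k, (B (k + K))ᶜ
  obtain ⟨K, hK⟩ : ∃ K, 0 < μ (F K) := by
    by_contra hn
    push Not at hn
    have h0 : μ (⋃ K, F K) = 0 := measure_iUnion_null fun K => le_antisymm (hn K) bot_le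
    refine hpos.ne' (le_antisymm (le_trans (measure_mono_ae ?_) h0.le) bot_le)
    filter_upwards [hae] with x hx hxE
    obtain ⟨K, hK⟩ := Filter.eventually_atTop.1 hx
    exact Set.mem_iUnion.2 ⟨K, hxE, Set.mem_iInter.2 fun k => hK _ (by omega)⟩
  refine le_trans ?_ (dimH_mono (Set.inter_subset_left : F K ⊆ E))
  refine FR_mdp μ (hE.inter (MeasurableSet.iInter fun k => (hBm _).compl)) hK hs'
    (r₀ := ((2 : ℝ) ^ K)⁻¹) (by positivity) fun x hx ρ hρ0 hρ => ?_
  have hK0 : (0 : ℝ) < 2 ^ K := by positivity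
  obtain ⟨n, hn1, hn2⟩ := exists_nat_pow_near_of_lt_one (x := ρ * 2 ^ K) (y := (1 / 2 : ℝ))
    (by positivity) (by rwa [← le_div_iff₀ hK0, one_div]) (by norm_num) (by norm_num)
  have e : ((2 : ℝ) ^ (n + K))⁻¹ = (1 / 2) ^ n / 2 ^ K := by
    rw [pow_add, one_div, inv_pow]; field_simp
  have h1 : ρ ≤ ((2 : ℝ) ^ (n + K))⁻¹ := by rw [e, le_div_iff₀ hK0]; exact hn2
  have h2 : ((2 : ℝ) ^ (n + K))⁻¹ ≤ 2 * ρ := by
    rw [e, div_le_iff₀ hK0]
    rw [pow_succ] at hn1
    linarith
  have h3 : x ∉ B (n + K) := Set.mem_iInter.1 hx.2 n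
  simp only [B, Set.mem_ofPred_eq, not_lt] at h3
  refine (measure_mono (Metric.closedBall_subset_closedBall h1)).trans ?_
  rw [← ofReal_measureReal (μ := μ)]
  refine ENNReal.ofReal_le_ofReal (h3.trans ?_)
  rw [Real.rpow_neg (by positivity), ← Real.inv_rpow (by positivity)]
  exact Real.rpow_le_rpow (by positivity) h2 hs'.le

end Crest.Agent.R98
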