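import Crest.Agent.R98.Rec

/-! # R98 LQ: from entropy at one scale to `L^{1+θ}` decay (task 98-LQ, second file) -/

set_option autoImplicit false

open MeasureTheory

namespace Crest.Agent.R98

/-- Take `L ≥ 1` large with `α log L ≤ hm μ L`, `D = (4R+2) L`,
`s log D ≤ α log L - log (1 + 1/l) - 28`; `θ = min 1 θ₀` (`Mq_le_exp` with `X = L`); on the
window `hm μ Λ' ≥ hm μ L - log (1 + 1/l)` (`hm_cmp`); `1 + 27θ ≤ e^{27θ}`; so
`Mq Λ ≤ D^{-θ s} Mq (Λ/D)` for `Λ ≥ D`, and induction on `k` with `Λ < D^(k+1)` gives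
`Mq Λ ≤ D^{θ s} Λ^{-θ s}` for `Λ ≥ 1`. -/
theorem lq {μ : Measure ℝ} (hμ : BP μ) {l : ℝ} (hl : 0 < l) (hl1 : l ≤ 1) (hd : DecH μ l)
    {α s : ℝ} (hs : 0 ≤ s) (hsα : s < α) (h : ∀ L₀ : ℝ, ∃ L, L₀ ≤ L ∧ α * Real.log L ≤ hm μ L) :
    ∃ θ C : ℝ, 0 < θ ∧ θ ≤ 1 ∧ ∀ Λ : ℝ, 1 ≤ Λ → Mq μ θ Λ ≤ C * Λ ^ (-(θ * s)) := by
  obtain ⟨R, hR0, hR⟩ := hμ.radius
  set c : ℝ := s * Real.log (4 * R + 2) + Real.log (1 + 1 / l) + 28 with hc
  obtain ⟨L, hL, hαL⟩ := h (Real.exp (max (c / (α - s)) 0))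
  have hL1 : 1 ≤ L := (Real.one_le_exp (le_max_right _ _)).trans hL
  have hL0 : 0 < L := by linarith
  have hlog : c ≤ Real.log L * (α - s) := by
    rw [← div_le_iff₀ (by linarith)]
    exact (le_max_left _ 0).trans ((Real.le_log_iff_exp_le hL0).2 hL)
  set D : ℝ := (4 * R + 2) * L with hD
  have hD2 : 2 * L ≤ D := by nlinarith
  have hD0 : 0 < D := by linarith
  have hlogD : Real.log D = Real.log (4 * R + 2) + Real.log L :=
    Real.log_mul (by positivity) hL0.ne'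
  obtain ⟨θ₀, hθ₀, hMq⟩ := Mq_le_exp hμ L
  set θ := min 1 θ₀ with hθdef
  have hθ : 0 < θ := lt_min one_pos hθ₀
  have hθ1 : θ ≤ 1 := min_le_left _ _
  have hM : ∀ Λ' : ℝ, l * L < |Λ'| → |Λ'| ≤ L →
      Mq μ θ Λ' ≤ Real.exp (-(θ * (α * Real.log L - Real.log (1 + 1 / l) - 1))) := by
    intro Λ' h1 h2
    have h0 : 0 < |Λ'| := lt_trans (by positivity) h1
    have h3 := hm_cmp hμ L (abs_pos.1 h0)
    have h4 : Real.log (1 + |L| / |Λ'|) ≤ Real.log (1 + 1 / l) := by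
      refine Real.log_le_log (by positivity) ?_
      rw [abs_of_pos hL0, add_le_add_iff_left, div_le_div_iff₀ h0 hl]
      linarith
    refine (hMq θ hθ (min_le_right _ _) Λ' h2).trans (Real.exp_le_exp.2 ?_)
    nlinarith
  have hrec : ∀ Λ : ℝ, D ≤ Λ →
      Mq μ θ Λ ≤ Real.exp (-(θ * s * Real.log D)) * Mq μ θ (Λ / D) := by
    intro Λ hΛ
    refine (Mq_rec hμ hl hd hR0 hR hθ hθ1 hL0 (D := D) (by nlinarith) hM (by nlinarith)).trans ?_
    rw [← mul_assoc]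
    refine mul_le_mul_of_nonneg_right ?_ (Mq_nonneg _ _)
    have h1 : 1 + 27 * θ ≤ Real.exp (27 * θ) := by linarith [Real.add_one_le_exp (27 * θ)]
    refine (mul_le_mul_of_nonneg_left h1 (Real.exp_pos _).le).trans ?_
    rw [← Real.exp_add, Real.exp_le_exp, hlogD]
    nlinarith
  have hbase : ∀ Λ : ℝ, 1 ≤ Λ → Λ < D →
      Mq μ θ Λ ≤ Real.exp (θ * s * (Real.log D - Real.log Λ)) := by
    intro Λ h1 h2
    refine (hμ.Mq_le_one hθ.le Λ).trans (Real.one_le_exp (mul_nonneg (by positivity) ?_))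
    linarith [Real.log_le_log (by linarith) h2.le]
  have hind : ∀ (k : ℕ) (Λ : ℝ), 1 ≤ Λ → Λ < D ^ (k + 1) →
      Mq μ θ Λ ≤ Real.exp (θ * s * (Real.log D - Real.log Λ)) := by
    intro k
    induction k with
    | zero => exact fun Λ h1 h2 => hbase Λ h1 (by simpa using h2)
    | succ k ih =>
      intro Λ h1 h2
      rcases lt_or_ge Λ D with h3 | h3
      · exact hbase Λ h1 h3
      · have h4 := ih (Λ / D) ((one_le_div hD0).2 h3) (by rwa [div_lt_iff₀ hD0, ← pow_succ])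
        refine (hrec Λ h3).trans ((mul_le_mul_of_nonneg_left h4 (Real.exp_pos _).le).trans ?_)
        rw [← Real.exp_add, Real.log_div (by linarith) hD0.ne']
        exact le_of_eq (congrArg _ (by ring))
  refine ⟨θ, Real.exp (θ * s * Real.log D), hθ, hθ1, fun Λ hΛ => ?_⟩
  obtain ⟨k, hk⟩ := pow_unbounded_of_one_lt Λ (show 1 < D by linarith)
  refine (hind k Λ hΛ (hk.trans_le (pow_le_pow_right₀ (by linarith) (Nat.le_succ k)))).trans ?_
  rw [Real.rpow_def_of_pos (by linarith), ← Real.exp_add]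
  exact le_of_eq (congrArg _ (by ring))

end Crest.Agent.R98
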