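import Mathlib
import Crest.Prelude.Def_SelfSimilar

/-! Row 98, easy half: the lower Hausdorff dimension is at most `min 1 (h/χ)`. -/

set_option autoImplicit false
open MeasureTheory Crest.AnalysisR Filter Topology Set
open scoped ENNReal NNReal

namespace Crest.Agent.R98.Up

variable {ι : Type*}

/-- translation part of a composed map -/
noncomputable def trW (r t : ι → ℝ) (w : List ι) : ℝ := affineWordMap r t w 0

lemma word_apply (r t : ι → ℝ) (w : List ι) (x : ℝ) :
    affineWordMap r t w x = (w.map r).prod * x + trW r t w := by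
  unfold trW
  induction w generalizing x with
  | nil => simp [affineWordMap]
  | cons i w ih =>
    have h1 : ∀ y, affineWordMap r t (i :: w) y = r i * affineWordMap r t w y + t i := fun y => rfl
    rw [h1, h1, ih x, ih 0]
    simp only [List.map_cons, List.prod_cons]
    ring

lemma word_ofFn (r t : ι → ℝ) {n : ℕ} (w : Fin n → ι) :
    affineWordMap r t (List.ofFn w) = fun x => (∏ j, r (w j)) * x + trW r t (List.ofFn w) := by
  funext x
  rw [word_apply, List.map_ofFn, List.prod_ofFn]
  rfl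

lemma sum_prod_eq [Fintype ι] (p : ι → ℝ) (hp₁ : ∑ i, p i = 1) (n : ℕ) :
    ∑ w : Fin n → ι, ∏ j, p (w j) = 1 := by
  classical
  have := Finset.prod_univ_sum (fun _ : Fin n => (Finset.univ : Finset ι)) (fun _ i => p i)
  rw [Fintype.piFinset_univ] at this
  rw [← this, hp₁]
  simp

lemma sum_cons [Fintype ι] {M : Type*} [AddCommMonoid M] (n : ℕ) (F : (Fin (n + 1) → ι) → M) :
    ∑ w : Fin (n + 1) → ι, F w = ∑ i, ∑ w : Fin n → ι, F (Fin.cons i w) := by
  classical
  rw [← Fintype.sum_prod_type' (f := fun i (w : Fin n → ι) => F (Fin.cons i w))]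
  exact (Fintype.sum_equiv (Fin.consEquiv fun _ => ι) _ _ (fun x => rfl)).symm

lemma exp_sum [Fintype ι] (p f : ι → ℝ) (hp₁ : ∑ i, p i = 1) (n : ℕ) :
    ∑ w : Fin n → ι, (∏ j, p (w j)) * ∑ j, f (w j) = n * ∑ i, p i * f i := by
  induction n with
  | zero => simp
  | succ n ih =>
    rw [sum_cons]
    simp only [Fin.prod_univ_succ, Fin.sum_univ_succ, Fin.cons_zero, Fin.cons_succ]
    have h : ∀ i, ∑ w : Fin n → ι, p i * (∏ j, p (w j)) * (f i + ∑ j, f (w j))
        = p i * f i + p i * (n * ∑ i, p i * f i) := by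
      intro i
      rw [← ih]
      have h1 := sum_prod_eq p hp₁ n
      calc ∑ w : Fin n → ι, p i * (∏ j, p (w j)) * (f i + ∑ j, f (w j))
          = ∑ w : Fin n → ι, (p i * f i * (∏ j, p (w j))
              + p i * ((∏ j, p (w j)) * ∑ j, f (w j))) := by
            refine Finset.sum_congr rfl fun w _ => by ring
        _ = _ := by
            rw [Finset.sum_add_distrib, ← Finset.mul_sum, ← Finset.mul_sum, h1, mul_one]
    rw [Finset.sum_congr rfl fun i _ => h i, Finset.sum_add_distrib, ← Finset.sum_mul, hp₁]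
    push_cast
    ring

lemma meas_aff (a b : ℝ) : Measurable fun x : ℝ => a * x + b := by fun_prop

/-- iterating the self-similarity relation -/
lemma iter [Fintype ι] (r t p : ι → ℝ) (hp : ∀ i, 0 ≤ p i) (μ : Measure ℝ)
    (hμ : μ = ∑ i, ENNReal.ofReal (p i) • μ.map (fun x : ℝ => r i * x + t i)) (n : ℕ) :
    μ = ∑ w : Fin n → ι, ENNReal.ofReal (∏ j, p (w j)) •
      μ.map (affineWordMap r t (List.ofFn w)) := by
  induction n with
  | zero =>
    simp [affineWordMap]
  | succ n ih =>
    rw [sum_cons]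
    conv_lhs => rw [hμ]
    refine Finset.sum_congr rfl fun i _ => ?_
    conv_lhs => rw [ih]
    rw [Measure.map_finset_sum' (meas_aff _ _).aemeasurable, Finset.smul_sum]
    refine Finset.sum_congr rfl fun w _ => ?_
    have hm : Measurable (affineWordMap r t (List.ofFn w)) := by
      rw [word_ofFn]; exact meas_aff _ _
    rw [Measure.map_smul, Measure.map_map (meas_aff _ _) hm, smul_smul, Fin.prod_univ_succ,
      Fin.cons_zero, ENNReal.ofReal_mul (hp i)]
    simp only [Fin.cons_succ, List.ofFn_succ, Fin.cons_zero]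
    rfl


/-- Markov: a variable bounded below by `-C` with mean `≤ -δ` is `≤ -δ/2` with fixed probability. -/
lemma markov {α : Type*} [Fintype α] (q Y : α → ℝ) (hq : ∀ a, 0 ≤ q a) (hq1 : ∑ a, q a = 1)
    (C δ n : ℝ) (hn : 0 < n) (hδ : 0 < δ) (hC : 0 < C) (hY : ∀ a, -(C * n) ≤ Y a)
    (hE : ∑ a, q a * Y a ≤ -(δ * n)) [DecidablePred fun a => Y a ≤ -(δ / 2 * n)] :
    δ / 2 / C ≤ ∑ a ∈ Finset.univ.filter (fun a => Y a ≤ -(δ / 2 * n)), q a := by
  set G := ∑ a ∈ Finset.univ.filter (fun a => Y a ≤ -(δ / 2 * n)), q a with hG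
  have h1 : ∑ a, q a * (-(δ / 2 * n) - (C * n) * (if Y a ≤ -(δ / 2 * n) then 1 else 0))
      ≤ ∑ a, q a * Y a := by
    refine Finset.sum_le_sum fun a _ => mul_le_mul_of_nonneg_left ?_ (hq a)
    split_ifs with h
    · have := hY a
      have : 0 < δ / 2 * n := by positivity
      linarith
    · push Not at h
      linarith
  have h2 : ∑ a, q a * (-(δ / 2 * n) - (C * n) * (if Y a ≤ -(δ / 2 * n) then 1 else 0))
      = -(δ / 2 * n) - C * n * G := by
    rw [hG, Finset.sum_filter, Finset.mul_sum]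
    have : -(δ / 2 * n) = ∑ a, q a * -(δ / 2 * n) := by rw [← Finset.sum_mul, hq1, one_mul]
    refine Eq.trans ?_ (congrArg (fun z => z - ∑ a, C * n * if Y a ≤ -(δ / 2 * n) then q a else 0)
      this.symm)
    rw [← Finset.sum_sub_distrib]
    refine Finset.sum_congr rfl fun a _ => ?_
    split_ifs <;> ring
  have h3 : δ / 2 * n ≤ C * G * n := by nlinarith
  have h4 : δ / 2 ≤ C * G := le_of_mul_le_mul_right h3 hn
  rw [div_le_iff₀ hC]
  linarith

lemma ediam_img (a b M : ℝ) (hM : 0 ≤ M) :
    Metric.ediam ((fun x : ℝ => a * x + b) '' Icc (-M) M) ≤ ENNReal.ofReal (2 * M * |a|) := by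
  refine Metric.ediam_le ?_
  rintro _ ⟨x, hx, rfl⟩ _ ⟨y, hy, rfl⟩
  rw [edist_dist, Real.dist_eq]
  refine ENNReal.ofReal_le_ofReal ?_
  have : a * x + b - (a * y + b) = a * (x - y) := by ring
  rw [this, abs_mul, mul_comm]
  refine mul_le_mul_of_nonneg_right ?_ (abs_nonneg _)
  rw [abs_le]
  constructor <;> linarith [hx.1, hx.2, hy.1, hy.2]

lemma exists_M (μ : Measure ℝ) [IsProbabilityMeasure μ] :
    ∃ M : ℝ, 0 < M ∧ 0 < μ (Icc (-M) M) := by
  by_contra h
  push Not at h
  have h0 : μ (⋃ n : ℕ, Icc (-((n : ℝ) + 1)) ((n : ℝ) + 1)) = 0 :=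
    measure_iUnion_null fun n => le_antisymm (h _ (by positivity)) bot_le
  have h1 : (⋃ n : ℕ, Icc (-((n : ℝ) + 1)) ((n : ℝ) + 1)) = univ := by
    refine eq_univ_of_forall fun x => ?_
    obtain ⟨n, hn⟩ := exists_nat_gt |x|
    refine mem_iUnion.2 ⟨n, ?_, ?_⟩
    · linarith [neg_abs_le x]
    · linarith [le_abs_self x]
  rw [h1, measure_univ] at h0
  exact one_ne_zero h0

/-- the similarity-dimension bound -/
lemma mainA [Fintype ι] (r t p : ι → ℝ)
    (hr : ∀ i, r i ≠ 0 ∧ |r i| < 1) (hp : ∀ i, 0 < p i) (hp₁ : ∑ i, p i = 1)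
    (μ : Measure ℝ) (hμ : IsSelfSimilarMeasure r t p μ) (s : ℝ≥0) (hs : 0 < s)
    (hneg : ∑ i, p i * (-Real.log (p i) + s * Real.log |r i|) < 0) :
    lowerHausdorffDim μ ≤ s := by
  classical
  haveI := hμ.1
  obtain ⟨M, hM, hM0⟩ := exists_M μ
  set f : ι → ℝ := fun i => -Real.log (p i) + s * Real.log |r i| with hf
  set δ : ℝ := -∑ i, p i * f i with hδ
  have hδ0 : 0 < δ := by rw [hδ]; linarith
  obtain ⟨C, hC, hCf⟩ : ∃ C : ℝ, 0 < C ∧ ∀ i, -C ≤ f i := by
    refine ⟨1 + ∑ i, |f i|, by positivity, fun i => ?_⟩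
    have := Finset.single_le_sum (f := fun i => |f i|) (fun i _ => abs_nonneg _)
      (Finset.mem_univ i)
    linarith [neg_abs_le (f i)]
  obtain ⟨ρ, hρ0, hρ1, hρ⟩ : ∃ ρ : ℝ, 0 ≤ ρ ∧ ρ < 1 ∧ ∀ i, |r i| ≤ ρ := by
    have hne : (Finset.univ : Finset ι).Nonempty := by
      by_contra h
      rw [Finset.not_nonempty_iff_eq_empty] at h
      rw [h] at hp₁
      simp at hp₁
    obtain ⟨i, -, hi⟩ := Finset.exists_max_image Finset.univ (fun i => |r i|) hne
    exact ⟨|r i|, abs_nonneg _, (hr i).2, fun j => hi j (Finset.mem_univ _)⟩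
  -- good words
  let good : ∀ k : ℕ, Finset (Fin k → ι) := fun k =>
    Finset.univ.filter (fun w => ∑ j, f (w j) ≤ -(δ / 2 * k))
  let img : ∀ k : ℕ, (Fin k → ι) → Set ℝ := fun k w =>
    affineWordMap r t (List.ofFn w) '' Icc (-M) M
  have himg : ∀ k w, IsCompact (img k w) := by
    intro k w
    refine isCompact_Icc.image ?_
    rw [word_ofFn]; fun_prop
  let E : ℕ → Set ℝ := fun k => ⋃ w ∈ good k, img k w
  have hEm : ∀ k, MeasurableSet (E k) := fun k =>
    Finset.measurableSet_biUnion _ fun w _ => (himg k w).measurableSet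
  have hgood : ∀ k : ℕ, 0 < k → δ / 2 / C ≤ ∑ w ∈ good k, ∏ j, p (w j) := by
    intro k hk
    refine markov (fun w : Fin k → ι => ∏ j, p (w j)) (fun w => ∑ j, f (w j))
      (fun w => Finset.prod_nonneg fun j _ => (hp _).le) (sum_prod_eq p hp₁ k) C δ k
      (by exact_mod_cast hk) hδ0 hC (fun w => ?_) ?_
    · have : ∑ _j : Fin k, -C ≤ ∑ j, f (w j) := Finset.sum_le_sum fun j _ => hCf _
      simpa [mul_comm] using this
    · rw [exp_sum p f hp₁ k, hδ]
      apply le_of_eq; ring
  have hE : ∀ k : ℕ, 0 < k → ENNReal.ofReal (δ / 2 / C) * μ (Icc (-M) M) ≤ μ (E k) := by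
    intro k hk
    have h1 := iter r t p (fun i => (hp i).le) μ hμ.2 k
    conv_rhs => rw [h1]
    rw [Measure.finsetSum_apply]
    calc ENNReal.ofReal (δ / 2 / C) * μ (Icc (-M) M)
        ≤ ENNReal.ofReal (∑ w ∈ good k, ∏ j, p (w j)) * μ (Icc (-M) M) := by
          gcongr; exact hgood k hk
      _ = ∑ w ∈ good k, ENNReal.ofReal (∏ j, p (w j)) * μ (Icc (-M) M) := by
          rw [ENNReal.ofReal_sum_of_nonneg
            (fun w _ => Finset.prod_nonneg fun j _ => (hp _).le), Finset.sum_mul]
      _ ≤ ∑ w ∈ good k, (ENNReal.ofReal (∏ j, p (w j)) •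
            μ.map (affineWordMap r t (List.ofFn w))) (E k) := by
          refine Finset.sum_le_sum fun w hw => ?_
          have hm : Measurable (affineWordMap r t (List.ofFn w)) := by
            rw [word_ofFn]; exact meas_aff _ _
          rw [Measure.smul_apply, smul_eq_mul, Measure.map_apply hm (hEm k)]
          gcongr
          intro x hx
          exact mem_biUnion hw ⟨x, hx, rfl⟩
      _ ≤ _ := Finset.sum_le_sum_of_subset (Finset.subset_univ _)
  let F : ℕ → Set ℝ := fun N => ⋃ k : ℕ, E (N + 1 + k)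
  have hFm : ∀ N, MeasurableSet (F N) := fun N => MeasurableSet.iUnion fun k => hEm _
  have hFa : Antitone F := by
    refine antitone_nat_of_succ_le fun N => ?_
    intro x hx
    obtain ⟨k, hk⟩ := mem_iUnion.1 hx
    refine mem_iUnion.2 ⟨k + 1, ?_⟩
    have : N + 1 + (k + 1) = N + 1 + 1 + k := by ring
    rw [this]; exact hk
  have hpos : 0 < μ (⋂ N, F N) := by
    have ht := tendsto_measure_iInter_atTop (μ := μ) (fun N => (hFm N).nullMeasurableSet) hFa
      ⟨0, measure_ne_top _ _⟩
    have hge : ENNReal.ofReal (δ / 2 / C) * μ (Icc (-M) M) ≤ μ (⋂ N, F N) := by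
      refine ge_of_tendsto' ht fun N => ?_
      refine (hE (N + 1 + 0) (by omega)).trans (measure_mono ?_)
      exact subset_iUnion (fun k => E (N + 1 + k)) 0
    refine lt_of_lt_of_le ?_ hge
    refine ENNReal.mul_pos ?_ hM0.ne'
    simp only [ne_eq, ENNReal.ofReal_eq_zero, not_le]
    positivity
  have hdim : dimH (⋂ N, F N) ≤ s := by
    refine dimH_le_of_hausdorffMeasure_ne_top ?_
    let cov : ∀ _N : ℕ, (Σ k : ℕ, Fin k → ι) → Set ℝ := fun N a =>
      if N < a.1 ∧ a.2 ∈ good a.1 then img a.1 a.2 else ∅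
    have hdiam : ∀ k (w : Fin k → ι),
        Metric.ediam (img k w) ≤ ENNReal.ofReal (2 * M * |∏ j, r (w j)|) := by
      intro k w
      simp only [img]
      rw [word_ofFn]
      exact ediam_img _ _ M hM.le
    have hb := Measure.hausdorffMeasure_le_liminf_tsum (s : ℝ) (⋂ N, F N) (l := atTop)
      (fun N : ℕ => ENNReal.ofReal (2 * M * ρ ^ N)) ?_ cov ?_ ?_
    · refine ne_top_of_le_ne_top ?_ hb
      have hbd : ∀ N, ∑' a, Metric.ediam (cov N a) ^ (s : ℝ)
          ≤ ∑' k : ℕ, ENNReal.ofReal ((2 * M) ^ (s : ℝ) * Real.exp (-(δ / 2)) ^ k) := by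
        intro N
        rw [ENNReal.tsum_sigma']
        refine ENNReal.tsum_le_tsum fun k => ?_
        rw [tsum_fintype]
        have h1 : ∀ w : Fin k → ι, Metric.ediam (cov N ⟨k, w⟩) ^ (s : ℝ) ≤
            ENNReal.ofReal ((2 * M) ^ (s : ℝ) * Real.exp (-(δ / 2)) ^ k * ∏ j, p (w j)) := by
          intro w
          simp only [cov]
          split_ifs with h
          · refine (ENNReal.rpow_le_rpow (hdiam k w) s.coe_nonneg).trans ?_
            rw [ENNReal.ofReal_rpow_of_nonneg (by positivity) s.coe_nonneg]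
            refine ENNReal.ofReal_le_ofReal ?_
            rw [Real.mul_rpow (by positivity) (abs_nonneg _), mul_assoc]
            refine mul_le_mul_of_nonneg_left ?_ (by positivity)
            have h2 : ∑ j, f (w j) ≤ -(δ / 2 * k) := (Finset.mem_filter.1 h.2).2
            have hpos : 0 < |∏ j, r (w j)| :=
              abs_pos.2 (Finset.prod_ne_zero_iff.2 fun j _ => (hr _).1)
            have hpp : 0 < ∏ j, p (w j) := Finset.prod_pos fun j _ => hp _
            rw [Real.rpow_def_of_pos hpos, ← Real.exp_nat_mul, ← Real.exp_log hpp,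
              ← Real.exp_add]
            refine Real.exp_le_exp.2 ?_
            rw [Finset.abs_prod, Real.log_prod (fun j _ => (abs_pos.2 (hr _).1).ne'),
              Real.log_prod (fun j _ => (hp _).ne')]
            simp only [hf, Finset.sum_add_distrib, Finset.sum_neg_distrib, ← Finset.mul_sum] at h2
            have e1 := mul_comm (∑ i, Real.log |r (w i)|) (s : ℝ)
            have e2 : (k : ℝ) * -(δ / 2) = -(δ / 2 * k) := by ring
            rw [e1, e2]
            linarith
          · rw [Metric.ediam_empty, ENNReal.zero_rpow_of_pos (by exact_mod_cast hs)]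
            exact bot_le
        refine (Finset.sum_le_sum fun w _ => h1 w).trans ?_
        rw [← ENNReal.ofReal_sum_of_nonneg, ← Finset.mul_sum, sum_prod_eq p hp₁ k, mul_one]
        intro w _
        have hpp : 0 < ∏ j, p (w j) := Finset.prod_pos fun j _ => hp _
        positivity
      have hsum : Summable fun k : ℕ => (2 * M) ^ (s : ℝ) * Real.exp (-(δ / 2)) ^ k :=
        (summable_geometric_of_lt_one (Real.exp_pos _).le
          (Real.exp_lt_one_iff.2 (by linarith))).mul_left _
      refine ne_top_of_le_ne_top ?_ (liminf_le_of_frequently_le'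
        (Eventually.of_forall hbd).frequently)
      rw [← ENNReal.ofReal_tsum_of_nonneg (fun k => by positivity) hsum]
      exact ENNReal.ofReal_ne_top
    · rw [← ENNReal.ofReal_zero]
      refine ENNReal.tendsto_ofReal ?_
      simpa using (tendsto_pow_atTop_nhds_zero_of_lt_one hρ0 hρ1).const_mul (2 * M)
    · refine Eventually.of_forall fun N a => ?_
      simp only [cov]
      split_ifs with h
      · refine (hdiam _ _).trans (ENNReal.ofReal_le_ofReal ?_)
        refine mul_le_mul_of_nonneg_left ?_ (by positivity)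
        rw [Finset.abs_prod]
        calc ∏ j, |r (a.2 j)| ≤ ∏ _j : Fin a.1, ρ :=
              Finset.prod_le_prod (fun j _ => abs_nonneg _) fun j _ => hρ _
          _ = ρ ^ a.1 := by simp
          _ ≤ ρ ^ N := pow_le_pow_of_le_one hρ0 hρ1.le h.1.le
      · simp
    · refine Eventually.of_forall fun N x hx => ?_
      obtain ⟨k, hk⟩ := mem_iUnion.1 (mem_iInter.1 hx N)
      obtain ⟨w, hw, hxw⟩ := mem_iUnion₂.1 hk
      refine mem_iUnion.2 ⟨⟨N + 1 + k, w⟩, ?_⟩
      simp only [cov]
      rw [if_pos ⟨by omega, hw⟩]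
      exact hxw
  refine le_trans ?_ hdim
  unfold lowerHausdorffDim
  exact iInf_le_of_le (⋂ N, F N) (iInf_le_of_le (MeasurableSet.iInter hFm)
    (iInf_le_of_le hpos le_rfl))


/-- merging equal maps of a system -/
lemma mainB [Fintype ι] (r t p : ι → ℝ)
    (hr : ∀ i, r i ≠ 0 ∧ |r i| < 1) (hp : ∀ i, 0 < p i) (hp₁ : ∑ i, p i = 1)
    (μ : Measure ℝ) (hμ : IsSelfSimilarMeasure r t p μ) (s : ℝ≥0) (hs : 0 < s)
    (hneg : finiteLawEntropy p (fun i => fun x : ℝ => r i * x + t i)
      + s * ∑ i, p i * Real.log |r i| < 0) :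
    lowerHausdorffDim μ ≤ s := by
  classical
  let g : ι → ℝ × ℝ := fun i => (r i, t i)
  let J := {j // j ∈ Finset.univ.image g}
  letI : Fintype J := Finset.fintypeCoeSort _
  let g' : ι → J := fun i => ⟨g i, Finset.mem_image_of_mem _ (Finset.mem_univ i)⟩
  have hsurj : ∀ j : J, ∃ i, g' i = j := by
    intro j
    obtain ⟨i, -, hi⟩ := Finset.mem_image.1 j.2
    exact ⟨i, Subtype.ext hi⟩
  let q : J → ℝ := fun j => ∑ i ∈ Finset.univ.filter (fun i => g' i = j), p i
  have hfib : ∀ {M : Type} [AddCommMonoid M] (F : ι → M),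
      ∑ j : J, ∑ i ∈ Finset.univ.filter (fun i => g' i = j), F i = ∑ i, F i :=
    fun F => Finset.sum_fiberwise _ _ _
  have hq : ∀ j, 0 < q j := by
    intro j
    obtain ⟨i, hi⟩ := hsurj j
    exact Finset.sum_pos (fun i _ => hp i) ⟨i, Finset.mem_filter.2 ⟨Finset.mem_univ _, hi⟩⟩
  refine mainA (fun j : J => j.1.1) (fun j : J => j.1.2) q ?_ hq (by rw [hfib, hp₁]) μ
    ⟨hμ.1, ?_⟩ s hs ?_
  · intro j
    obtain ⟨i, rfl⟩ := hsurj j
    exact hr i
  · conv_lhs => rw [hμ.2]
    rw [← hfib]
    refine Finset.sum_congr rfl fun j _ => ?_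
    simp only [q]
    rw [ENNReal.ofReal_sum_of_nonneg (fun i _ => (hp i).le), Finset.sum_smul]
    refine Finset.sum_congr rfl fun i hi => ?_
    rw [← (Finset.mem_filter.1 hi).2]
  · refine lt_of_eq_of_lt ?_ hneg
    unfold finiteLawEntropy
    rw [Finset.mul_sum, ← Finset.sum_neg_distrib, ← Finset.sum_add_distrib, ← hfib]
    refine Finset.sum_congr rfl fun j _ => ?_
    simp only [q]
    rw [Finset.sum_mul]
    refine Finset.sum_congr rfl fun i hi => ?_
    have hij := (Finset.mem_filter.1 hi).2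
    have h1 : ∑ a', ({b : ι | (fun x : ℝ => r b * x + t b) = fun x : ℝ => r i * x + t i} :
        Set ι).indicator p a' = ∑ i ∈ Finset.univ.filter (fun i => g' i = j), p i := by
      rw [Finset.sum_filter]
      refine Finset.sum_congr rfl fun b _ => ?_
      have : b ∈ ({b : ι | (fun x : ℝ => r b * x + t b) = fun x : ℝ => r i * x + t i} : Set ι)
          ↔ g' b = j := by
        rw [← hij]
        constructor
        · intro h
          have h0 := congrFun h 0
          have h1 := congrFun h 1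
          simp only [mul_zero, zero_add, mul_one] at h0 h1
          refine Subtype.ext (Prod.ext ?_ h0)
          show r b = r i
          linarith
        · intro h
          have h2 : g b = g i := congrArg Subtype.val h
          have h3 : r b = r i := congrArg Prod.fst h2
          have h4 : t b = t i := congrArg Prod.snd h2
          show (fun x : ℝ => r b * x + t b) = fun x : ℝ => r i * x + t i
          rw [h3, h4]
      by_cases hb : g' b = j
      · rw [if_pos hb, Set.indicator_of_mem (this.2 hb)]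
      · rw [if_neg hb, Set.indicator_of_notMem (fun h => hb (this.1 h))]
    rw [h1, ← hij]
    ring

lemma lyap_pos [Fintype ι] [Nonempty ι] (r p : ι → ℝ)
    (hr : ∀ i, r i ≠ 0 ∧ |r i| < 1) (hp : ∀ i, 0 < p i) : 0 < lyapunovExp r p := by
  unfold lyapunovExp
  rw [← Finset.sum_neg_distrib]
  refine Finset.sum_pos (fun i _ => ?_) Finset.univ_nonempty
  have := Real.log_neg (abs_pos.2 (hr i).1) (hr i).2
  have := hp i
  nlinarith

/-- The upper half of S0129. -/
theorem upper [Fintype ι] [Nonempty ι] (r t p : ι → ℝ)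
    (hr : ∀ i, r i ≠ 0 ∧ |r i| < 1) (hp : ∀ i, 0 < p i) (hp₁ : ∑ i, p i = 1)
    (μ : Measure ℝ) (hμ : IsSelfSimilarMeasure r t p μ) :
    lowerHausdorffDim μ ≤ ENNReal.ofReal (min 1 (rwEntropyRate r t p / lyapunovExp r p)) := by
  classical
  have := hμ.1
  rw [ENNReal.ofReal_min]
  refine le_min ?_ ?_
  · rw [ENNReal.ofReal_one, ← Real.dimH_univ]
    unfold lowerHausdorffDim
    exact iInf_le_of_le univ (iInf_le_of_le MeasurableSet.univ
      (iInf_le_of_le (by simp) le_rfl))
  · refine le_of_forall_gt_imp_ge_of_dense fun a ha => ?_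
    induction a with
    | top => exact le_top
    | coe s =>
      have hs : 0 < s := by
        have : (0 : ℝ≥0∞) < s := lt_of_le_of_lt bot_le ha
        exact_mod_cast this
      have hχ := lyap_pos r p hr hp
      have h1 : rwEntropyRate r t p / lyapunovExp r p < s := by
        rw [← ENNReal.ofReal_coe_nnreal] at ha
        exact (ENNReal.ofReal_lt_ofReal_iff (by exact_mod_cast hs)).1 ha
      rw [div_lt_iff₀ hχ] at h1
      obtain ⟨m, hm⟩ := exists_lt_of_ciInf_lt h1
      rw [div_lt_iff₀ (by positivity)] at hm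
      refine mainB (ι := Fin (m + 1) → ι) (fun w => ∏ j, r (w j))
        (fun w => trW r t (List.ofFn w)) (fun w => ∏ j, p (w j)) (fun w => ⟨?_, ?_⟩)
        (fun w => Finset.prod_pos fun j _ => hp _) (sum_prod_eq p hp₁ _) μ ⟨hμ.1, ?_⟩ s hs ?_
      · exact Finset.prod_ne_zero_iff.2 fun j _ => (hr _).1
      · rw [Finset.abs_prod, Fin.prod_univ_succ]
        have h2 : ∏ j : Fin m, |r (w j.succ)| ≤ 1 :=
          Finset.prod_le_one (fun j _ => abs_nonneg _) fun j _ => (hr _).2.le
        have h3 := (hr (w 0)).2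
        have h4 := abs_nonneg (r (w 0))
        nlinarith
      · have := iter r t p (fun i => (hp i).le) μ hμ.2 (m + 1)
        simpa only [word_ofFn] using this
      · have h2 : ∑ w : Fin (m + 1) → ι, (∏ j, p (w j)) * Real.log |∏ j, r (w j)|
            = ((m + 1 : ℕ) : ℝ) * ∑ i, p i * Real.log |r i| := by
          rw [← exp_sum p (fun i => Real.log |r i|) hp₁]
          refine Finset.sum_congr rfl fun w _ => ?_
          rw [Finset.abs_prod, Real.log_prod (fun j _ => (abs_pos.2 (hr _).1).ne')]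
        rw [h2]
        unfold composedMapEntropy at hm
        simp only [word_ofFn] at hm
        unfold lyapunovExp at hm
        push_cast
        linarith

end Crest.Agent.R98.Up
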