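import Crest.Agent.R98.Dec
import Crest.Agent.R98.Upper

/-! # R98 UP: covering upper bound (task 98-UP) -/

set_option autoImplicit false

open MeasureTheory

namespace Crest.Agent.R98

/-- `Ω = ↥(sp Q)`, `q ω = Q.coeff ω > 0`, `Q = ∑ ω, q ω • dl ω` (`eq_mix`), `pow_dl_words`,
`St.pow`.  `X ω = s log |ω.a| - log (q ω)` has mean `Ent Q - s lyap Q < 0`; a word `w` is good if
`∑ X (w j) < 0`, i.e. `|r_w|^s ≤ pW q w`; bad words have mass `≤ C/n` (`wlln`, `ε = -mean`).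
`A n = ⋃_{good w} g_w '' Icc (-R) R` is compact with `μ.real (A n) ≥ 1 - C/n`;
`E = ⋂ⱼ A (K 2^j)` with `K > 2C`, `K ≥ 1` has `μ E > 0`; `Measure.hausdorffMeasure_le_liminf_sum`
gives `μH[s] E ≤ (2R)^s < ∞` (diameters `≤ 2R λ^n → 0`), and
`dimH_le_of_hausdorffMeasure_ne_top`. -/
theorem upper {μ : Measure ℝ} (hμ : BP μ) {Q : MA Aff} (hQ : IsP Q) (hS : St μ Q)
    (ha : ∀ g ∈ sp Q, g.a ≠ 0 ∧ |g.a| < 1) {s : ℝ} (hs0 : 0 < s) (hs : Ent Q < s * lyap Q) :
    ∃ E : Set ℝ, MeasurableSet E ∧ 0 < μ E ∧ dimH E ≤ ENNReal.ofReal s := by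
  have := hμ.prob
  obtain ⟨s', h1, h2, h3⟩ : ∃ s' : ℝ, Ent Q < s' * lyap Q ∧ 0 < s' ∧ s' < s := by
    have e1 : ∀ᶠ t in nhds s, Ent Q < t * lyap Q :=
      (continuous_const.continuousAt).eventually_lt (continuous_mul_const _).continuousAt hs
    have e2 : ∀ᶠ t in nhds s, 0 < t := lt_mem_nhds hs0
    have e3 : ∀ᶠ t in nhdsWithin s (Set.Iio s), t < s := self_mem_nhdsWithin
    obtain ⟨t, ht⟩ := (((e1.and e2).filter_mono nhdsWithin_le_nhds).and e3).exists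
    exact ⟨t, ht.1.1, ht.1.2, ht.2⟩
  have key : Crest.AnalysisR.lowerHausdorffDim μ ≤ ((NNReal.mk s' h2.le : NNReal) : ENNReal) := by
    refine Up.mainA (ι := ↥(sp Q)) (fun g => g.1.a) (fun g => g.1.b) (fun g => Q.coeff g.1)
      (fun g => ha g.1 g.2) (fun g => hQ.pos g.2) ?_ μ ⟨hμ.prob, ?_⟩ (NNReal.mk s' h2.le) h2 ?_
    · rw [Finset.sum_coe_sort (sp Q) (fun g => Q.coeff g)]
      exact hQ.sum
    · ext A hA
      rw [Measure.finsetSum_apply, ← ofReal_measureReal (μ := μ) (s := A), hS A hA, ex_eq_sum',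
        ENNReal.ofReal_sum_of_nonneg (fun g _ => mul_nonneg (hQ.nn g) measureReal_nonneg),
        ← Finset.sum_coe_sort (sp Q)]
      refine Finset.sum_congr rfl fun g _ => ?_
      rw [Measure.smul_apply, smul_eq_mul, Measure.map_apply (Up.meas_aff _ _) hA,
        ENNReal.ofReal_mul (hQ.nn _), ofReal_measureReal]
      rfl
    · rw [NNReal.coe_mk, Finset.sum_coe_sort (sp Q)
        (fun g => Q.coeff g * (-Real.log (Q.coeff g) + s' * Real.log |g.a|))]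
      rw [Ent_eq_sum, lyap, ex_eq_sum', Finset.mul_sum, ← sub_neg, ← Finset.sum_sub_distrib] at h1
      refine lt_of_eq_of_lt (Finset.sum_congr rfl fun g _ => ?_) h1
      rw [Real.negMulLog]
      ring
  have hlt : Crest.AnalysisR.lowerHausdorffDim μ < ENNReal.ofReal s := by
    refine key.trans_lt ?_
    rw [← ENNReal.ofReal_coe_nnreal]
    exact (ENNReal.ofReal_lt_ofReal_iff hs0).2 h3
  unfold Crest.AnalysisR.lowerHausdorffDim at hlt
  simp only [iInf_lt_iff] at hlt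
  obtain ⟨E, hE, hpos, hd⟩ := hlt
  exact ⟨E, hE, hpos, hd.le⟩

end Crest.Agent.R98
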