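import Crest.Agent.R98.Main
import Crest.Agent.R98.LQ
import Crest.Agent.R98.FR
import Crest.Agent.R98.UP
import Crest.Agent.R98.Br

/-! # R98: assembly for a general random affine map -/

set_option autoImplicit false

open MeasureTheory

namespace Crest.Agent.R98

theorem exists_log_lt (m : ℕ) {c : ℝ} (hc : 0 < c) :
    ∃ N : ℕ, 1 ≤ N ∧ m * Real.log (N + 1) < c * N := by
  have hc' : 0 < c / (4 * (m + 1)) := by positivity
  obtain ⟨x₀, hx₀⟩ := Filter.eventually_atTop.1 (Real.isLittleO_log_id_atTop.bound hc')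
  refine ⟨⌈x₀⌉₊ + 1, by omega, ?_⟩
  set N : ℕ := ⌈x₀⌉₊ + 1 with hN
  have hN1 : (1 : ℝ) ≤ N := by exact_mod_cast (show 1 ≤ N by omega)
  have hx : x₀ ≤ (N : ℝ) + 1 := by
    have := Nat.le_ceil x₀
    rw [hN]
    push_cast
    linarith
  have h1 := hx₀ _ hx
  simp only [id, Real.norm_eq_abs] at h1
  rw [abs_of_pos (by linarith : (0 : ℝ) < N + 1)] at h1
  have h2 : Real.log (N + 1) ≤ c / (4 * (m + 1)) * (2 * N) :=
    (le_abs_self _).trans (h1.trans (mul_le_mul_of_nonneg_left (by linarith) hc'.le))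
  have hm : (0 : ℝ) ≤ m := Nat.cast_nonneg m
  have h3 : (m : ℝ) * (c / (4 * (m + 1)) * (2 * N)) ≤ c * N / 2 := by
    have e : c / (4 * (m + 1)) * (2 * N) = c * N / 2 / (m + 1) := by
      field_simp
      ring
    rw [e, mul_div_assoc', div_le_iff₀ (by positivity)]
    have : 0 ≤ c * N / 2 := by positivity
    nlinarith
  have h4 := mul_le_mul_of_nonneg_left h2 hm
  have : 0 < c * N := by positivity
  linarith

theorem entropy_lower {μ : Measure ℝ} [IsProbabilityMeasure μ] {P : MA Aff} (hP : IsP P)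
    (hS : St μ P) {l : ℝ} (hl : 0 < l) (ha : ∀ g ∈ sp P, l ≤ |g.a| ∧ |g.a| < 1) {h α : ℝ}
    (hh : ∀ n : ℕ, h * n ≤ Ent (P ^ n)) (hα0 : 0 ≤ α) (hα1 : α < 1) (hχ : α * lyap P < h)
    (L₀ : ℝ) : ∃ L, L₀ ≤ L ∧ α * Real.log L < hm μ L := by
  obtain ⟨N, hN, hlog⟩ := exists_log_lt (sp P).card (c := h - α * lyap P) (by linarith)
  have ha0 : ∀ g ∈ sp P, g.a ≠ 0 := fun g hg => abs_pos.1 (hl.trans_le (ha g hg).1)
  have hQ : IsP (P ^ N) := hP.pow N
  have hb := mem_sp_pow_bounds hl ha hN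
  obtain ⟨q, τ, hq0, hq1, hτ, hcard, hQe⟩ := exists_types hQ
  have hω : ∀ ω : ↥((sp (P ^ N)).image Aff.a), l ^ N ≤ |(ω : ℝ)| ∧ |(ω : ℝ)| < 1 := fun ω => by
    obtain ⟨g, hg, e⟩ := Finset.mem_image.1 ω.2
    rw [← e]
    exact hb g hg
  have hR : RI μ q (fun ω => (ω : ℝ)) τ (l ^ N) (sp (P ^ N)).card :=
    { bp := hS.bp hP fun g hg => (ha g hg).2
      q_nn := hq0
      q_sum := hq1
      l_pos := by positivity
      l_le := fun ω => (hω ω).1
      lt_one := fun ω => (hω ω).2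
      isP := hτ
      card := hcard
      stat := hQe ▸ hS.pow N
      dec := (hS.pow N).decH hQ (by positivity) hb }
  have hly : ∑ ω, q ω * -Real.log |(ω : ℝ)| = N * lyap P := by
    rw [← lyap_pow hP ha0 N]
    conv_rhs => rw [hQe]
    rw [lyap, ex_mix]
    refine Finset.sum_congr rfl fun ω _ => ?_
    rw [ex_emb]
    simp only [(hτ ω).ex_const, smul_eq_mul]
  have hc : Real.log (Fintype.card ↥((sp (P ^ N)).image Aff.a)) ≤
      (sp P).card * Real.log (N + 1) := by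
    rw [← Real.log_pow, Fintype.card_coe]
    have hne : 0 < ((sp (P ^ N)).image Aff.a).card := by
      rw [Finset.card_pos, Finset.image_nonempty]
      by_contra hne
      rw [Finset.not_nonempty_iff_eq_empty] at hne
      have := hQ.sum
      rw [hne] at this
      simp at this
    refine Real.log_le_log (by exact_mod_cast hne) ?_
    exact_mod_cast card_ratio_pow_le P N
  refine main hR (h' := h * N - Real.log (Fintype.card ↥((sp (P ^ N)).image Aff.a))) hα0 hα1 ?_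
    (fun n => ?_) L₀
  · rw [hly]
    nlinarith
  · have h1 := Ent_pow_le hq0 hq1 (fun ω => (ω : ℝ)) hτ n
    rw [← hQe, ← pow_mul] at h1
    have h2 := hh (N * n)
    push_cast at h2
    nlinarith

theorem dim_lower {μ : Measure ℝ} [IsProbabilityMeasure μ] {P : MA Aff} (hP : IsP P)
    (hS : St μ P) {l : ℝ} (hl : 0 < l) (hl1 : l ≤ 1) (ha : ∀ g ∈ sp P, l ≤ |g.a| ∧ |g.a| < 1)
    {h : ℝ} (hh : ∀ n : ℕ, h * n ≤ Ent (P ^ n)) (hχ : 0 < lyap P) {E : Set ℝ}
    (hE : MeasurableSet E) (hpos : 0 < μ E) :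
    ENNReal.ofReal (min 1 (h / lyap P)) ≤ dimH E := by
  refine le_of_forall_lt_imp_le_of_dense fun c hc => ?_
  have hc' : c ≠ ⊤ := ne_top_of_lt hc
  rw [← ENNReal.ofReal_toReal hc'] at hc ⊢
  set s' := c.toReal
  rcases le_or_gt s' 0 with h0 | h0
  · rw [ENNReal.ofReal_of_nonpos h0]
    exact bot_le
  have h1 : s' < min 1 (h / lyap P) := (ENNReal.ofReal_lt_ofReal_iff_of_nonneg h0.le).1 hc
  obtain ⟨α, hα1, hα2⟩ := exists_between h1
  obtain ⟨s, hs1, hs2⟩ := exists_between hα1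
  have hbp : BP μ := hS.bp hP fun g hg => (ha g hg).2
  have hα3 : α * lyap P < h := (lt_div_iff₀ hχ).1 (hα2.trans_le (min_le_right _ _))
  obtain ⟨θ, C, hθ, hθ1, hM⟩ := lq hbp hl hl1 (hS.decH hP hl ha) (s := s) (by linarith) hs2
    fun L₀ => by
      obtain ⟨L, h1, h2⟩ := entropy_lower hP hS hl ha hh (α := α) (by linarith)
        (hα2.trans_le (min_le_left _ _)) hα3 L₀
      exact ⟨L, h1, h2.le⟩
  exact frostman hbp hθ hθ1 h0 hs1 hM hE hpos

end Crest.Agent.R98
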