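import Crest.Agent.R98.Conc
import Crest.Agent.R98.Disc

/-! # R98 GAIN: entropy gain from variance; deficiency scales (task 98-GAIN) -/

set_option autoImplicit false

open MeasureTheory

namespace Crest.Agent.R98

/-- Let `f = sm m bx`, `T = ⌈N'²/v⌉₊ ≤ T₀ := N'²/v₀ + 1`, so `N'² ≤ T v ≤ 2 N'²`.  Then
`log N' - 6 ≤ Dn N' (st (R^T) bx) ≤ Dn N' (st (R^T) f)` (`Pv.pow`, `Pv.big`, `st_sm`, `Dn_sm`), so
`En (st (R^T) f) - En f ≥ 1` (`En_st_ge`, `st_comm`) and `En (st R f) - En f ≥ 1/T₀` (`J_pow`).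
Moreover `En (st R (st (uN N) f)) - En (st (uN N) f) ≤ h1 (sc N⁻¹ R) ≤ 2τ + (v₀+1)/(2τ N²)`
(`st_sm`, `J_sm`, `En_st_uN`, `En_uN`, `h1_le_var`, `Var_sc`), which is `≤ 1/(2T₀)` for
`τ = 1/(8T₀)`, `N ≥ 4 T₀ (v₀ + 1)`.  Take `g = 1/(2T₀)`. -/
theorem gain {v₀ : ℝ} (hv₀ : 0 < v₀) {N' : ℕ} (hN' : v₀ + 1 ≤ (N' : ℝ) ^ 2) :
    ∃ g : ℝ, 0 < g ∧ ∃ N : ℕ, 1 ≤ N ∧ ∀ m : Measure ℝ, BP m →
      Dn N' (sm m bx) ≤ Real.log N' - 7 → ∀ (v : ℝ) (R : FM), Pv v R → v₀ ≤ v → v ≤ v₀ + 1 →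
        Dn N (sm m bx) + g ≤ Dn N (st R (sm m bx)) := by
  have hN1 : 1 ≤ N' := by
    rcases Nat.eq_zero_or_pos N' with rfl | h
    · norm_num at hN'; linarith
    · exact h
  set T₀ : ℝ := (N' : ℝ) ^ 2 / v₀ + 1 with hT₀
  have hT0 : 0 < T₀ := by positivity
  have hT1 : 1 ≤ T₀ := by
    have : 0 ≤ (N' : ℝ) ^ 2 / v₀ := by positivity
    linarith
  set N : ℕ := ⌈4 * T₀ * (v₀ + 1)⌉₊ with hNdef
  have hN4 : 4 * T₀ * (v₀ + 1) ≤ N := Nat.le_ceil _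
  have hNpos : (0 : ℝ) < N := lt_of_lt_of_le (by positivity) hN4
  have hN : 1 ≤ N := by exact_mod_cast hNpos
  refine ⟨1 / (2 * T₀), by positivity, N, hN, fun m hm hD v R hR hv hv' => ?_⟩
  have hv0 : 0 < v := by linarith
  set f := sm m bx with hf
  have hfd : Den f := den_bx.sm hm
  set T : ℕ := ⌈(N' : ℝ) ^ 2 / v⌉₊ with hT
  have hTa : (N' : ℝ) ^ 2 ≤ T * v := by
    have : (N' : ℝ) ^ 2 / v ≤ T := Nat.le_ceil _
    rwa [div_le_iff₀ hv0] at this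
  have hTb : (T : ℝ) < (N' : ℝ) ^ 2 / v + 1 := Nat.ceil_lt_add_one (by positivity)
  have hTc : T * v ≤ 2 * (N' : ℝ) ^ 2 := by
    have : (T : ℝ) * v ≤ ((N' : ℝ) ^ 2 / v + 1) * v := by gcongr
    rw [add_mul, div_mul_cancel₀ _ hv0.ne'] at this
    linarith
  have hTd : (T : ℝ) ≤ T₀ := by
    have : (N' : ℝ) ^ 2 / v ≤ (N' : ℝ) ^ 2 / v₀ := by gcongr
    linarith
  have hRT := hR.isP.pow T
  have a1 := (hR.pow T).big hN1 hTa hTc
  have a2 := Dn_sm hN1 (den_bx.st hRT) hm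
  rw [← st_sm den_bx hm, ← hf] at a2
  have a3 := En_st_ge (hfd.st (isP_uN hN1)) hRT
  rw [st_comm] at a3
  have a4 := J_pow hfd hR.isP T
  have a5 := En_st_ge hfd hR.isP
  have a6 : 1 ≤ T₀ * (En (st R f) - En f) := by
    have : (T : ℝ) * (En (st R f) - En f) ≤ T₀ * (En (st R f) - En f) := by
      gcongr
    unfold Dn at a1 a2 hD
    linarith
  have a7 : 1 / T₀ ≤ En (st R f) - En f := by
    rw [div_le_iff₀ hT0]; linarith
  have b1 := J_sm (den_bx.st (isP_uN hN)) hm hR.isP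
  rw [← st_sm den_bx hm, ← hf, st_comm R, st_comm R, En_st_uN hN hR.isP, En_uN hN] at b1
  have b2 := h1_le_var (hR.isP.sc (N : ℝ)⁻¹) (τ := 1 / (8 * T₀)) (by positivity)
  rw [Var_sc, hR.var] at b2
  have b3 : ((N : ℝ)⁻¹) ^ 2 * v / (2 * (1 / (8 * T₀))) ≤ 1 / (4 * T₀) := by
    have e : ((N : ℝ)⁻¹) ^ 2 * v / (2 * (1 / (8 * T₀))) = 4 * T₀ * v / (N : ℝ) ^ 2 := by
      field_simp; ring
    rw [e, div_le_div_iff₀ (by positivity) (by positivity)]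
    have : (4 * T₀ * (v₀ + 1)) ^ 2 ≤ (N : ℝ) ^ 2 := by gcongr
    have h2 : v ≤ (v₀ + 1) ^ 2 := by nlinarith
    calc 4 * T₀ * v * (4 * T₀) = (4 * T₀) ^ 2 * v := by ring
      _ ≤ (4 * T₀) ^ 2 * (v₀ + 1) ^ 2 := by gcongr
      _ = (4 * T₀ * (v₀ + 1)) ^ 2 := by ring
      _ ≤ _ := by linarith
  have e1 : 2 * (1 / (8 * T₀)) = 1 / (4 * T₀) := by field_simp; ring
  have e2 : 1 / T₀ = 4 * (1 / (4 * T₀)) := by field_simp
  have e3 : 1 / (2 * T₀) = 2 * (1 / (4 * T₀)) := by field_simp; ring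
  unfold Dn
  linarith

/-- Deficiency scales.  `β = (1 + α)/2`, `N₀ ≥ 2` with `(1-β) log N₀ ≥ 7 + log 2 + log (1 + 1/l)`.
WLOG `S₀ ≥ max L₀ 1`.  If `hm (S₀ N'^{i+1}) - hm (S₀ N'^i) > β log N'` for all `i` then
`K β log N' ≤ hm (S₀ N'^K) ≤ α (log S₀ + K log N')` for all `K`, impossible.  Take
`S = S₀ N'^{i+1}`; for `l S < |Λ| ≤ S`, `Dn_fm` and `hm_cmp` twice. -/
theorem deficiency {μ : Measure ℝ} (hμ : BP μ) {l α : ℝ} (hl : 0 < l) (hα : α < 1)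
    (hm' : ∃ L₀ : ℝ, ∀ L, L₀ ≤ L → hm μ L ≤ α * Real.log L) :
    ∃ N₀ : ℕ, ∀ N' : ℕ, N₀ ≤ N' → ∀ S₀ : ℝ, ∃ S : ℝ, S₀ ≤ S ∧ 0 < S ∧
      ∀ Λ : ℝ, l * S < |Λ| → |Λ| ≤ S → Dn N' (fm μ Λ) ≤ Real.log N' - 7 := by
  obtain ⟨L₀, hL₀⟩ := hm'
  set c : ℝ := 7 + Real.log 2 + Real.log (1 + 1 / l) with hc
  set β : ℝ := (1 + α) / 2 with hβ
  have hβ1 : 0 < 1 - β := by rw [hβ]; linarith
  have hβ2 : 0 < β - α := by rw [hβ]; linarith
  refine ⟨⌈Real.exp (c / (1 - β))⌉₊ + 2, fun N' hN' S₀ => ?_⟩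
  have hN2 : (2 : ℝ) ≤ N' := by
    have : 2 ≤ N' := by omega
    exact_mod_cast this
  have hNe : Real.exp (c / (1 - β)) ≤ N' := by
    have : ⌈Real.exp (c / (1 - β))⌉₊ ≤ N' := by omega
    exact le_trans (Nat.le_ceil _) (by exact_mod_cast this)
  have hlog : c ≤ (1 - β) * Real.log N' := by
    have := (Real.le_log_iff_exp_le (by linarith)).2 hNe
    rw [div_le_iff₀ hβ1] at this
    linarith
  have hlp : 0 < Real.log N' := Real.log_pos (by linarith)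
  set S₁ : ℝ := max (max S₀ L₀) 1 with hS₁
  have hS1 : 1 ≤ S₁ := le_max_right _ _
  have hS0 : S₀ ≤ S₁ := le_trans (le_max_left _ _) (le_max_left _ _)
  have hSL : L₀ ≤ S₁ := le_trans (le_max_right _ _) (le_max_left _ _)
  have hpw : ∀ K : ℕ, S₁ ≤ S₁ * (N' : ℝ) ^ K := fun K =>
    le_mul_of_one_le_right (by linarith) (one_le_pow₀ (by linarith))
  obtain ⟨i, hi⟩ : ∃ i : ℕ, hm μ (S₁ * (N' : ℝ) ^ (i + 1)) - hm μ (S₁ * (N' : ℝ) ^ i) ≤
      β * Real.log N' := by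
    by_contra hcon
    push Not at hcon
    have h1 : ∀ K : ℕ, K * (β * Real.log N') ≤ hm μ (S₁ * (N' : ℝ) ^ K) := by
      intro K
      induction K with
      | zero => simpa using hμ.hm_nonneg _
      | succ K ih => have := hcon K; push_cast; linarith
    obtain ⟨K, hK⟩ := exists_nat_gt (α * Real.log S₁ / ((β - α) * Real.log N'))
    rw [div_lt_iff₀ (by positivity)] at hK
    have h2 := hL₀ _ (hSL.trans (hpw K))
    rw [Real.log_mul (by linarith) (by positivity), Real.log_pow] at h2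
    have := h1 K
    nlinarith
  set S : ℝ := S₁ * (N' : ℝ) ^ (i + 1) with hS
  have hSp : 0 < S := by positivity
  refine ⟨S, hS0.trans (hpw _), hSp, fun Λ h1 h2 => ?_⟩
  have hΛ : 0 < |Λ| := lt_trans (by positivity) h1
  have hΛ0 : Λ ≠ 0 := abs_pos.1 hΛ
  rw [Dn_fm (by exact_mod_cast (by linarith : (1 : ℝ) ≤ N')) hμ]
  have a1 := hm_cmp hμ Λ hSp.ne'
  have a2 := hm_cmp hμ (S₁ * (N' : ℝ) ^ i) (Λ' := Λ / N') (by positivity)
  have a3 : Real.log (1 + |Λ| / |S|) ≤ Real.log 2 := by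
    refine Real.log_le_log (by positivity) ?_
    rw [abs_of_pos hSp]
    have : |Λ| / S ≤ 1 := (div_le_one hSp).2 h2
    linarith
  have a4 : Real.log (1 + |S₁ * (N' : ℝ) ^ i| / |Λ / N'|) ≤ Real.log (1 + 1 / l) := by
    refine Real.log_le_log (by positivity) ?_
    have e : |S₁ * (N' : ℝ) ^ i| / |Λ / N'| = S / |Λ| := by
      rw [abs_div, abs_of_pos (by positivity : 0 < S₁ * (N' : ℝ) ^ i),
        abs_of_pos (by positivity : (0 : ℝ) < N'), hS]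
      field_simp
      ring
    rw [e]
    have : S / |Λ| ≤ 1 / l := by
      rw [div_le_div_iff₀ hΛ hl]; linarith
    linarith
  linarith

/-- `tauW^T` is a product of `n` scaled factors `(τ ω)^T` (`mul_pow`, `map_pow`, `sc_sc`); induction
on `n` (generalizing `c`) with `h1_mul_le`, `h1_le_Ent`, `Ent_le_log`, `card_pow_le`
(`card (sp (sc c ν)) ≤ card (sp ν)`). -/
theorem h1_tauW_pow {Ω : Type*} (lam : Ω → ℝ) {τ : Ω → FM} (hτ : ∀ ω, IsP (τ ω)) {m : ℕ}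
    (hm : ∀ ω, (sp (τ ω)).card ≤ m) (n : ℕ) (w : Fin n → Ω) (T : ℕ) (c : ℝ) :
    h1 (sc c (tauW lam τ n w ^ T)) ≤ n * m * Real.log (T + 1) := by
  have hP : ∀ (n : ℕ) (w : Fin n → Ω), IsP (tauW lam τ n w) := by
    intro n
    induction n with
    | zero => intro w; exact isP_one
    | succ n ih => intro w; exact (hτ _).mul ((ih _).sc _)
  induction n generalizing c with
  | zero =>
    simp only [tauW, one_pow, map_one, h1, st_one, En_bx]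
    simp
  | succ n ih =>
    classical
    have e : sc c (tauW lam τ (n + 1) w ^ T) =
        sc c (τ (w 0) ^ T) * sc (c * lam (w 0)) (tauW lam τ n (Fin.tail w) ^ T) := by
      rw [tauW, mul_pow, map_mul, ← map_pow (sc (lam (w 0))), sc_sc]
    have p1 := ((hτ (w 0)).pow T).sc c
    have a1 := h1_mul_le p1 (((hP n (Fin.tail w)).pow T).sc (c * lam (w 0)))
    have a2 := ih (Fin.tail w) (c * lam (w 0))
    have a3 : (sp (sc c (τ (w 0) ^ T))).card ≤ (T + 1) ^ m := by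
      calc (sp (sc c (τ (w 0) ^ T))).card
          ≤ ((sp (τ (w 0) ^ T)).image fun x => c * x).card :=
            Finset.card_le_card fun z hz => by
              obtain ⟨x, hx, rfl⟩ := mem_sp_sc hz
              exact Finset.mem_image_of_mem _ hx
        _ ≤ (sp (τ (w 0) ^ T)).card := Finset.card_image_le
        _ ≤ (T + 1) ^ (sp (τ (w 0))).card := card_pow_le _ _
        _ ≤ (T + 1) ^ m := Nat.pow_le_pow_right (Nat.succ_pos T) (hm _)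
    have a4 := Ent_le_log p1 (M := ((T : ℝ) + 1) ^ m) (by exact_mod_cast a3)
    rw [Real.log_pow] at a4
    have a5 := h1_le_Ent p1
    rw [e]
    push_cast
    linarith

end Crest.Agent.R98
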