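import Crest.Agent.R98.Dec
import Crest.Agent.R98.Scal

/-! # R98 LQ0: basic `L^{1+θ}` estimates (task 98-LQ, first file) -/

set_option autoImplicit false

open MeasureTheory

namespace Crest.Agent.R98

theorem LQ_rpow_le {f : ℝ → ℝ} (hf : Den f) {θ : ℝ} (hθ : 0 ≤ θ) (y : ℝ) : f y ^ (1 + θ) ≤ f y :=
  Real.rpow_le_self_of_le_one (hf.nn y) (hf.le1 y) (by linarith)

theorem LQ_int {f : ℝ → ℝ} (hf : Den f) {θ : ℝ} (hθ : 0 ≤ θ) :
    Integrable fun y => f y ^ (1 + θ) :=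
  hf.integrable.mono' (hf.meas.pow_const _).aestronglyMeasurable
    (Filter.Eventually.of_forall fun y => by
      rw [Real.norm_of_nonneg (Real.rpow_nonneg (hf.nn y) _)]
      exact LQ_rpow_le hf hθ y)

theorem LQ_point {t θ : ℝ} (h0 : 0 ≤ t) (h1 : t ≤ 1) (hθ : 0 ≤ θ) :
    t ^ (1 + θ) ≤ t - θ * Real.negMulLog t + θ ^ 2 := by
  rcases h0.eq_or_lt with rfl | h0
  · rw [Real.zero_rpow (by linarith)]
    simp only [Real.negMulLog_zero]
    nlinarith [sq_nonneg θ]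
  obtain ⟨u, hu, rfl⟩ : ∃ u, 0 ≤ u ∧ t = Real.exp (-u) :=
    ⟨-Real.log t, by linarith [Real.log_nonpos h0.le h1], by rw [neg_neg, Real.exp_log h0]⟩
  have e1 : ∀ x : ℝ, 0 ≤ x → Real.exp (-x) ≤ 1 - x + x ^ 2 / 2 := by
    intro x hx
    have h2 := Real.quadratic_le_exp_of_nonneg hx
    have h3 : 0 < 1 - x + x ^ 2 / 2 := by nlinarith [sq_nonneg (x - 1)]
    rw [Real.exp_neg, inv_eq_one_div, div_le_iff₀ (Real.exp_pos x)]
    nlinarith [mul_le_mul_of_nonneg_left h2 h3.le, sq_nonneg (x ^ 2)]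
  have e2 : Real.exp (-u) * u ^ 2 ≤ 2 := by
    have h2 := Real.quadratic_le_exp_of_nonneg hu
    rw [Real.exp_neg, inv_mul_le_iff₀ (Real.exp_pos u)]
    nlinarith
  rw [← Real.exp_mul, show -u * (1 + θ) = -u + -(θ * u) by ring, Real.exp_add, Real.negMulLog,
    Real.log_exp]
  have e3 := mul_le_mul_of_nonneg_left (e1 (θ * u) (mul_nonneg hθ hu)) h0.le
  nlinarith [mul_le_mul_of_nonneg_left e2 (sq_nonneg θ)]

theorem LQ_young {a b θ : ℝ} (ha : 0 ≤ a) (hb : 0 ≤ b) (hθ : 0 < θ) :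
    a * b ^ θ ≤ a ^ (1 + θ) + θ * b ^ (1 + θ) := by
  have h1 : 0 < 1 + θ := by linarith
  have h2 := Real.geom_mean_le_arith_mean2_weighted (w₁ := 1 / (1 + θ)) (w₂ := θ / (1 + θ))
    (p₁ := a ^ (1 + θ)) (p₂ := b ^ (1 + θ)) (by positivity) (by positivity) (by positivity)
    (by positivity) (by field_simp)
  rw [← Real.rpow_mul ha, ← Real.rpow_mul hb, mul_one_div_cancel h1.ne', Real.rpow_one,
    mul_div_cancel₀ _ h1.ne'] at h2
  refine h2.trans (add_le_add ?_ ?_)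
  · exact mul_le_of_le_one_left (by positivity) (by rw [div_le_one h1]; linarith)
  · exact mul_le_mul_of_nonneg_right (div_le_self hθ.le (by linarith)) (by positivity)

theorem LQ_three {x y z θ : ℝ} (hx : 0 ≤ x) (hy : 0 ≤ y) (hz : 0 ≤ z) (hθ : 0 < θ) (hθ1 : θ ≤ 1) :
    (x + y + z) ^ (1 + θ) ≤ 9 * (x ^ (1 + θ) + y ^ (1 + θ) + z ^ (1 + θ)) := by
  have key : ∀ m : ℝ, 0 ≤ m → x + y + z ≤ 3 * m → (x + y + z) ^ (1 + θ) ≤ 9 * m ^ (1 + θ) := by
    intro m hm h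
    have h3 : (3 : ℝ) ^ (1 + θ) ≤ 9 := by
      have := Real.rpow_le_rpow_of_exponent_le (x := 3) (by norm_num)
        (show 1 + θ ≤ ((2 : ℕ) : ℝ) by push_cast; linarith)
      rw [Real.rpow_natCast] at this
      linarith
    calc _ ≤ (3 * m) ^ (1 + θ) := Real.rpow_le_rpow (by positivity) h (by linarith)
      _ = 3 ^ (1 + θ) * m ^ (1 + θ) := Real.mul_rpow (by norm_num) hm
      _ ≤ _ := by gcongr
  have p1 := Real.rpow_nonneg hx (1 + θ)
  have p2 := Real.rpow_nonneg hy (1 + θ)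
  have p3 := Real.rpow_nonneg hz (1 + θ)
  rcases le_total x y with h1 | h1
  · rcases le_total y z with h2 | h2
    · linarith [key z hz (by linarith)]
    · linarith [key y hy (by linarith)]
  · rcases le_total x z with h2 | h2
    · linarith [key z hz (by linarith)]
    · linarith [key x hx (by linarith)]

theorem Mq_nonneg {μ : Measure ℝ} (θ Λ : ℝ) : 0 ≤ Mq μ θ Λ := by
  exact integral_nonneg fun y => Real.rpow_nonneg measureReal_nonneg _

theorem BP.integrable_rpow {μ : Measure ℝ} (hμ : BP μ) {θ : ℝ} (hθ : 0 ≤ θ) (Λ : ℝ) :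
    Integrable fun y => fm μ Λ y ^ (1 + θ) := by
  exact LQ_int (hμ.den_fm Λ) hθ

theorem BP.Mq_le_one {μ : Measure ℝ} (hμ : BP μ) {θ : ℝ} (hθ : 0 ≤ θ) (Λ : ℝ) :
    Mq μ θ Λ ≤ 1 := by
  rw [← (hμ.den_fm Λ).int]
  exact integral_mono (hμ.integrable_rpow hθ Λ) (hμ.den_fm Λ).integrable
    fun y => LQ_rpow_le (hμ.den_fm Λ) hθ y

/-- For `0 < f ≤ 1`: `f^{1+θ} = f e^{-θ u} ≤ f (1 - θ u + θ² u²/2)`, `u = -log f ≥ 0`, and
`f u² ≤ 4`; `fm μ Λ` vanishes outside an interval of length `2 R X + 1`; `θ₀` with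
`θ₀ * 2 (2 R X + 1) ≤ 1`; finally `1 - x ≤ exp (-x)`. -/
theorem Mq_le_exp {μ : Measure ℝ} (hμ : BP μ) (X : ℝ) : ∃ θ₀ : ℝ, 0 < θ₀ ∧ ∀ θ : ℝ, 0 < θ →
    θ ≤ θ₀ → ∀ Λ : ℝ, |Λ| ≤ X → Mq μ θ Λ ≤ Real.exp (-(θ * (hm μ Λ - 1))) := by
  obtain ⟨R, hR0, hR⟩ := hμ.radius
  set T : ℝ := R * |X| + 1 with hT
  have hT0 : 0 < T := by positivity
  refine ⟨1 / (2 * T), by positivity, fun θ hθ hθ₀ Λ hΛ => ?_⟩
  have hf := hμ.den_fm Λ
  have hz : ∀ y, y ∉ Set.Icc (-T) T → fm μ Λ y = 0 := by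
    intro y hy
    have : μ {x | Λ * x ∈ Set.Ioc (y - 1) y} = 0 := by
      refine measure_mono_null (fun x hx => ?_) hR
      by_contra h
      have h1 : |x| ≤ R := not_lt.1 h
      have h2 : |Λ * x| ≤ R * |X| := by
        rw [abs_mul, mul_comm]
        exact mul_le_mul h1 (hΛ.trans (le_abs_self X)) (abs_nonneg _) hR0.le
      obtain ⟨h3, h4⟩ := abs_le.1 h2
      exact hy ⟨by linarith [hx.2], by linarith [hx.1]⟩
    simp only [fm, Measure.real, this, ENNReal.toReal_zero]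
  have hI : Integrable ((Set.Icc (-T) T).indicator fun _ : ℝ => θ ^ 2) :=
    (integrable_indicator_iff measurableSet_Icc).2 (integrableOn_const measure_Icc_lt_top.ne)
  have h1 : Mq μ θ Λ ≤ ∫ y, (fm μ Λ y - θ * Real.negMulLog (fm μ Λ y) +
      (Set.Icc (-T) T).indicator (fun _ : ℝ => θ ^ 2) y) := by
    refine integral_mono (hμ.integrable_rpow hθ.le Λ)
      ((hf.integrable.sub (hf.integrable_neg.const_mul θ)).add hI) fun y => ?_
    by_cases hy : y ∈ Set.Icc (-T) T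
    · simp only [Set.indicator_of_mem hy]
      exact LQ_point (hf.nn y) (hf.le1 y) hθ.le
    · simp only [Set.indicator_of_notMem hy, hz y hy]
      rw [Real.zero_rpow (by linarith)]
      simp
  have hJ : Integrable fun y => fm μ Λ y - θ * Real.negMulLog (fm μ Λ y) :=
    hf.integrable.sub (hf.integrable_neg.const_mul θ)
  rw [integral_add hJ hI, integral_sub hf.integrable (hf.integrable_neg.const_mul θ), integral_const_mul, hf.int,
    integral_indicator_const _ measurableSet_Icc, Real.volume_real_Icc_of_le (by linarith),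
    smul_eq_mul] at h1
  rw [le_div_iff₀ (by positivity)] at hθ₀
  have h2 := Real.add_one_le_exp (-(θ * (hm μ Λ - 1)))
  have h3 : hm μ Λ = ∫ y, Real.negMulLog (fm μ Λ y) := rfl
  rw [← h3] at h1
  nlinarith

/-- Young: `a b^θ ≤ a^{1+θ} + θ b^{1+θ}`, and `(x+y+z)^{1+θ} ≤ 9 (x^{1+θ} + y^{1+θ} + z^{1+θ})`;
shift invariance -/
theorem integral_three_le {μ : Measure ℝ} (hμ : BP μ) {θ : ℝ} (hθ : 0 < θ) (hθ1 : θ ≤ 1) (Λ : ℝ) :
    ∫ y, fm μ Λ y * (fm μ Λ (y - 1) + fm μ Λ y + fm μ Λ (y + 1)) ^ θ ≤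
      (1 + 27 * θ) * Mq μ θ Λ := by
  have hf := hμ.den_fm Λ
  have hI := hμ.integrable_rpow hθ.le Λ
  have hI1 : Integrable fun y => fm μ Λ (y - 1) ^ (1 + θ) := hI.comp_sub_right 1
  have hI2 : Integrable fun y => fm μ Λ (y + 1) ^ (1 + θ) := hI.comp_add_right 1
  have h1 : ∫ y, fm μ Λ y * (fm μ Λ (y - 1) + fm μ Λ y + fm μ Λ (y + 1)) ^ θ ≤
      ∫ y, (fm μ Λ y ^ (1 + θ) + θ * 9 * (fm μ Λ (y - 1) ^ (1 + θ) + fm μ Λ y ^ (1 + θ) +
        fm μ Λ (y + 1) ^ (1 + θ))) := by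
    refine integral_mono_of_nonneg (Filter.Eventually.of_forall fun y => ?_)
      (hI.add (((hI1.add hI).add hI2).const_mul _)) (Filter.Eventually.of_forall fun y => ?_)
    · exact mul_nonneg (hf.nn _) (Real.rpow_nonneg
        (add_nonneg (add_nonneg (hf.nn _) (hf.nn _)) (hf.nn _)) _)
    · refine (LQ_young (hf.nn _) (add_nonneg (add_nonneg (hf.nn _) (hf.nn _)) (hf.nn _)) hθ).trans ?_
      have := mul_le_mul_of_nonneg_left
        (LQ_three (hf.nn (y - 1)) (hf.nn y) (hf.nn (y + 1)) hθ hθ1) hθ.le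
      show _ ≤ _ + θ * 9 * _
      linarith
  have hJ : Integrable fun y => fm μ Λ (y - 1) ^ (1 + θ) + fm μ Λ y ^ (1 + θ) := hI1.add hI
  have hK : Integrable fun y => fm μ Λ (y - 1) ^ (1 + θ) + fm μ Λ y ^ (1 + θ) +
      fm μ Λ (y + 1) ^ (1 + θ) := hJ.add hI2
  rw [integral_add hI (hK.const_mul _), integral_const_mul, integral_add hJ hI2,
    integral_add hI1 hI,
    integral_sub_right_eq_self (fun y => fm μ Λ y ^ (1 + θ)) 1,
    integral_add_right_eq_self (fun y => fm μ Λ y ^ (1 + θ)) 1] at h1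
  unfold Mq
  linarith

end Crest.Agent.R98
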