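import Crest.Agent.R98.Sup

/-! # R98 MAIN: the entropy lower bound (task 98-MAIN) -/

set_option autoImplicit false

open MeasureTheory

namespace Crest.Agent.R98

/-- One block.  `gd_descend` to the window `l X < |Λ| ≤ X`; there `RI.fm_words`; for `w ∉ Bad`,
`Y < |Λ * pW lam w|` (note `pW lam w ≠ 0`), `Cov (sc Λ τ_w) (l² W w)` (`Cov.sc` with `a = Λ/X`,
`sc_sc`, `Cov.mono`), `Gd.step`, `gd_mix`. -/
theorem block {μ : Measure ℝ} {Ω : Type} [Fintype Ω] {q lam : Ω → ℝ} {τ : Ω → FM} {l : ℝ}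
    {m : ℕ} (h : RI μ q lam τ l m) {N : ℕ} (hN : 1 ≤ N) {v₀ A b X Y κ : ℝ} (hA : 0 ≤ A)
    (hb : 0 ≤ b) (hκ : κ ≤ 1) (hX : 0 < X) {n : ℕ} {W : (Fin n → Ω) → ℝ} (hW0 : ∀ w, 0 ≤ W w)
    (hW : ∀ w, Cov (sc X (tauW lam τ n w)) (W w)) {Bad : Finset (Fin n → Ω)}
    (hBad : ∀ w, w ∉ Bad → Y ≤ l * X * |pW lam w|) (hP : ∑ w ∈ Bad, pW q w ≤ κ)
    (base : ∀ Λ : ℝ, Y < |Λ| → Gd N v₀ A b (fm μ Λ)) (Λ : ℝ) (hΛ : l * X < |Λ|) :
    Gd N v₀ (A - A * κ) (b * (1 - l ^ 2 * (∑ w, pW q w * W w) / 2)) (fm μ Λ) := by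
  have hl := h.l_pos
  obtain ⟨ω₀⟩ : Nonempty Ω := by
    by_contra hne
    rw [not_nonempty_iff] at hne
    have := h.q_sum
    simp at this
  have hl1 : l < 1 := (h.l_le ω₀).trans_lt (h.lt_one ω₀)
  have hl2 : l ^ 2 ≤ 1 := by nlinarith
  have hq : ∀ w : Fin n → Ω, 0 ≤ pW q w := fun w => pW_nonneg h.q_nn w
  have hq1 : ∑ w : Fin n → Ω, pW q w = 1 := pW_sum h.q_sum n
  have hW1 : ∀ w, l ^ 2 * W w ≤ 1 := fun w => by
    have := (hW w).le_one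
    have := hW0 w
    nlinarith
  have hbw : ∀ w, 0 ≤ b * (1 - l ^ 2 * W w / 2) := fun w =>
    mul_nonneg hb (by linarith [hW1 w])
  have hsum : ∑ w : Fin n → Ω, pW q w * (b * (1 - l ^ 2 * W w / 2)) =
      b * (1 - l ^ 2 * (∑ w, pW q w * W w) / 2) := by
    have : ∀ w : Fin n → Ω, pW q w * (b * (1 - l ^ 2 * W w / 2)) =
        b * pW q w - b * l ^ 2 / 2 * (pW q w * W w) := fun w => by ring
    simp only [this, Finset.sum_sub_distrib, ← Finset.mul_sum, hq1]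
    ring
  have hA' : 0 ≤ A - A * κ := by nlinarith
  have hb' : 0 ≤ b * (1 - l ^ 2 * (∑ w, pW q w * W w) / 2) := by
    rw [← hsum]
    exact Finset.sum_nonneg fun w _ => mul_nonneg (hq w) (hbw w)
  refine gd_descend h.bp hl h.dec hN hA' hb' hX (fun Λ h1 h2 => ?_) Λ hΛ
  rw [h.fm_words n Λ, ← hsum]
  refine gd_mix hN hA (fun w _ => hq w) hq1 (fun w _ => hbw w)
    (fun w _ => (h.bp.den_fm _).st ((isP_tauW lam h.isP n w).sc _)) (Finset.subset_univ Bad) hP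
    fun w _ hw => ?_
  have hpw : 0 < |pW lam w| := by
    rw [pW, Finset.abs_prod]
    exact Finset.prod_pos fun j _ => hl.trans_le (h.l_le _)
  have hY : Y < |Λ * pW lam w| := by
    rw [abs_mul]
    exact (hBad w hw).trans_lt (mul_lt_mul_of_pos_right h1 hpw)
  have hc : Cov (sc Λ (tauW lam τ n w)) (l ^ 2 * W w) := by
    have h3 : |Λ / X| ≤ 1 := by
      rw [abs_div, abs_of_pos hX]
      exact (div_le_one hX).2 h2
    have h4 := (hW w).sc h3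
    rw [sc_sc, div_mul_cancel₀ _ hX.ne'] at h4
    refine h4.mono (mul_le_mul_of_nonneg_right ?_ (hW0 w))
    have h5 : l ≤ |Λ / X| := by
      rw [abs_div, abs_of_pos hX, le_div_iff₀ hX]
      exact h1.le
    rw [← sq_abs (Λ / X)]
    exact pow_le_pow_left₀ hl.le h5 2
  exact Gd.step hN (h.bp.den_fm _) hb (base _ hY) hc

/-- Induction over the blocks of a `Supply` (`block` with `Bad` for `j = 0`, with `∅` afterwards;
`1 - u ≤ exp (-u)`), then evaluate `Gd` at `η = 1`. -/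
theorem blocks {μ : Measure ℝ} {Ω : Type} [Fintype Ω] {q lam : Ω → ℝ} {τ : Ω → FM} {l : ℝ}
    {m : ℕ} (h : RI μ q lam τ l m) {N : ℕ} (hN : 1 ≤ N) {v₀ A b S U κ : ℝ} (hv₀ : 0 ≤ v₀)
    (hA : 0 ≤ A) (hb : 0 ≤ b) (hκ : κ ≤ 1) (hs : Supply q lam τ S U κ)
    (base : ∀ Λ : ℝ, l * S < |Λ| → Gd N v₀ A b (fm μ Λ)) :
    ∃ S₁ : ℝ, ∀ Λ : ℝ, S₁ < |Λ| → A - A * κ - b * Real.exp (-(l ^ 2 * U / 2)) ≤ Dn N (fm μ Λ) := by
  obtain ⟨n, J, X, W, Bad, hX, hXX, hW0, hW, hU, hBad, hP⟩ := hs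
  have hl := h.l_pos
  have hq : ∀ w : Fin n → Ω, 0 ≤ pW q w := fun w => pW_nonneg h.q_nn w
  set F : ℕ → ℝ := fun j => ∑ w, pW q w * W j w with hF
  have hF0 : ∀ j, 0 ≤ F j := fun j => Finset.sum_nonneg fun w _ => mul_nonneg (hq w) (hW0 j w)
  have hA' : 0 ≤ A - A * κ := by nlinarith
  have key : ∀ j, ∀ Λ : ℝ, l * X j < |Λ| → Gd N v₀ (A - A * κ)
      (b * Real.exp (-(l ^ 2 * (∑ i ∈ Finset.range (j + 1), F i) / 2))) (fm μ Λ) := by
    intro j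
    induction j with
    | zero =>
      intro Λ hΛ
      refine (block h hN hA hb hκ (hX 0) (hW0 0) (hW 0) (Y := l * S) (fun w hw => ?_) hP base Λ
        hΛ).mono le_rfl ?_
      · rw [mul_assoc]
        exact mul_le_mul_of_nonneg_left (hBad w hw) hl.le
      · refine mul_le_mul_of_nonneg_left ?_ hb
        rw [Finset.sum_range_one]
        linarith [Real.add_one_le_exp (-(l ^ 2 * F 0 / 2))]
    | succ j ih =>
      intro Λ hΛ
      have hb1 : 0 ≤ b * Real.exp (-(l ^ 2 * (∑ i ∈ Finset.range (j + 1), F i) / 2)) := by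
        positivity
      refine (block h hN hA' hb1 (κ := 0) zero_le_one (hX (j + 1)) (hW0 (j + 1)) (hW (j + 1))
        (Bad := ∅) (Y := l * X j) (fun w _ => ?_) (by simp) ih Λ hΛ).mono (by simp) ?_
      · rw [mul_assoc]
        exact mul_le_mul_of_nonneg_left (hXX j w) hl.le
      · rw [Finset.sum_range_succ _ (j + 1), mul_assoc]
        refine mul_le_mul_of_nonneg_left ?_ hb
        have e : -(l ^ 2 * (∑ i ∈ Finset.range (j + 1), F i + F (j + 1)) / 2) =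
            -(l ^ 2 * (∑ i ∈ Finset.range (j + 1), F i) / 2) + -(l ^ 2 * F (j + 1) / 2) := by ring
        rw [e, Real.exp_add]
        refine mul_le_mul_of_nonneg_left ?_ (Real.exp_pos _).le
        linarith [Real.add_one_le_exp (-(l ^ 2 * F (j + 1) / 2))]
  refine ⟨l * X J, fun Λ hΛ => ?_⟩
  have h1 := (key J Λ hΛ 0 1 pv_one (by linarith)).1
  rw [st_one, neg_zero, Real.exp_zero, mul_one] at h1
  refine le_trans ?_ h1
  have h2 : U ≤ ∑ i ∈ Finset.range (J + 1), F i := by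
    rw [Finset.sum_range_succ]
    linarith [hF0 J]
  have h3 : Real.exp (-(l ^ 2 * (∑ i ∈ Finset.range (J + 1), F i) / 2)) ≤
      Real.exp (-(l ^ 2 * U / 2)) := by
    apply Real.exp_le_exp.2
    have := mul_le_mul_of_nonneg_left h2 (sq_nonneg l)
    linarith
  have := mul_le_mul_of_nonneg_left h3 hb
  linarith

/-- `U` from `supply`, `v₀ = l² U / 4`, `N' ≥ N₀` (`deficiency`) with `v₀ + 1 ≤ N'²`, `g, N` from
`gain`.  `LB a := ∃ S₀, ∀ Λ, S₀ < |Λ| → a ≤ Dn N (fm μ Λ)`.  `LB 0` (`Dn_nonneg`).  If `LB a`,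
`a ≥ 0`, take a deficiency scale `S ≥ S₀ / l`: on its window `Gd N v₀ (a+g) (g e^{v₀}) (fm μ Λ)`
(`fm_eq`, `gain`, `Dn_st`), hence for all `|Λ| > l S` (`gd_descend`); `blocks` with
`κ = g (1 - e^{-v₀}) / (2 (a + g))` gives `LB (a + g (1 - e^{-v₀}) / 2)`.  Iterating contradicts
`Dn_le`. -/
theorem main {μ : Measure ℝ} {Ω : Type} [Fintype Ω] {q lam : Ω → ℝ} {τ : Ω → FM} {l : ℝ}
    {m : ℕ} (h : RI μ q lam τ l m) {α h' : ℝ} (hα : 0 ≤ α) (hα1 : α < 1)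
    (hχ : α * ∑ ω, q ω * -Real.log |lam ω| < h')
    (hE : ∀ n : ℕ, h' * n ≤ ∑ w : Fin n → Ω, pW q w * Ent (tauW lam τ n w)) (L₀ : ℝ) :
    ∃ L, L₀ ≤ L ∧ α * Real.log L < hm μ L := by
  by_contra hcon
  push Not at hcon
  have hm' : ∃ L₀ : ℝ, ∀ L, L₀ ≤ L → hm μ L ≤ α * Real.log L := ⟨L₀, hcon⟩
  have hl := h.l_pos
  obtain ⟨U, hU, hsup⟩ := supply h hα hχ hE hm'
  obtain ⟨N₀, hdef⟩ := deficiency h.bp hl hα1 hm'
  set v₀ : ℝ := l ^ 2 * U / 4 with hv₀def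
  have hv₀ : 0 < v₀ := by positivity
  obtain ⟨N', hN'0, hN'⟩ : ∃ N' : ℕ, N₀ ≤ N' ∧ v₀ + 1 ≤ (N' : ℝ) ^ 2 := by
    refine ⟨max N₀ ⌈v₀ + 1⌉₊, le_max_left _ _, ?_⟩
    have h1 : v₀ + 1 ≤ ((max N₀ ⌈v₀ + 1⌉₊ : ℕ) : ℝ) :=
      (Nat.le_ceil _).trans (Nat.cast_le.2 (le_max_right _ _))
    nlinarith
  obtain ⟨g, hg, N, hN, hgain⟩ := gain hv₀ hN'
  have he : Real.exp (-v₀) < 1 := Real.exp_lt_one_iff.2 (by linarith)
  set d : ℝ := g * (1 - Real.exp (-v₀)) / 2 with hd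
  have hd0 : 0 < d := by
    have : 0 < 1 - Real.exp (-v₀) := by linarith
    positivity
  have hdg : d ≤ g := by
    have := Real.exp_pos (-v₀)
    rw [hd]
    nlinarith
  have step : ∀ a : ℝ, 0 ≤ a → (∃ S₀ : ℝ, ∀ Λ : ℝ, S₀ < |Λ| → a ≤ Dn N (fm μ Λ)) →
      ∃ S₀ : ℝ, ∀ Λ : ℝ, S₀ < |Λ| → a + d ≤ Dn N (fm μ Λ) := by
    rintro a ha ⟨S₀, hS₀⟩
    obtain ⟨S, hS1, hS, hwin⟩ := hdef N' hN'0 (S₀ / l)
    have hS2 : S₀ ≤ l * S := by
      rw [div_le_iff₀ hl] at hS1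
      linarith
    have hag : 0 < a + g := by linarith
    have hb : 0 ≤ g * Real.exp v₀ := by positivity
    have base : ∀ Λ : ℝ, l * S < |Λ| → Gd N v₀ (a + g) (g * Real.exp v₀) (fm μ Λ) := by
      refine gd_descend h.bp hl h.dec hN hag.le hb hS fun Λ h1 h2 v η hη hv => ?_
      have h3 := hS₀ Λ (hS2.trans_lt h1)
      have h4 : v₀ ≤ v → a + g ≤ Dn N (st η (fm μ Λ)) := fun hv' => by
        have h5 := hwin Λ h1 h2
        rw [fm_eq] at h5 h3 ⊢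
        have := hgain _ (h.bp.map Λ) h5 v η hη hv' hv
        linarith
      refine ⟨?_, h4⟩
      rcases le_or_gt v₀ v with hv' | hv'
      · have := h4 hv'
        have : 0 ≤ g * Real.exp v₀ * Real.exp (-v) := by positivity
        linarith
      · have h5 := Dn_st hN (h.bp.den_fm Λ) hη.isP
        have h6 : 1 ≤ Real.exp v₀ * Real.exp (-v) := by
          rw [← Real.exp_add]
          exact Real.one_le_exp (by linarith)
        have := mul_le_mul_of_nonneg_left h6 hg.le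
        nlinarith
    have hκ0 : 0 < d / (a + g) := by positivity
    have hκ1 : d / (a + g) ≤ 1 := (div_le_one hag).2 (by linarith)
    obtain ⟨S₁, hS₁⟩ := blocks h hN hv₀.le hag.le hb hκ1 (hsup S _ hS hκ0) base
    refine ⟨S₁, fun Λ hΛ => le_trans (le_of_eq ?_) (hS₁ Λ hΛ)⟩
    have e1 : (a + g) * (d / (a + g)) = d := by field_simp
    have e2 : Real.exp v₀ * Real.exp (-(l ^ 2 * U / 2)) = Real.exp (-v₀) := by
      rw [← Real.exp_add]
      congr 1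
      rw [hv₀def]
      ring
    rw [e1, mul_assoc, e2, hd]
    ring
  have iter : ∀ k : ℕ, ∃ S₀ : ℝ, ∀ Λ : ℝ, S₀ < |Λ| → k * d ≤ Dn N (fm μ Λ) := by
    intro k
    induction k with
    | zero => exact ⟨0, fun Λ _ => by simpa using Dn_nonneg hN (h.bp.den_fm Λ)⟩
    | succ k ih =>
      obtain ⟨S₀, hS₀⟩ := step _ (by positivity) ih
      refine ⟨S₀, fun Λ hΛ => ?_⟩
      have := hS₀ Λ hΛ
      push_cast
      linarith
  obtain ⟨k, hk⟩ := exists_nat_gt (Real.log N / d)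
  obtain ⟨S₀, hS₀⟩ := iter k
  have h1 := hS₀ (|S₀| + 1) (by
    rw [abs_of_pos (by positivity)]
    linarith [le_abs_self S₀])
  have h2 := Dn_le hN (h.bp.den_fm (|S₀| + 1))
  rw [div_lt_iff₀ hd0] at hk
  linarith

end Crest.Agent.R98
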