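import Crest.Agent.R98.Cell

/-! # R98 PROF: the variance profile (task 98-PROF) -/

set_option autoImplicit false

open MeasureTheory

namespace Crest.Agent.R98

/-- With `N = 2^12`, `v₀ = N²`, `a = log N - 6 ≥ 2`: `Gd N v₀ a (a e^{v₀}) bx` (`Pv.big`,
`Dn_nonneg`), so `Gd.step` iterated gives `Gd N v₀ a (a e^{v₀} (1 - p/2)^T) (st (ν^T) bx)`; evaluate
at `η = 1` (`pv_one`), `(1 - p/2)^T ≤ e^{-pT/2} ≤ e^{-v₀-1}` for `A = 2 (v₀ + 1)`. -/
theorem L2 : ∃ (L : ℕ) (A : ℝ), 0 < A ∧ ∀ (ν : FM) (p : ℝ) (T : ℕ), Cov ν p → A ≤ p * T →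
    1 ≤ Dn (2 ^ L) (st (ν ^ T) bx) := by
  obtain ⟨N, hN⟩ : ∃ N : ℕ, N = 2 ^ 12 := ⟨_, rfl⟩
  have hN1 : 1 ≤ N := by norm_num [hN]
  have hNR : (1 : ℝ) ≤ N := by exact_mod_cast hN1
  obtain ⟨v₀, hv₀⟩ : ∃ v₀ : ℝ, v₀ = (N : ℝ) ^ 2 := ⟨_, rfl⟩
  have hv1 : 1 ≤ v₀ := hv₀ ▸ one_le_pow₀ hNR
  obtain ⟨a, ha⟩ : ∃ a : ℝ, a = Real.log N - 6 := ⟨_, rfl⟩
  have ha2 : 2 ≤ a := by
    have h1 : Real.log N = 12 * Real.log 2 := by
      rw [hN]
      push_cast
      rw [show (4096 : ℝ) = 2 ^ 12 by norm_num, Real.log_pow]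
      norm_num
    have := Real.log_two_gt_d9
    linarith
  have hb : 0 ≤ a * Real.exp v₀ := by positivity
  have h0 : Gd N v₀ a (a * Real.exp v₀) bx := by
    intro v η hη hv
    have h2 : v₀ ≤ v → a ≤ Dn N (st η bx) := fun h =>
      ha ▸ hη.big hN1 (hv₀ ▸ h) (by linarith)
    refine ⟨?_, h2⟩
    rcases le_total v₀ v with h | h
    · have := h2 h
      have := mul_nonneg hb (Real.exp_pos (-v)).le
      linarith
    · have h3 := Dn_nonneg hN1 (den_bx.st hη.isP)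
      have h4 : 1 ≤ Real.exp v₀ * Real.exp (-v) := by
        rw [← Real.exp_add]
        exact Real.one_le_exp (by linarith)
      nlinarith
  refine ⟨12, 2 * (v₀ + 1), by positivity, fun ν p T hν hT => ?_⟩
  rw [← hN]
  have hp1 := hν.le_one
  have hstep : ∀ T : ℕ, Gd N v₀ a (a * Real.exp v₀ * (1 - p / 2) ^ T) (st (ν ^ T) bx) := by
    intro T
    induction T with
    | zero => simpa using h0
    | succ T ih =>
      rw [pow_succ' ν, st_mul, pow_succ, ← mul_assoc]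
      exact Gd.step hN1 (den_bx.st (hν.isP.pow T))
        (mul_nonneg hb (pow_nonneg (by linarith) _)) ih hν
  have h1 := (hstep T 0 1 pv_one (by linarith)).1
  rw [st_one, neg_zero, Real.exp_zero, mul_one] at h1
  have h2 : (1 - p / 2) ^ T ≤ Real.exp (-(v₀ + 1)) := by
    calc (1 - p / 2) ^ T ≤ Real.exp (-(p / 2)) ^ T := by
          refine pow_le_pow_left₀ (by linarith) ?_ _
          have := Real.add_one_le_exp (-(p / 2))
          linarith
      _ = Real.exp (T * -(p / 2)) := by rw [Real.exp_nat_mul]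
      _ ≤ _ := Real.exp_le_exp.2 (by linarith)
  have h3 : Real.exp v₀ * Real.exp (-(v₀ + 1)) ≤ 1 / 2 := by
    rw [← Real.exp_add, show v₀ + -(v₀ + 1) = -1 by ring, Real.exp_neg, one_div]
    refine inv_anti₀ (by norm_num) ?_
    have := Real.add_one_le_exp 1
    linarith
  have h4 : Real.exp v₀ * (1 - p / 2) ^ T ≤ 1 / 2 :=
    (mul_le_mul_of_nonneg_left h2 (Real.exp_pos _).le).trans h3
  have h5 : a * Real.exp v₀ * (1 - p / 2) ^ T ≤ a * (1 / 2) := by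
    rw [mul_assoc]
    exact mul_le_mul_of_nonneg_left h4 (by linarith)
  linarith

/-- Counting scales: for `T = ⌈A/p⌉₊` let `a k = h1 (sc (2^k c₀ / 2^L) (ν^T))`; by `Dn_h1`
(`map_pow`, `sc_sc`) `a (k + L) - a k = Dn (2^L) (st ((sc (2^k c₀) ν)^T) bx) ≥ 0`, and `≥ 1` if
`p ≤ W k` (`L2`, `Cov.mono`); the sum over `k < K` telescopes to `≤ L * B * log (T + 1)`; finally
`log (A/p + 2) ≤ C₁ / x` for `p = x⁴`, `0 < x ≤ 1` (`log u ≤ 4 u^{1/4}`). -/
theorem count_scales : ∃ C₁ : ℝ, 0 ≤ C₁ ∧ ∀ (ν : FM) (B : ℝ), IsP ν → 0 ≤ B →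
    (∀ (T : ℕ) (c : ℝ), 0 < c → h1 (sc c (ν ^ T)) ≤ B * Real.log (T + 1)) →
    ∀ c₀ : ℝ, 0 < c₀ → ∀ W : ℕ → ℝ, (∀ k, Cov (sc (2 ^ k * c₀) ν) (W k)) →
    ∀ (K : ℕ) (x : ℝ), 0 < x → x ≤ 1 →
      (((Finset.range K).filter fun k => x ^ 4 ≤ W k).card : ℝ) ≤ C₁ * B / x := by
  obtain ⟨L, A, hA, hL⟩ := L2
  have hlA : 0 ≤ Real.log (A + 2) := Real.log_nonneg (by linarith)
  refine ⟨L * (Real.log (A + 2) + 4), by positivity, ?_⟩
  intro ν B hν hB hT c₀ hc₀ W hW K x hx0 hx1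
  have hp : 0 < x ^ 4 := by positivity
  have hp1 : x ^ 4 ≤ 1 := pow_le_one₀ hx0.le hx1
  set T : ℕ := ⌈A / x ^ 4⌉₊ with hTdef
  have hN1 : 1 ≤ 2 ^ L := Nat.one_le_two_pow
  set a : ℕ → ℝ := fun k => h1 (sc (((2 ^ L : ℕ) : ℝ)⁻¹ * (2 ^ k * c₀)) (ν ^ T)) with ha
  have hd : ∀ k, a (L + k) - a k = Dn (2 ^ L) (st (sc (2 ^ k * c₀) ν ^ T) bx) := by
    intro k
    rw [Dn_h1 hN1 ((hν.sc _).pow T), ← map_pow, sc_sc]
    have : ((2 ^ L : ℕ) : ℝ)⁻¹ * (2 ^ (L + k) * c₀) = 2 ^ k * c₀ := by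
      push_cast
      rw [pow_add]
      field_simp
    simp only [ha, this]
  have h1' : (((Finset.range K).filter fun k => x ^ 4 ≤ W k).card : ℝ) ≤
      ∑ k ∈ Finset.range K, (a (L + k) - a k) := by
    rw [Finset.card_eq_sum_ones, Finset.sum_filter]
    push_cast
    refine Finset.sum_le_sum fun k _ => ?_
    rw [hd]
    split_ifs with hk
    · refine hL _ (x ^ 4) T ((hW k).mono hk) ?_
      have := Nat.le_ceil (A / x ^ 4)
      rw [div_le_iff₀ hp] at this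
      linarith
    · exact Dn_nonneg hN1 (den_bx.st ((hν.sc _).pow T))
  have h2 : ∑ k ∈ Finset.range K, (a (L + k) - a k) =
      ∑ k ∈ Finset.range L, (a (K + k) - a k) := by
    have e1 := Finset.sum_range_add a L K
    have e2 := Finset.sum_range_add a K L
    rw [add_comm K L] at e2
    rw [Finset.sum_sub_distrib, Finset.sum_sub_distrib]
    linarith
  have h3 : ∑ k ∈ Finset.range L, (a (K + k) - a k) ≤ L * (B * Real.log (T + 1)) := by
    have : ∀ k ∈ Finset.range L, a (K + k) - a k ≤ B * Real.log (T + 1) := by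
      intro k _
      have e1 : a (K + k) ≤ B * Real.log (T + 1) := hT T _ (by positivity)
      have e2 : 0 ≤ a k := h1_nonneg ((hν.pow T).sc _)
      linarith
    simpa using Finset.sum_le_card_nsmul _ _ _ this
  have h4 : Real.log (T + 1) ≤ (Real.log (A + 2) + 4) / x := by
    have e1 : (T : ℝ) + 1 ≤ (A + 2) * x⁻¹ ^ 4 := by
      have e2 : (T : ℝ) < A / x ^ 4 + 1 := Nat.ceil_lt_add_one (by positivity)
      have e3 : 1 ≤ x⁻¹ ^ 4 := one_le_pow₀ ((one_le_inv₀ hx0).2 hx1)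
      have e4 : A / x ^ 4 = A * x⁻¹ ^ 4 := by rw [inv_pow, div_eq_mul_inv]
      nlinarith
    have e5 : Real.log (T + 1) ≤ Real.log (A + 2) + 4 * Real.log x⁻¹ := by
      refine (Real.log_le_log (by positivity) e1).trans ?_
      rw [Real.log_mul (by positivity) (by positivity), Real.log_pow]
      norm_num
    have e6 : Real.log x⁻¹ ≤ x⁻¹ := by
      have := Real.log_le_sub_one_of_pos (inv_pos.2 hx0)
      linarith
    have e7 : Real.log (A + 2) ≤ Real.log (A + 2) * x⁻¹ :=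
      le_mul_of_one_le_right hlA ((one_le_inv₀ hx0).2 hx1)
    rw [div_eq_mul_inv]
    linarith
  have h5 : (L : ℝ) * (B * Real.log (T + 1)) ≤ L * (B * ((Real.log (A + 2) + 4) / x)) :=
    mul_le_mul_of_nonneg_left (mul_le_mul_of_nonneg_left h4 hB) (Nat.cast_nonneg _)
  calc _ ≤ (L : ℝ) * (B * ((Real.log (A + 2) + 4) / x)) := by linarith
    _ = _ := by ring

/-- Level sets: if `#{k < K | x⁴ ≤ W k} ≤ D / x` for all `x ∈ (0,1]` then
`∑ √(W k) ≤ ∑ W k / x₀² + 4 D x₀`.  (With `xᵢ = x₀/2^i`: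
`√W ≤ W/x₀² + ∑_{i<I} xᵢ² 1[x_{i+1}⁴ ≤ W] + x_I²`; let `I → ∞`.) -/
theorem sum_sqrt_le {W : ℕ → ℝ} (hW : ∀ k, 0 ≤ W k) {K : ℕ} {D : ℝ}
    (h : ∀ x : ℝ, 0 < x → x ≤ 1 →
      (((Finset.range K).filter fun k => x ^ 4 ≤ W k).card : ℝ) ≤ D / x)
    {x₀ : ℝ} (h0 : 0 < x₀) (h1 : x₀ ≤ 1) :
    ∑ k ∈ Finset.range K, √(W k) ≤ (∑ k ∈ Finset.range K, W k) / x₀ ^ 2 + 4 * D * x₀ := by
  have hD : 0 ≤ D := by
    have := h 1 one_pos le_rfl
    rw [div_one] at this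
    exact (Nat.cast_nonneg _).trans this
  set x : ℕ → ℝ := fun i => x₀ * (1 / 2) ^ i with hx
  have hx0 : ∀ i, 0 < x i := fun i => by positivity
  have hx1 : ∀ i, x i ≤ 1 := fun i =>
    mul_le_one₀ h1 (by positivity) (pow_le_one₀ (by norm_num) (by norm_num))
  have key : ∀ (w : ℝ), 0 ≤ w → ∀ I : ℕ, √w ≤ x₀ ^ 2 →
      √w ≤ ∑ i ∈ Finset.range I, (if x (i + 1) ^ 4 ≤ w then x i ^ 2 else 0) ∨ √w ≤ x I ^ 2 := by
    intro w hw I hs
    induction I with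
    | zero => right; simpa [hx] using hs
    | succ I ih =>
      have hnn : 0 ≤ ∑ i ∈ Finset.range I, (if x (i + 1) ^ 4 ≤ w then x i ^ 2 else 0) :=
        Finset.sum_nonneg fun i _ => by split_ifs <;> positivity
      rw [Finset.sum_range_succ]
      rcases ih with ih | ih
      · left
        have : 0 ≤ (if x (I + 1) ^ 4 ≤ w then x I ^ 2 else 0) := by split_ifs <;> positivity
        linarith
      · split_ifs with hc
        · left; linarith
        · right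
          refine Real.sqrt_le_iff.2 ⟨by positivity, ?_⟩
          rw [← pow_mul]
          exact (not_le.1 hc).le
  have key2 : ∀ (w : ℝ), 0 ≤ w → ∀ I : ℕ, √w ≤ w / x₀ ^ 2 +
      ∑ i ∈ Finset.range I, (if x (i + 1) ^ 4 ≤ w then x i ^ 2 else 0) + x I ^ 2 := by
    intro w hw I
    have hnn : 0 ≤ ∑ i ∈ Finset.range I, (if x (i + 1) ^ 4 ≤ w then x i ^ 2 else 0) :=
      Finset.sum_nonneg fun i _ => by split_ifs <;> positivity
    have h2 : 0 ≤ w / x₀ ^ 2 := by positivity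
    have h3 : 0 ≤ x I ^ 2 := by positivity
    rcases le_total (√w) (x₀ ^ 2) with hs | hs
    · rcases key w hw I hs with h4 | h4 <;> linarith
    · have : √w ≤ w / x₀ ^ 2 := by
        rw [le_div_iff₀ (by positivity)]
        have := Real.mul_self_sqrt hw
        nlinarith [Real.sqrt_nonneg w]
      linarith
  refine le_of_forall_pos_le_add fun ε hε => ?_
  obtain ⟨I, hI⟩ := exists_pow_lt_of_lt_one (x := ε / (K + 1)) (y := (1 / 2 : ℝ)) (by positivity)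
    (by norm_num)
  have h2 := Finset.sum_le_sum fun k (_ : k ∈ Finset.range K) => key2 (W k) (hW k) I
  rw [Finset.sum_add_distrib, Finset.sum_add_distrib, ← Finset.sum_div, Finset.sum_comm,
    Finset.sum_const, Finset.card_range, nsmul_eq_mul] at h2
  have h3 : ∑ i ∈ Finset.range I, ∑ k ∈ Finset.range K,
      (if x (i + 1) ^ 4 ≤ W k then x i ^ 2 else 0) ≤ ∑ i ∈ Finset.range I, 2 * D * x₀ * (1 / 2) ^ i := by
    refine Finset.sum_le_sum fun i _ => ?_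
    rw [← Finset.sum_filter, Finset.sum_const, nsmul_eq_mul]
    refine (mul_le_mul_of_nonneg_right (h _ (hx0 _) (hx1 _)) (by positivity)).trans (le_of_eq ?_)
    simp only [hx, pow_succ]
    field_simp
  have h4 : ∑ i ∈ Finset.range I, 2 * D * x₀ * (1 / 2) ^ i ≤ 4 * D * x₀ := by
    rw [← Finset.mul_sum]
    have := mul_le_mul_of_nonneg_left (sum_geometric_two_le I) (by positivity : 0 ≤ 2 * D * x₀)
    linarith
  have h5 : (K : ℝ) * x I ^ 2 ≤ ε := by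
    have e1 : x I ^ 2 ≤ (1 / 2) ^ I := by
      have e2 : x I ≤ (1 / 2) ^ I := mul_le_of_le_one_left (by positivity) h1
      nlinarith [hx0 I, hx1 I]
    rw [lt_div_iff₀ (by positivity)] at hI
    have e3 : (0 : ℝ) ≤ K := Nat.cast_nonneg _
    nlinarith [mul_le_mul_of_nonneg_left e1 e3, pow_pos (by norm_num : (0 : ℝ) < 1 / 2) I]
  linarith

/-- `cell` at every scale `2^k c₀`, telescoping, `count_scales`, `sum_sqrt_le` -/
theorem prof : ∃ C : ℝ, 0 ≤ C ∧ ∀ (ν : FM) (B : ℝ), IsP ν → 0 ≤ B →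
    (∀ (T : ℕ) (c : ℝ), 0 < c → h1 (sc c (ν ^ T)) ≤ B * Real.log (T + 1)) →
    ∀ c₀ : ℝ, 0 < c₀ → ∃ W : ℕ → ℝ, (∀ k, 0 ≤ W k) ∧ (∀ k, Cov (sc (2 ^ k * c₀) ν) (W k)) ∧
      ∀ (K : ℕ) (x₀ : ℝ), 0 < x₀ → x₀ ≤ 1 →
        h1 (sc (2 ^ K * c₀) ν) - h1 (sc c₀ ν) ≤
          4 * (∑ k ∈ Finset.range K, W k) / x₀ ^ 2 + C * B * x₀ := by
  obtain ⟨C₁, hC₁, hC⟩ := count_scales
  refine ⟨16 * C₁, by positivity, fun ν B hν hB hT c₀ hc₀ => ?_⟩
  choose W hW0 hWc hW using fun k : ℕ => cell (hν.sc (2 ^ k * c₀))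
  refine ⟨W, hW0, hWc, fun K x₀ h0 h1' => ?_⟩
  have h2 : ∀ K : ℕ, h1 (sc (2 ^ K * c₀) ν) - h1 (sc c₀ ν) ≤ 4 * ∑ k ∈ Finset.range K, √(W k) := by
    intro K
    induction K with
    | zero => simp
    | succ K ih =>
      have := hW K
      rw [sc_sc, ← mul_assoc, ← pow_succ'] at this
      rw [Finset.sum_range_succ]
      linarith
  have h3 := sum_sqrt_le hW0 (hC ν B hν hB hT c₀ hc₀ W hWc K) h0 h1'
  have h4 := h2 K
  rw [mul_div_assoc]
  linarith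

end Crest.Agent.R98
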