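import Crest.Agent.R98.LQ0

/-! # R98 REC: submultiplicativity of `L^{1+θ}` sums (task 98-REC) -/

set_option autoImplicit false

open MeasureTheory

namespace Crest.Agent.R98

namespace RecA

theorem fm_nn (μ : Measure ℝ) (Λ y : ℝ) : 0 ≤ fm μ Λ y := measureReal_nonneg

theorem supp {μ : Measure ℝ} {R : ℝ} (hR : μ {x | R < |x|} = 0) {Λ y : ℝ} (h : fm μ Λ y ≠ 0) :
    ∃ x, |x| ≤ R ∧ y - 1 < Λ * x ∧ Λ * x ≤ y := by
  by_contra hn
  push Not at hn
  apply h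
  have : μ {x | Λ * x ∈ Set.Ioc (y - 1) y} = 0 := by
    refine measure_mono_null (fun x hx => ?_) hR
    by_contra h2
    exact absurd hx.2 (not_le.2 (hn x (not_lt.1 h2) hx.1))
  rw [fm, Measure.real, this, ENNReal.toReal_zero]

theorem three {μ : Measure ℝ} (hμ : BP μ) {R : ℝ} (hR : μ {x | R < |x|} = 0) {Λ y : ℝ}
    (h : ∀ x, |x| ≤ R → y - 2 < Λ * x ∧ Λ * x ≤ y + 1) :
    1 ≤ fm μ Λ (y - 1) + fm μ Λ y + fm μ Λ (y + 1) := by
  have := hμ.prob
  have hsub : (Set.univ : Set ℝ) ⊆ {x | R < |x|} ∪ (({x | Λ * x ∈ Set.Ioc (y - 1 - 1) (y - 1)} ∪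
      {x | Λ * x ∈ Set.Ioc (y - 1) y}) ∪ {x | Λ * x ∈ Set.Ioc (y + 1 - 1) (y + 1)}) := by
    intro x _
    by_cases hx : R < |x|
    · exact Or.inl hx
    · obtain ⟨h1, h2⟩ := h x (not_lt.1 hx)
      by_cases a1 : Λ * x ≤ y - 1
      · exact Or.inr (Or.inl (Or.inl ⟨by linarith, a1⟩))
      · by_cases a2 : Λ * x ≤ y
        · exact Or.inr (Or.inl (Or.inr ⟨not_le.1 a1, a2⟩))
        · exact Or.inr (Or.inr ⟨by linarith, h2⟩)
  have h0 : μ.real {x | R < |x|} = 0 := by simp [Measure.real, hR]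
  calc (1 : ℝ) = μ.real Set.univ := by simp
    _ ≤ _ := measureReal_mono hsub
    _ ≤ _ := measureReal_union_le _ _
    _ ≤ 0 + ((fm μ Λ (y - 1) + fm μ Λ y) + fm μ Λ (y + 1)) := by
        rw [h0]
        gcongr
        refine (measureReal_union_le _ _).trans ?_
        exact add_le_add (measureReal_union_le _ _) le_rfl
    _ = _ := zero_add _

theorem jensen {ι : Type*} (s : Finset ι) {w a P : ι → ℝ} (hw : ∀ i, 0 ≤ w i) (ha : ∀ i, 0 ≤ a i)
    (hP0 : ∀ i, 0 ≤ P i) {θ : ℝ} (hθ : 0 < θ)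
    (hP : ∀ i ∈ s, a i ≠ 0 → ∑ j ∈ s.filter (fun j => a j ≠ 0), w j ≤ P i) :
    (∑ i ∈ s, w i * a i) ^ (1 + θ) ≤ ∑ i ∈ s, w i * P i ^ θ * a i ^ (1 + θ) := by
  classical
  have hp : (0 : ℝ) < 1 + θ := by linarith
  have e1 : ∑ i ∈ s, w i * a i = ∑ i ∈ s.filter (fun j => a j ≠ 0), w i * a i :=
    (Finset.sum_filter_of_ne fun i _ h => right_ne_zero_of_mul h).symm
  have h1 := Real.inner_le_weight_mul_Lp_of_nonneg (s.filter fun j => a j ≠ 0) (p := 1 + θ)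
    (by linarith) w a hw ha
  have hW : 0 ≤ ∑ j ∈ s.filter (fun j => a j ≠ 0), w j := Finset.sum_nonneg fun j _ => hw j
  have hS : 0 ≤ ∑ j ∈ s.filter (fun j => a j ≠ 0), w j * a j ^ (1 + θ) :=
    Finset.sum_nonneg fun j _ => mul_nonneg (hw j) (Real.rpow_nonneg (ha j) _)
  have h2 := Real.rpow_le_rpow (Finset.sum_nonneg fun j _ => mul_nonneg (hw j) (ha j)) h1 hp.le
  rw [Real.mul_rpow (Real.rpow_nonneg hW _) (Real.rpow_nonneg hS _), ← Real.rpow_mul hW,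
    ← Real.rpow_mul hS, inv_mul_cancel₀ hp.ne', Real.rpow_one,
    show (1 - (1 + θ)⁻¹) * (1 + θ) = θ by field_simp; ring] at h2
  rw [e1]
  refine h2.trans ?_
  rw [Finset.mul_sum]
  refine le_trans (Finset.sum_le_sum fun i hi => ?_) (Finset.sum_le_sum_of_subset_of_nonneg
    (Finset.filter_subset (fun j => a j ≠ 0) s) fun i _ _ =>
      mul_nonneg (mul_nonneg (hw i) (Real.rpow_nonneg (hP0 i) _)) (Real.rpow_nonneg (ha i) _))
  obtain ⟨hi1, hi2⟩ := Finset.mem_filter.1 hi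
  have h3 := Real.rpow_le_rpow hW (hP i hi1 hi2) hθ.le
  have h4 := mul_le_mul_of_nonneg_right h3 (mul_nonneg (hw i) (Real.rpow_nonneg (ha i) (1 + θ)))
  linarith

theorem abs_mul_le' {a x L R : ℝ} (ha : |a| ≤ L) (hx : |x| ≤ R) : |a * x| ≤ L * R := by
  rw [abs_mul]
  exact mul_le_mul ha hx (abs_nonneg _) ((abs_nonneg _).trans ha)

end RecA

open RecA in
/-- Submultiplicativity.  `Q` from `DecH` with `ρ = L/Λ`, `f_g y = fm μ (Λ g.a) (y - Λ g.b)`,
`fm μ Λ = ∑ Q g * f_g` (`St.fm_sum`); `f_g y ≠ 0 → |y - Λ g.b| ≤ L R + 1`.  Put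
`P g = ∑ g' ∈ sp Q with |Λ (g.b - g'.b)| ≤ 2 L R + 2, Q g'`.  Jensen/Hölder over the contributing
`g` (their total weight is `≤ P g` for each contributing `g`):
`(fm μ Λ y)^{1+θ} ≤ ∑ Q g * (P g)^θ * (f_g y)^{1+θ}`, so `Mq Λ ≤ M * ∑ Q g * (P g)^θ`.
With `f' = fm μ (Λ/D) = ∑ Q g * f'_g`, `∫ f'_g = 1`, and `f'_g y ≠ 0` implies
`P g ≤ μ.real {x | (Λ/D) x ∈ (y-2, y+1]} = f' (y-1) + f' y + f' (y+1)` (use `St` for this set),
so `∑ Q g (P g)^θ = ∫ ∑ Q g * f'_g y * (P g)^θ ≤ ∫ f' (f' + f' + f')^θ` and `integral_three_le`. -/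
theorem Mq_rec {μ : Measure ℝ} (hμ : BP μ) {l : ℝ} (hl : 0 < l) (hd : DecH μ l) {R : ℝ}
    (hR0 : 0 < R) (hR : μ {x | R < |x|} = 0) {θ L D M : ℝ} (hθ : 0 < θ) (hθ1 : θ ≤ 1)
    (hL : 0 < L) (hD : 4 * L * R + 2 ≤ D)
    (hM : ∀ Λ' : ℝ, l * L < |Λ'| → |Λ'| ≤ L → Mq μ θ Λ' ≤ M) {Λ : ℝ} (hΛ : l * L < Λ) :
    Mq μ θ Λ ≤ M * ((1 + 27 * θ) * Mq μ θ (Λ / D)) := by
  classical
  have hΛ0 : 0 < Λ := (mul_pos hl hL).trans hΛ
  have hLR : 0 < L * R := mul_pos hL hR0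
  have hD0 : 0 < D := by nlinarith
  obtain ⟨Q, hQ, hst, hq⟩ := hd (L / Λ) (div_pos hL hΛ0) (by
    rw [← mul_div_assoc, div_lt_one hΛ0]; exact hΛ)
  have hq1 : ∀ g ∈ sp Q, l * L < |Λ * g.a| := fun g hg => by
    have := (hq g hg).1
    rw [← mul_div_assoc, div_lt_iff₀ hΛ0] at this
    rw [abs_mul, abs_of_pos hΛ0]; linarith
  have hq2 : ∀ g ∈ sp Q, |Λ * g.a| ≤ L := fun g hg => by
    have := (hq g hg).2
    rw [le_div_iff₀ hΛ0] at this
    rw [abs_mul, abs_of_pos hΛ0]; linarith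
  have hM0 : 0 ≤ M := by
    obtain ⟨g, hg, -⟩ := Finset.exists_ne_zero_of_sum_ne_zero (hQ.sum.trans_ne one_ne_zero)
    exact (Mq_nonneg θ _).trans (hM _ (hq1 g hg) (hq2 g hg))
  set P : Aff → ℝ := fun g => ∑ g' ∈ (sp Q).filter
    (fun g' => |Λ * g.b - Λ * g'.b| ≤ 2 * (L * R) + 2), Q.coeff g' with hPdef
  have hP0 : ∀ g, 0 ≤ P g := fun g => Finset.sum_nonneg fun g' _ => hQ.nn g'
  have hc0 : ∀ g, 0 ≤ Q.coeff g * P g ^ θ := fun g =>
    mul_nonneg (hQ.nn g) (Real.rpow_nonneg (hP0 g) _)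
  -- first half
  have h1 : Mq μ θ Λ ≤ M * ∑ g ∈ sp Q, Q.coeff g * P g ^ θ := by
    have hint : ∀ g : Aff, Integrable fun y => fm μ (Λ * g.a) (y - Λ * g.b) ^ (1 + θ) := fun g =>
      (hμ.integrable_rpow hθ.le (Λ * g.a)).comp_sub_right (Λ * g.b)
    have hpt : ∀ y, fm μ Λ y ^ (1 + θ) ≤
        ∑ g ∈ sp Q, Q.coeff g * P g ^ θ * fm μ (Λ * g.a) (y - Λ * g.b) ^ (1 + θ) := by
      intro y
      rw [congrFun (hst.fm_sum Λ) y]
      refine jensen (sp Q) hQ.nn (fun g => fm_nn _ _ _) hP0 hθ fun g hg hg0 => ?_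
      refine Finset.sum_le_sum_of_subset_of_nonneg (fun g' hg' => ?_) fun g' _ _ => hQ.nn g'
      obtain ⟨hg1, hg2⟩ := Finset.mem_filter.1 hg'
      refine Finset.mem_filter.2 ⟨hg1, ?_⟩
      obtain ⟨x, hx, a1, a2⟩ := supp hR hg0
      obtain ⟨x', hx', a3, a4⟩ := supp hR hg2
      have b1 := abs_le.1 (abs_mul_le' (hq2 g hg) hx)
      have b2 := abs_le.1 (abs_mul_le' (hq2 g' hg1) hx')
      rw [abs_le]
      constructor <;> linarith [b1.1, b1.2, b2.1, b2.2]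
    calc Mq μ θ Λ ≤ ∫ y, ∑ g ∈ sp Q,
          Q.coeff g * P g ^ θ * fm μ (Λ * g.a) (y - Λ * g.b) ^ (1 + θ) :=
          integral_mono (hμ.integrable_rpow hθ.le Λ)
            (integrable_finsetSum _ fun g _ => (hint g).const_mul _) hpt
      _ = ∑ g ∈ sp Q, Q.coeff g * P g ^ θ * Mq μ θ (Λ * g.a) := by
          rw [integral_finsetSum _ fun g _ => (hint g).const_mul _]
          refine Finset.sum_congr rfl fun g _ => ?_
          rw [integral_const_mul,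
            integral_sub_right_eq_self (fun y => fm μ (Λ * g.a) y ^ (1 + θ)) (Λ * g.b)]
          rfl
      _ ≤ ∑ g ∈ sp Q, Q.coeff g * P g ^ θ * M :=
          Finset.sum_le_sum fun g hg =>
            mul_le_mul_of_nonneg_left (hM _ (hq1 g hg) (hq2 g hg)) (hc0 g)
      _ = _ := by rw [← Finset.sum_mul, mul_comm]
  -- second half
  have h2 : ∑ g ∈ sp Q, Q.coeff g * P g ^ θ ≤ (1 + 27 * θ) * Mq μ θ (Λ / D) := by
    refine le_trans ?_ (integral_three_le hμ hθ hθ1 (Λ / D))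
    have hden := hμ.den_fm (Λ / D)
    have hdg : ∀ g : Aff, Den fun y => fm μ (Λ / D * g.a) (y - Λ / D * g.b) := fun g =>
      (hμ.den_fm _).shift _
    have hT : ∀ y, ∀ g ∈ sp Q, fm μ (Λ / D * g.a) (y - Λ / D * g.b) ≠ 0 →
        P g ≤ fm μ (Λ / D) (y - 1) + fm μ (Λ / D) y + fm μ (Λ / D) (y + 1) := by
      intro y g hg hg0
      obtain ⟨x, hx, a1, a2⟩ := supp hR hg0
      rw [congrFun (hst.fm_sum (Λ / D)) (y - 1), congrFun (hst.fm_sum (Λ / D)) y,
        congrFun (hst.fm_sum (Λ / D)) (y + 1), ← Finset.sum_add_distrib, ← Finset.sum_add_distrib]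
      refine le_trans ?_ (Finset.sum_le_sum_of_subset_of_nonneg
        (Finset.filter_subset (fun g' : Aff => |Λ * g.b - Λ * g'.b| ≤ 2 * (L * R) + 2) (sp Q))
        fun g' _ _ => add_nonneg (add_nonneg (mul_nonneg (hQ.nn _) (fm_nn _ _ _))
          (mul_nonneg (hQ.nn _) (fm_nn _ _ _))) (mul_nonneg (hQ.nn _) (fm_nn _ _ _)))
      rw [hPdef]
      refine Finset.sum_le_sum fun g' hg' => ?_
      obtain ⟨hg1, hg2⟩ := Finset.mem_filter.1 hg'
      have h3 := three hμ hR (Λ := Λ / D * g'.a) (y := y - Λ / D * g'.b) fun x' hx' => by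
        have b1 := abs_le.1 (abs_mul_le' (hq2 g hg) hx)
        have b2 := abs_le.1 (abs_mul_le' (hq2 g' hg1) hx')
        have b3 := abs_le.1 hg2
        have c1 : Λ / D * g'.a * x' + Λ / D * g'.b - (Λ / D * g.a * x + Λ / D * g.b) =
            (Λ * g'.a * x' - Λ * g.a * x - (Λ * g.b - Λ * g'.b)) / D := by
          field_simp
          ring
        have c2 : (Λ * g'.a * x' - Λ * g.a * x - (Λ * g.b - Λ * g'.b)) / D ≤ 1 := by
          rw [div_le_one hD0]; linarith [b1.1, b2.2, b3.1]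
        have c3 : -1 ≤ (Λ * g'.a * x' - Λ * g.a * x - (Λ * g.b - Λ * g'.b)) / D := by
          rw [le_div_iff₀ hD0]; linarith [b1.2, b2.1, b3.2]
        constructor <;> linarith
      rw [← mul_add, ← mul_add, sub_right_comm y 1, add_sub_right_comm y 1]
      exact le_mul_of_one_le_right (hQ.nn _) h3
    have hT0 : ∀ y, 0 ≤ fm μ (Λ / D) (y - 1) + fm μ (Λ / D) y + fm μ (Λ / D) (y + 1) := fun y =>
      add_nonneg (add_nonneg (fm_nn _ _ _) (fm_nn _ _ _)) (fm_nn _ _ _)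
    have hint : Integrable fun y => fm μ (Λ / D) y *
        (fm μ (Λ / D) (y - 1) + fm μ (Λ / D) y + fm μ (Λ / D) (y + 1)) ^ θ := by
      refine hden.integrable.mul_bdd (c := 3 ^ θ) ?_ (Filter.Eventually.of_forall fun y => ?_)
      · exact ((((hden.meas.comp (measurable_id.sub_const 1)).add hden.meas).add
          (hden.meas.comp (measurable_id.add_const 1))).pow_const θ).aestronglyMeasurable
      · rw [Real.norm_of_nonneg (Real.rpow_nonneg (hT0 y) _)]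
        refine Real.rpow_le_rpow (hT0 y) ?_ hθ.le
        linarith [hden.le1 (y - 1), hden.le1 y, hden.le1 (y + 1)]
    calc ∑ g ∈ sp Q, Q.coeff g * P g ^ θ
        = ∫ y, ∑ g ∈ sp Q, Q.coeff g * P g ^ θ * fm μ (Λ / D * g.a) (y - Λ / D * g.b) := by
          rw [integral_finsetSum _ fun g _ => (hdg g).integrable.const_mul _]
          refine Finset.sum_congr rfl fun g _ => ?_
          rw [integral_const_mul, (hdg g).int, mul_one]
      _ ≤ _ := by
          refine integral_mono (integrable_finsetSum _ fun g _ => (hdg g).integrable.const_mul _)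
            hint fun y => ?_
          have hT' := hT y
          have hT0' := hT0 y
          simp only
          generalize fm μ (Λ / D) (y - 1) + fm μ (Λ / D) y + fm μ (Λ / D) (y + 1) = T at hT' hT0'
          rw [congrFun (hst.fm_sum (Λ / D)) y, Finset.sum_mul]
          refine Finset.sum_le_sum fun g hg => ?_
          by_cases h0 : fm μ (Λ / D * g.a) (y - Λ / D * g.b) = 0
          · rw [h0]; simp
          · have h4 := Real.rpow_le_rpow (hP0 g) (hT' g hg h0) hθ.le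
            have h5 := mul_le_mul_of_nonneg_left h4
              (mul_nonneg (hQ.nn g) (fm_nn μ (Λ / D * g.a) (y - Λ / D * g.b)))
            linarith
  exact h1.trans (mul_le_mul_of_nonneg_left h2 hM0)

end Crest.Agent.R98
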