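import Crest.Agent.R98.Dec
import Crest.Agent.R98.Prof
import Crest.Agent.R98.Gain

/-! # R98 SUP: the supply of variance (task 98-SUP) -/

set_option autoImplicit false

open MeasureTheory

namespace Crest.Agent.R98

/-- `RI.fm_words`, `En_mix`, `h1_le_En_st_fm` -/
theorem RI.sum_h1_le {μ : Measure ℝ} {Ω : Type} [Fintype Ω] {q lam : Ω → ℝ} {τ : Ω → FM} {l : ℝ}
    {m : ℕ} (h : RI μ q lam τ l m) (n : ℕ) (c : ℝ) :
    ∑ w : Fin n → Ω, pW q w * h1 (sc c (tauW lam τ n w)) ≤ hm μ c := by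
  have hq : ∀ w : Fin n → Ω, 0 ≤ pW q w := fun w => pW_nonneg h.q_nn w
  rw [hm, h.fm_words n c]
  refine le_trans (Finset.sum_le_sum fun w _ => mul_le_mul_of_nonneg_left
    (h1_le_En_st_fm h.bp (c * pW lam w) ((isP_tauW lam h.isP n w).sc c)) (hq w)) ?_
  exact En_mix (fun w _ => hq w) (pW_sum h.q_sum n) fun w _ =>
    (h.bp.den_fm _).st ((isP_tauW lam h.isP n w).sc _)

theorem sum_range_mul_residue (F : ℕ → ℝ) (B J : ℕ) :
    ∑ k ∈ Finset.range (J * B), F k =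
      ∑ a ∈ Finset.range B, ∑ j ∈ Finset.range J, F (a + j * B) := by
  induction J with
  | zero => simp
  | succ J ih =>
    rw [Nat.succ_mul, Finset.sum_range_add, ih, ← Finset.sum_add_distrib]
    refine Finset.sum_congr rfl fun a _ => ?_
    rw [Finset.sum_range_succ, add_comm (J * B) a]

/-- Let `χ = ∑ q (-log |lam|) ≥ 0`; pick `ε > 0` with `α (χ + ε) < h'`, `δ = (h' - α (χ+ε))/2`,
`C` from `prof`, `x₀ = min 1 (δ / (2 (C m + 1)))`, `B₀ ≥ 1` with `1 ≤ 2^B₀ l`,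
`U = δ x₀² / (8 B₀)`.  Given `S, κ` take `n ≥ 1` large, `c₀ = S exp (n (χ + ε)) ≥ L₀`,
`α log S ≤ δ n`, `C'/n ≤ κ` (`wlln` for `X = -log |lam|`).  `prof` with `B = n m`
(`h1_tauW_pow`) gives `W w k`; `ent_le_h1` gives `J` with `Ent τ_w ≤ h1 (sc (2^K c₀) τ_w)` for all
`w`, `K = J * (B₀ n)`.  Then `δ n ≤ ∑ pW (Ent τ_w - h1 (sc c₀ τ_w)) ≤ 4 V / x₀² + C n m x₀`
(`RI.sum_h1_le`), so `V = ∑_{k<K} ∑_w pW W w k ≥ δ x₀² n / 8`; pigeonhole over the residues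
`a < B₀ n` of `k = a + j (B₀ n)`; `X j = 2^(a + j B₀ n) c₀`,
`Bad = {w | n (χ + ε) ≤ ∑ -log |lam (w j)|}`, and `|pW lam w| ≥ l^n`. -/
theorem supply {μ : Measure ℝ} {Ω : Type} [Fintype Ω] {q lam : Ω → ℝ} {τ : Ω → FM} {l : ℝ}
    {m : ℕ} (h : RI μ q lam τ l m) {α h' : ℝ} (hα : 0 ≤ α)
    (hχ : α * ∑ ω, q ω * -Real.log |lam ω| < h')
    (hE : ∀ n : ℕ, h' * n ≤ ∑ w : Fin n → Ω, pW q w * Ent (tauW lam τ n w))
    (hm' : ∃ L₀ : ℝ, ∀ L, L₀ ≤ L → hm μ L ≤ α * Real.log L) :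
    ∃ U : ℝ, 0 < U ∧ ∀ S κ : ℝ, 0 < S → 0 < κ → Supply q lam τ S U κ := by
  classical
  obtain ⟨L₀, hL₀⟩ := hm'
  have hl := h.l_pos
  have hlam : ∀ ω, 0 < |lam ω| := fun ω => hl.trans_le (h.l_le ω)
  set χ : ℝ := ∑ ω, q ω * -Real.log |lam ω| with hχdef
  have hχ0 : 0 ≤ χ := Finset.sum_nonneg fun ω _ => mul_nonneg (h.q_nn ω)
    (neg_nonneg.2 (Real.log_nonpos (abs_nonneg _) (h.lt_one ω).le))
  obtain ⟨ε, hε, hεα⟩ : ∃ ε : ℝ, 0 < ε ∧ α * (χ + ε) < h' := by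
    have h1 : 0 < h' - α * χ := by linarith
    refine ⟨(h' - α * χ) / (α + 1), by positivity, ?_⟩
    have h2 : α * ((h' - α * χ) / (α + 1)) < h' - α * χ := by
      rw [mul_div_assoc', div_lt_iff₀ (by positivity)]
      nlinarith
    linarith
  set δ : ℝ := (h' - α * (χ + ε)) / 2 with hδdef
  have hδ : 0 < δ := by rw [hδdef]; linarith
  obtain ⟨C, hC, hprof⟩ := prof
  have hm0 : (0 : ℝ) ≤ m := Nat.cast_nonneg m
  set x₀ : ℝ := min 1 (δ / (2 * (C * m + 1))) with hx₀def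
  have hx₀ : 0 < x₀ := lt_min one_pos (by positivity)
  have hx₁ : x₀ ≤ 1 := min_le_left _ _
  have hx₂ : C * m * x₀ ≤ δ / 2 := by
    have h1 : x₀ ≤ δ / (2 * (C * m + 1)) := min_le_right _ _
    rw [le_div_iff₀ (by positivity)] at h1
    nlinarith
  obtain ⟨B₀, hB₀, hB₀l⟩ : ∃ B₀ : ℕ, 1 ≤ B₀ ∧ 1 ≤ 2 ^ B₀ * l := by
    obtain ⟨k, hk⟩ := pow_unbounded_of_one_lt (1 / l) (by norm_num : (1 : ℝ) < 2)
    refine ⟨k + 1, by omega, ?_⟩
    rw [div_lt_iff₀ hl] at hk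
    rw [pow_succ]
    nlinarith
  have hB₀' : (0 : ℝ) < B₀ := by exact_mod_cast hB₀
  obtain ⟨C', hC', hbad⟩ := wlln h.q_nn h.q_sum (fun ω => -Real.log |lam ω|) hε
  refine ⟨δ * x₀ ^ 2 / (8 * B₀), by positivity, fun S κ hS hκ => ?_⟩
  obtain ⟨n, hn, hn1, hn2, hn3⟩ : ∃ n : ℕ, 1 ≤ n ∧ L₀ / (S * ε) ≤ n ∧ α * Real.log S / δ ≤ n ∧
      C' / κ ≤ n := by
    obtain ⟨k, hk⟩ := exists_nat_ge (max (L₀ / (S * ε)) (max (α * Real.log S / δ) (C' / κ)))
    simp only [max_le_iff] at hk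
    refine ⟨k + 1, by omega, ?_, ?_, ?_⟩ <;> push_cast <;> linarith [hk.1, hk.2.1, hk.2.2]
  have hn' : (0 : ℝ) < n := by exact_mod_cast hn
  set c₀ : ℝ := S * Real.exp (n * (χ + ε)) with hc₀def
  have hc₀ : 0 < c₀ := by positivity
  have hc₀L : L₀ ≤ c₀ := by
    rw [div_le_iff₀ (by positivity)] at hn1
    have h1 : n * ε ≤ Real.exp (n * (χ + ε)) := by
      have := Real.add_one_le_exp (n * (χ + ε))
      nlinarith
    have := mul_le_mul_of_nonneg_left h1 hS.le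
    nlinarith
  have hc₀h : hm μ c₀ ≤ (h' - δ) * n := by
    refine (hL₀ c₀ hc₀L).trans ?_
    rw [hc₀def, Real.log_mul hS.ne' (Real.exp_pos _).ne', Real.log_exp]
    rw [div_le_iff₀ hδ] at hn2
    have e : h' - δ = α * (χ + ε) + δ := by rw [hδdef]; ring
    rw [e]
    nlinarith
  have hτ : ∀ w : Fin n → Ω, IsP (tauW lam τ n w) := isP_tauW lam h.isP n
  have hq : ∀ w : Fin n → Ω, 0 ≤ pW q w := fun w => pW_nonneg h.q_nn w
  have hq1 : ∑ w : Fin n → Ω, pW q w = 1 := pW_sum h.q_sum n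
  choose W hW0 hWc hWs using fun w : Fin n → Ω => hprof (tauW lam τ n w) (n * m) (hτ w)
    (by positivity) (fun T c _ => h1_tauW_pow lam h.isP h.card n w T c) c₀ hc₀
  choose c1 hc1 using fun w : Fin n → Ω => ent_le_h1 (hτ w)
  set B : ℕ := B₀ * n with hB
  have hB1 : 1 ≤ B := Nat.mul_pos hB₀ hn
  obtain ⟨J, hJ⟩ := pow_unbounded_of_one_lt ((∑ w, |c1 w|) / c₀) (by norm_num : (1 : ℝ) < 2)
  have hJ' : ∀ w, c1 w ≤ 2 ^ (J * B) * c₀ := fun w => by
    rw [div_lt_iff₀ hc₀] at hJ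
    have h1 : |c1 w| ≤ ∑ w, |c1 w| :=
      Finset.single_le_sum (f := fun w => |c1 w|) (fun _ _ => abs_nonneg _) (Finset.mem_univ w)
    have h2 : (2 : ℝ) ^ J ≤ 2 ^ (J * B) :=
      pow_le_pow_right₀ one_le_two (Nat.le_mul_of_pos_right J hB1)
    have h3 := mul_le_mul_of_nonneg_right h2 hc₀.le
    linarith [le_abs_self (c1 w)]
  set F : ℕ → ℝ := fun k => ∑ w, pW q w * W w k with hF
  have hV : δ * x₀ ^ 2 * n / 8 ≤ ∑ k ∈ Finset.range (J * B), F k := by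
    have h1 : ∀ w : Fin n → Ω, Ent (tauW lam τ n w) ≤ h1 (sc c₀ (tauW lam τ n w)) +
        (4 / x₀ ^ 2 * (∑ k ∈ Finset.range (J * B), W w k) + C * (n * m) * x₀) := fun w => by
      have := hWs w (J * B) x₀ hx₀ hx₁
      have := hc1 w _ (hJ' w)
      have e : 4 / x₀ ^ 2 * (∑ k ∈ Finset.range (J * B), W w k) =
        4 * (∑ k ∈ Finset.range (J * B), W w k) / x₀ ^ 2 := by ring
      linarith
    have h2 := Finset.sum_le_sum fun w (_ : w ∈ Finset.univ) =>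
      mul_le_mul_of_nonneg_left (h1 w) (hq w)
    have h3 : ∑ w : Fin n → Ω, pW q w * (4 / x₀ ^ 2 * ∑ k ∈ Finset.range (J * B), W w k) =
        4 / x₀ ^ 2 * ∑ k ∈ Finset.range (J * B), F k := by
      simp only [hF, Finset.mul_sum]
      rw [Finset.sum_comm]
      exact Finset.sum_congr rfl fun k _ => Finset.sum_congr rfl fun w _ => by ring
    simp only [mul_add, Finset.sum_add_distrib, h3, ← Finset.sum_mul, hq1, one_mul] at h2
    have h4 := h.sum_h1_le n c₀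
    have h5 := hE n
    have h6 : C * (n * m) * x₀ ≤ δ / 2 * n := by nlinarith
    have h7 : δ / 2 * n ≤ 4 / x₀ ^ 2 * ∑ k ∈ Finset.range (J * B), F k := by nlinarith
    rw [div_mul_eq_mul_div 4, le_div_iff₀ (by positivity)] at h7
    linarith
  obtain ⟨a, -, ha⟩ : ∃ a ∈ Finset.range B,
      δ * x₀ ^ 2 / (8 * B₀) ≤ ∑ j ∈ Finset.range J, F (a + j * B) := by
    refine Finset.exists_le_of_sum_le ⟨0, Finset.mem_range.2 hB1⟩ ?_
    rw [← sum_range_mul_residue, Finset.sum_const, Finset.card_range, nsmul_eq_mul]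
    refine le_trans (le_of_eq ?_) hV
    rw [hB]
    push_cast
    field_simp
  have hpw : ∀ w : Fin n → Ω, |pW lam w| = ∏ j, |lam (w j)| := fun w => by
    rw [pW, Finset.abs_prod]
  refine ⟨n, J, fun j => 2 ^ (a + j * B) * c₀, fun j w => W w (a + j * B),
    Finset.univ.filter fun w => n * (χ + ε) ≤ ∑ j, -Real.log |lam (w j)|,
    fun j => by positivity, fun j w => ?_, fun j w => hW0 w _, fun j w => hWc w _, ha,
    fun w hw => ?_, ?_⟩
  · have h1 : l ^ n ≤ |pW lam w| := by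
      rw [hpw]
      calc l ^ n = ∏ _j : Fin n, l := by simp
        _ ≤ _ := Finset.prod_le_prod (fun _ _ => hl.le) fun j _ => h.l_le _
    have h2 : (1 : ℝ) ≤ 2 ^ B * l ^ n := by
      rw [hB, pow_mul, ← mul_pow]
      exact one_le_pow₀ hB₀l
    have h3 : (1 : ℝ) ≤ 2 ^ B * |pW lam w| :=
      h2.trans (mul_le_mul_of_nonneg_left h1 (by positivity))
    have e : (2 : ℝ) ^ (a + (j + 1) * B) * c₀ * |pW lam w| =
        2 ^ (a + j * B) * c₀ * (2 ^ B * |pW lam w|) := by ring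
    rw [e]
    exact le_mul_of_one_le_right (by positivity) h3
  · simp only [Finset.mem_filter, Finset.mem_univ, true_and, not_le] at hw
    have h1 : Real.exp (-(n * (χ + ε))) ≤ |pW lam w| := by
      have h2 : |pW lam w| = Real.exp (-∑ j, -Real.log |lam (w j)|) := by
        rw [hpw, Finset.sum_neg_distrib, neg_neg, Real.exp_sum]
        exact Finset.prod_congr rfl fun j _ => (Real.exp_log (hlam _)).symm
      rw [h2]
      exact Real.exp_le_exp.2 (by linarith)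
    have h2 : S ≤ c₀ * |pW lam w| := by
      refine le_trans (le_of_eq ?_) (mul_le_mul_of_nonneg_left h1 hc₀.le)
      rw [hc₀def, mul_assoc, ← Real.exp_add, add_neg_cancel, Real.exp_zero, mul_one]
    refine h2.trans (mul_le_mul_of_nonneg_right ?_ (abs_nonneg _))
    exact le_mul_of_one_le_left hc₀.le (one_le_pow₀ one_le_two)
  · refine (hbad n hn _ fun w hw => (Finset.mem_filter.1 hw).2).trans ?_
    rw [div_le_iff₀ hκ] at hn3
    rw [div_le_iff₀ hn']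
    linarith

end Crest.Agent.R98
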