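import Crest.Agent.R98.Ent

/-! # R98 VAR: variance, pieces and the potential `Gd` (task 98-VAR) -/

set_option autoImplicit false

open MeasureTheory

namespace Crest.Agent.R98

theorem Var_nonneg {ν : FM} (h : IsP ν) : 0 ≤ Var ν :=
  h.ex_nonneg fun _ _ => sq_nonneg _

theorem mean_mul {ν ζ : FM} (h : IsP ν) (h' : IsP ζ) : mean (ν * ζ) = mean ν + mean ζ := by
  unfold mean
  rw [ex_mul]
  have : ∀ x : ℝ, (ex ζ fun y => x + y) = x + ex ζ fun y => y := fun x => by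
    rw [ex_fadd ζ (fun _ => x) (fun y => y), h'.ex_const]
  simp only [this]
  rw [ex_fadd ν (fun x => x) (fun _ => ex ζ fun y => y), h.ex_const]

/-- `E (x - c)² = Var + (mean - c)²` -/
theorem ex_sq_sub {ν : FM} (h : IsP ν) (c : ℝ) :
    (ex ν fun x => (x - c) ^ 2) = Var ν + (mean ν - c) ^ 2 := by
  have e : (fun x : ℝ => (x - c) ^ 2) = fun x =>
      ((x - mean ν) ^ 2 + (2 * (mean ν - c)) * x) +
        ((mean ν - c) ^ 2 - 2 * (mean ν - c) * mean ν) := by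
    funext x; ring
  rw [e, ex_fadd, ex_fadd, h.ex_const, ex_fmul]
  have : (ex ν fun x => x) = mean ν := rfl
  rw [this]
  unfold Var
  ring

theorem Var_mul {ν ζ : FM} (h : IsP ν) (h' : IsP ζ) : Var (ν * ζ) = Var ν + Var ζ := by
  have e : Var (ν * ζ) = ex (ν * ζ) fun x => (x - (mean ν + mean ζ)) ^ 2 := by
    unfold Var; rw [mean_mul h h']
  rw [e, ex_mul]
  have : ∀ x : ℝ, (ex ζ fun y => (x + y - (mean ν + mean ζ)) ^ 2) = Var ζ + (x - mean ν) ^ 2 :=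
    fun x => by
      have e2 : (fun y : ℝ => (x + y - (mean ν + mean ζ)) ^ 2) =
          fun y => (y - (mean ν + mean ζ - x)) ^ 2 := by funext y; ring
      rw [e2, ex_sq_sub h']
      ring
  simp only [this]
  rw [ex_fadd, h.ex_const, add_comm]
  rfl

theorem mean_sc (a : ℝ) (ν : FM) : mean (sc a ν) = a * mean ν := by
  unfold mean
  rw [ex_sc, ex_fmul]

theorem Var_sc (a : ℝ) (ν : FM) : Var (sc a ν) = a ^ 2 * Var ν := by
  unfold Var
  rw [ex_sc, mean_sc, ← ex_fmul]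
  exact ex_congr fun x _ => by ring

/-- `2 Var ν = E E (x - y)²` -/
theorem two_Var {ν : FM} (h : IsP ν) : 2 * Var ν = ex ν fun x => ex ν fun y => (x - y) ^ 2 := by
  have : ∀ x : ℝ, (ex ν fun y => (x - y) ^ 2) = Var ν + (x - mean ν) ^ 2 := fun x => by
    have e2 : (fun y : ℝ => (x - y) ^ 2) = fun y => (y - x) ^ 2 := by funext y; ring
    rw [e2, ex_sq_sub h]
    ring
  simp only [this]
  rw [ex_fadd, h.ex_const, two_mul]
  rfl

theorem Piece.sq_le {ζ : FM} (h : Piece ζ) {x y : ℝ} (hx : x ∈ sp ζ) (hy : y ∈ sp ζ) :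
    (x - y) ^ 2 ≤ 1 := by
  have := h.diam x hx y hy
  rw [← sq_abs]
  exact pow_le_one₀ (abs_nonneg _) this

theorem Piece.Var_le {ζ : FM} (h : Piece ζ) : Var ζ ≤ 1 := by
  have h2 := two_Var h.isP
  have : (ex ζ fun x => ex ζ fun y => (x - y) ^ 2) ≤ 1 :=
    h.isP.ex_le fun x hx => h.isP.ex_le fun y hy => h.sq_le hx hy
  linarith

theorem cf_mul (ν ζ : FM) (t : ℝ) : cf (ν * ζ) t = cf ν t * cf ζ t := by
  unfold cf
  rw [ex_mul]
  simp only [ex_eq_sum, Finset.sum_mul_sum, Finset.smul_sum]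
  refine Finset.sum_congr rfl fun x _ => Finset.sum_congr rfl fun y _ => ?_
  have : Complex.exp (((t * (x + y) : ℝ) : ℂ) * Complex.I) =
      Complex.exp (((t * x : ℝ) : ℂ) * Complex.I) * Complex.exp (((t * y : ℝ) : ℂ) * Complex.I) := by
    rw [← Complex.exp_add]
    congr 1
    push_cast
    ring
  rw [this, smul_mul_smul_comm, smul_smul]

theorem Pv.nonneg {v : ℝ} {η : FM} (h : Pv v η) : 0 ≤ v := by
  rw [← h.var]; exact Var_nonneg h.isP

theorem pv_one : Pv 0 1 := by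
  refine ⟨isP_one, ?_, fun t _ => ?_⟩
  · simp [Var, mean]
  · simp [cf]

theorem Pv.mul {v v' : ℝ} {η η' : FM} (h : Pv v η) (h' : Pv v' η') : Pv (v + v') (η * η') := by
  refine ⟨h.isP.mul h'.isP, by rw [Var_mul h.isP h'.isP, h.var, h'.var], fun t ht => ?_⟩
  rw [cf_mul, norm_mul]
  have e : Real.exp (-(t ^ 2 * (v + v') / 5)) =
      Real.exp (-(t ^ 2 * v / 5)) * Real.exp (-(t ^ 2 * v' / 5)) := by
    rw [← Real.exp_add]; congr 1; ring
  rw [e]
  exact mul_le_mul (h.cf_le t ht) (h'.cf_le t ht) (norm_nonneg _) (Real.exp_pos _).le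

theorem Pv.pow {v : ℝ} {η : FM} (h : Pv v η) (T : ℕ) : Pv (T * v) (η ^ T) := by
  induction T with
  | zero => simpa using pv_one
  | succ T ih =>
    have := ih.mul h
    rw [pow_succ]
    convert this using 1
    push_cast
    ring

theorem cf_re (ν : FM) (t : ℝ) : (cf ν t).re = ex ν fun x => Real.cos (t * x) := by
  unfold cf
  rw [ex_eq_sum, ex_eq_sum', Complex.re_sum]
  refine Finset.sum_congr rfl fun x _ => ?_
  rw [Complex.real_smul, Complex.re_ofReal_mul, Complex.exp_ofReal_mul_I_re]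

theorem cf_im (ν : FM) (t : ℝ) : (cf ν t).im = ex ν fun x => Real.sin (t * x) := by
  unfold cf
  rw [ex_eq_sum, ex_eq_sum', Complex.im_sum]
  refine Finset.sum_congr rfl fun x _ => ?_
  rw [Complex.real_smul, Complex.im_ofReal_mul, Complex.exp_ofReal_mul_I_im]

theorem cf_norm_sq (ν : FM) (t : ℝ) :
    ‖cf ν t‖ ^ 2 = ex ν fun x => ex ν fun y => Real.cos (t * (x - y)) := by
  rw [Complex.sq_norm, Complex.normSq_apply, cf_re, cf_im]
  have : ∀ x : ℝ, (ex ν fun y => Real.cos (t * (x - y))) =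
      Real.cos (t * x) * (ex ν fun y => Real.cos (t * y)) +
        Real.sin (t * x) * (ex ν fun y => Real.sin (t * y)) := fun x => by
    rw [← ex_fmul, ← ex_fmul, ← ex_fadd]
    exact ex_congr fun y _ => by rw [mul_sub, Real.cos_sub]
  simp only [this]
  rw [ex_fadd, ex_fmul', ex_fmul']

/-- `‖cf ζ t‖² = E E cos (t (x - y)) ≤ 1 - (2/π²) t² · 2 Var ≤ exp (-(2/5) t² Var)`
(`Real.cos_le_one_sub_mul_cos_sq`/`Real.cos_quadratic_upper_bound`, `π² ≤ 10`, `two_Var`) -/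
theorem Piece.pv {ζ : FM} (h : Piece ζ) : Pv (Var ζ) ζ := by
  refine ⟨h.isP, rfl, fun t ht => ?_⟩
  have hπ : Real.pi ^ 2 ≤ 10 := by
    have h1 := Real.pi_lt_d2
    have h2 := Real.pi_pos
    nlinarith
  have hπ0 : 0 < Real.pi ^ 2 := by positivity
  have hc : (1 / 5 : ℝ) ≤ 2 / Real.pi ^ 2 := by
    rw [div_le_div_iff₀ (by norm_num) hπ0]; linarith
  have key : ‖cf ζ t‖ ^ 2 ≤ 1 - t ^ 2 / 5 * (2 * Var ζ) := by
    rw [cf_norm_sq, two_Var h.isP]
    have e : 1 - t ^ 2 / 5 * (ex ζ fun x => ex ζ fun y => (x - y) ^ 2) =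
        ex ζ fun x => ex ζ fun y => (1 - t ^ 2 / 5 * (x - y) ^ 2) := by
      simp only [ex_fsub, ex_fmul, h.isP.ex_const]
    rw [e]
    refine h.isP.ex_mono fun x hx => h.isP.ex_mono fun y hy => ?_
    have hd := h.diam x hx y hy
    have hb : |t * (x - y)| ≤ Real.pi := by
      rw [abs_mul]
      have : |t| * |x - y| ≤ 1 := mul_le_one₀ ht (abs_nonneg _) hd
      linarith [Real.pi_gt_three]
    have h3 := Real.cos_le_one_sub_mul_cos_sq hb
    have h4 : 1 / 5 * (t * (x - y)) ^ 2 ≤ 2 / Real.pi ^ 2 * (t * (x - y)) ^ 2 :=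
      mul_le_mul_of_nonneg_right hc (sq_nonneg _)
    nlinarith
  have h5 : 1 - t ^ 2 / 5 * (2 * Var ζ) ≤ Real.exp (-(t ^ 2 * Var ζ / 5)) ^ 2 := by
    rw [← Real.exp_nat_mul]
    have := Real.add_one_le_exp (((2 : ℕ) : ℝ) * -(t ^ 2 * Var ζ / 5))
    push_cast at this ⊢
    linarith
  exact le_of_sq_le_sq_of_nonneg (key.trans h5) (Real.exp_pos _).le
where le_of_sq_le_sq_of_nonneg {a b : ℝ} (h : a ^ 2 ≤ b ^ 2) (hb : 0 ≤ b) : a ≤ b :=
  le_trans (le_abs_self a) (abs_le_of_sq_le_sq h hb)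

theorem Cov.isP {ν : FM} {W : ℝ} (h : Cov ν W) : IsP ν := by
  obtain ⟨κ, s, c, ζ, hc, h1, hp, rfl, -⟩ := h
  exact isP_mix hc h1 fun j hj => (hp j hj).isP

theorem Cov.le_one {ν : FM} {W : ℝ} (h : Cov ν W) : W ≤ 1 := by
  obtain ⟨κ, s, c, ζ, hc, h1, hp, -, hW⟩ := h
  refine hW.trans ?_
  rw [← h1]
  exact Finset.sum_le_sum fun j hj => mul_le_of_le_one_right (hc j hj) (hp j hj).Var_le

theorem Cov.mono {ν : FM} {W W' : ℝ} (h : Cov ν W) (hW : W' ≤ W) : Cov ν W' := by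
  obtain ⟨κ, s, c, ζ, hc, h1, hp, he, hW'⟩ := h
  exact ⟨κ, s, c, ζ, hc, h1, hp, he, hW.trans hW'⟩

theorem Piece.sc {ζ : FM} (h : Piece ζ) {a : ℝ} (ha : |a| ≤ 1) : Piece (sc a ζ) := by
  refine ⟨h.isP.sc a, fun x hx y hy => ?_⟩
  obtain ⟨x', hx', rfl⟩ := mem_sp_sc hx
  obtain ⟨y', hy', rfl⟩ := mem_sp_sc hy
  rw [← mul_sub, abs_mul]
  exact mul_le_one₀ ha (abs_nonneg _) (h.diam x' hx' y' hy')

theorem Cov.sc {ν : FM} {W : ℝ} (h : Cov ν W) {a : ℝ} (ha : |a| ≤ 1) :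
    Cov (sc a ν) (a ^ 2 * W) := by
  obtain ⟨κ, s, c, ζ, hc, h1, hp, rfl, hW⟩ := h
  refine ⟨κ, s, c, fun j => R98.sc a (ζ j), hc, h1, fun j hj => (hp j hj).sc ha, sc_mix a s c ζ, ?_⟩
  have : ∑ j ∈ s, c j * Var (R98.sc a (ζ j)) = a ^ 2 * ∑ j ∈ s, c j * Var (ζ j) := by
    rw [Finset.mul_sum]
    exact Finset.sum_congr rfl fun j _ => by rw [Var_sc]; ring
  rw [this]
  exact mul_le_mul_of_nonneg_left hW (sq_nonneg a)

theorem Gd.mono {N : ℕ} {v₀ A b A' b' : ℝ} {f : ℝ → ℝ} (h : Gd N v₀ A b f) (hA : A' ≤ A)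
    (hb : b ≤ b') : Gd N v₀ A' b' f := by
  intro v η hη hv
  obtain ⟨h1, h2⟩ := h v η hη hv
  refine ⟨?_, fun h0 => hA.trans (h2 h0)⟩
  have := mul_le_mul_of_nonneg_right hb (Real.exp_pos (-v)).le
  linarith

theorem Gd.shift {N : ℕ} {v₀ A b : ℝ} {f : ℝ → ℝ} (h : Gd N v₀ A b f) (a : ℝ) :
    Gd N v₀ A b fun y => f (y - a) := by
  intro v η hη hv
  rw [st_shift, Dn_shift N (st η f) a]
  exact h v η hη hv

theorem exp_neg_le_half {u : ℝ} (h0 : 0 ≤ u) (h1 : u ≤ 1) : Real.exp (-u) ≤ 1 - u / 2 := by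
  have h2 := Real.add_one_le_exp u
  have h3 : Real.exp (-u) * Real.exp u = 1 := by rw [← Real.exp_add]; simp
  have h4 := Real.exp_pos (-u)
  have h5 : Real.exp (-u) * (u + 1) ≤ 1 := by
    calc Real.exp (-u) * (u + 1) ≤ Real.exp (-u) * Real.exp u :=
          mul_le_mul_of_nonneg_left h2 h4.le
      _ = 1 := h3
  by_contra hn
  push Not at hn
  have h6 : (1 - u / 2) * (u + 1) < Real.exp (-u) * (u + 1) :=
    mul_lt_mul_of_pos_right hn (by linarith)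
  nlinarith

/-- Collecting variance.  For `v ≥ v₀` use `Dn_st` (and `b (1 - p/2) ≥ 0`).  For `v < v₀` write
`ν = ∑ cⱼ ζⱼ`; `st η (st ν f) = ∑ cⱼ st (η * ζⱼ) f`, `Pv (v + uⱼ) (η * ζⱼ)` with
`uⱼ = Var ζⱼ ∈ [0,1]`, `Dn_mix`, and `exp (-u) ≤ 1 - u/2` on `[0,1]`. -/
theorem Gd.step {N : ℕ} (hN : 1 ≤ N) {v₀ A b p : ℝ} {f : ℝ → ℝ} (hf : Den f) (hb : 0 ≤ b)
    (h : Gd N v₀ A b f) {ν : FM} (hν : Cov ν p) : Gd N v₀ A (b * (1 - p / 2)) (st ν f) := by
  intro v η hη hv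
  have hp1 := hν.le_one
  have hP := hν.isP
  have big : v₀ ≤ v → A ≤ Dn N (st η (st ν f)) := fun h0 => by
    rw [st_comm]
    exact ((h v η hη hv).2 h0).trans (Dn_st hN (hf.st hη.isP) hP)
  refine ⟨?_, big⟩
  by_cases h0 : v₀ ≤ v
  · have h1 := big h0
    have h2 : 0 ≤ b * (1 - p / 2) * Real.exp (-v) :=
      mul_nonneg (mul_nonneg hb (by linarith)) (Real.exp_pos _).le
    linarith
  push Not at h0
  obtain ⟨κ, s, c, ζ, hc, h1, hp, rfl, hW⟩ := hν
  rw [st_mix, st_fmix]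
  refine le_trans ?_ (Dn_mix hN hc h1 fun j hj => (hf.st (hp j hj).isP).st hη.isP)
  have hj : ∀ j ∈ s, c j * (A - b * Real.exp (-v) * (1 - Var (ζ j) / 2)) ≤
      c j * Dn N (st η (st (ζ j) f)) := fun j hj => by
    refine mul_le_mul_of_nonneg_left ?_ (hc j hj)
    have hu0 := Var_nonneg (hp j hj).isP
    have hu1 := (hp j hj).Var_le
    have h3 := (h (v + Var (ζ j)) (η * ζ j) (hη.mul (hp j hj).pv) (by linarith)).1
    rw [st_mul] at h3
    refine le_trans ?_ h3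
    have h4 : Real.exp (-(v + Var (ζ j))) = Real.exp (-v) * Real.exp (-Var (ζ j)) := by
      rw [← Real.exp_add]; congr 1; ring
    rw [h4]
    have h5 := mul_le_mul_of_nonneg_left (exp_neg_le_half hu0 hu1)
      (mul_nonneg hb (Real.exp_pos (-v)).le)
    linarith
  refine le_trans ?_ (Finset.sum_le_sum hj)
  have e : ∑ j ∈ s, c j * (A - b * Real.exp (-v) * (1 - Var (ζ j) / 2)) =
      (A - b * Real.exp (-v)) * ∑ j ∈ s, c j +
        b * Real.exp (-v) / 2 * ∑ j ∈ s, c j * Var (ζ j) := by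
    rw [Finset.mul_sum, Finset.mul_sum, ← Finset.sum_add_distrib]
    exact Finset.sum_congr rfl fun j _ => by ring
  rw [e, h1]
  have h6 := mul_le_mul_of_nonneg_left hW
    (div_nonneg (mul_nonneg hb (Real.exp_pos (-v)).le) (zero_le_two (α := ℝ)))
  linarith

/-- Mixtures; on the indices in `Bad` only `Dn ≥ 0` is used (`st_fmix`, `Dn_mix`, `Dn_nonneg`). -/
theorem gd_mix {N : ℕ} (hN : 1 ≤ N) {v₀ A κ₀ : ℝ} (hA : 0 ≤ A) {κ : Type*} {s : Finset κ}
    {c b : κ → ℝ} {g : κ → ℝ → ℝ} (hc : ∀ j ∈ s, 0 ≤ c j) (h1 : ∑ j ∈ s, c j = 1)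
    (hb : ∀ j ∈ s, 0 ≤ b j) (hg : ∀ j ∈ s, Den (g j)) {Bad : Finset κ} (hB : Bad ⊆ s)
    (hκ : ∑ j ∈ Bad, c j ≤ κ₀) (h : ∀ j ∈ s, j ∉ Bad → Gd N v₀ A (b j) (g j)) :
    Gd N v₀ (A - A * κ₀) (∑ j ∈ s, c j * b j) fun y => ∑ j ∈ s, c j * g j y := by
  classical
  intro v η hη hv
  rw [st_fmix]
  have hD := Dn_mix hN hc h1 fun j hj => (hg j hj).st hη.isP
  have hbad : ∑ j ∈ s, c j * (if j ∈ Bad then A else 0) = A * ∑ j ∈ Bad, c j := by
    simp only [mul_ite, mul_zero]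
    rw [← Finset.sum_filter, Finset.filter_mem_eq_inter, Finset.inter_eq_right.2 hB,
      Finset.mul_sum]
    exact Finset.sum_congr rfl fun j _ => mul_comm _ _
  have hAk := mul_le_mul_of_nonneg_left hκ hA
  have gen : ∀ e : ℝ, 0 ≤ e → (∀ j ∈ s, j ∉ Bad → A - b j * e ≤ Dn N (st η (g j))) →
      A - A * κ₀ - (∑ j ∈ s, c j * b j) * e ≤ ∑ j ∈ s, c j * Dn N (st η (g j)) := by
    intro e he hj
    have h2 : ∀ j ∈ s, c j * (A - (if j ∈ Bad then A else 0) - b j * e) ≤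
        c j * Dn N (st η (g j)) := fun j hjs => by
      refine mul_le_mul_of_nonneg_left ?_ (hc j hjs)
      split_ifs with hjB
      · have h3 := Dn_nonneg hN ((hg j hjs).st hη.isP)
        have h4 := mul_nonneg (hb j hjs) he
        linarith
      · have := hj j hjs hjB
        linarith
    refine le_trans ?_ (Finset.sum_le_sum h2)
    have e1 : ∑ j ∈ s, c j * (A - (if j ∈ Bad then A else 0) - b j * e) =
        A * ∑ j ∈ s, c j - ∑ j ∈ s, c j * (if j ∈ Bad then A else 0) -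
          (∑ j ∈ s, c j * b j) * e := by
      rw [Finset.mul_sum, Finset.sum_mul, ← Finset.sum_sub_distrib, ← Finset.sum_sub_distrib]
      exact Finset.sum_congr rfl fun j _ => by ring
    rw [e1, hbad, h1]
    linarith
  refine ⟨(gen _ (Real.exp_pos _).le fun j hj hjB => (h j hj hjB v η hη hv).1).trans hD,
    fun h0 => ?_⟩
  have := gen 0 le_rfl fun j hj hjB => by
    rw [mul_zero, sub_zero]; exact (h j hj hjB v η hη hv).2 h0
  rw [mul_zero, sub_zero] at this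
  exact this.trans hD

end Crest.Agent.R98
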